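import Claimed.Agent.R280.FF.Below

/-!
# Row 280, package FF, leaf FF4b (Above): places above a given place, the fundamental equality
(Stichtenoth 3.1.7, 3.1.11), conorm

Let `x ∈ M` have `P` as its only zero (`exists_zero_only_at`), `x'` its image in `M'` (transcendental,
`transcendental_algebraMap_iff`; `M'` is a function field by `isFF_of_finite`).
* `Place.over_iff_v_lt_one`: `Q.Over P ↔ Q.v x' < 1` (the place below `Q` is a zero of `x`).
* `exists_over`: `exists_place_lt_one`; `finite_over`: `finite_setOf_v_lt_one`.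
* `sum_ramIdx_mul_deg`: `sum_zeros` in `M'` and in `M`, `Place.Over.ord_algebraMap`,
  `finrank_adjoin_tower`:  `r ∑ e(Q|P) deg Q = [M' : k(x')] = n [M : k(x)] = n r deg P`, `r = P.ord x > 0`.
-/

set_option autoImplicit false

namespace Claimed.Agent.R280

open WithZero

variable {k M M' : Type*} [Field k] [Field M] [Field M'] [Algebra k M] [Algebra k M'] [Algebra M M']
  [IsScalarTower k M M'] [IsFF k M] [Module.Finite M M']

theorem Place.over_iff_v_lt_one {P : Place k M} {x : M} (hx : P.v x < 1) (hx0 : x ≠ 0)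
    (hx' : ∀ P' : Place k M, P' ≠ P → 1 ≤ P'.v x) (Q : Place k M') :
    Q.Over P ↔ Q.v (algebraMap M M' x) < 1 := by
  constructor
  · intro h
    exact (h.v_lt_one_iff x).2 hx
  · intro h
    obtain ⟨P₀, hP₀, -⟩ := Place.existsUnique_below (M := M) Q
    have h1 : P₀.v x < 1 := (hP₀.v_lt_one_iff x).1 h
    have h2 : P₀ = P := by
      by_contra hne
      exact absurd h1 (not_lt.2 (hx' P₀ hne))
    rw [← h2]
    exact hP₀

theorem Place.exists_over (P : Place k M) : ∃ Q : Place k M', Q.Over P := by
  have := isFF_of_finite k M M'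
  obtain ⟨x, hxt, hx, hx'⟩ := exists_zero_only_at P
  have hx0 : x ≠ 0 := by
    rintro rfl
    exact hxt isAlgebraic_zero
  obtain ⟨Q, hQ⟩ := exists_place_lt_one (M := M')
    ((transcendental_algebraMap_iff (M' := M')).2 hxt)
  exact ⟨Q, (Place.over_iff_v_lt_one hx hx0 hx' Q).2 hQ⟩

theorem Place.finite_over (P : Place k M) : {Q : Place k M' | Q.Over P}.Finite := by
  have := isFF_of_finite k M M'
  obtain ⟨x, hxt, hx, hx'⟩ := exists_zero_only_at P
  have hx0 : x ≠ 0 := by
    rintro rfl
    exact hxt isAlgebraic_zero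
  have hx0' : algebraMap M M' x ≠ 0 := by simpa using hx0
  refine (finite_setOf_v_lt_one (k := k) hx0').subset fun Q hQ => ?_
  exact (Place.over_iff_v_lt_one hx hx0 hx' Q).1 hQ

omit [IsScalarTower k M M'] [IsFF k M] [Module.Finite M M'] in
theorem ffAb_support_ramIdx (P : Place k M) (g : Place k M' → ℕ) :
    (Function.support fun Q : Place k M' => Q.ramIdx P * g Q) ⊆ {Q : Place k M' | Q.Over P} := by
  intro Q hQ
  by_contra h
  exact hQ (by simp [Place.ramIdx_eq_zero h])

/-- the fundamental equality `∑ e f = n`, multiplied by `deg P`; valid for inseparable `M'/M` too -/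
theorem sum_ramIdx_mul_deg (P : Place k M) :
    ∑ᶠ Q : Place k M', Q.ramIdx P * Q.deg = Module.finrank M M' * P.deg := by
  have := isFF_of_finite k M M'
  obtain ⟨x, hxt, hx, hx'⟩ := exists_zero_only_at P
  have hx0 : x ≠ 0 := by
    rintro rfl
    exact hxt isAlgebraic_zero
  have hx0' : algebraMap M M' x ≠ 0 := by simpa using hx0
  have hr : 0 < P.ord x := (P.v_lt_one_iff hx0).1 hx
  -- downstairs
  have h1 : ∑ᶠ P' : Place k M, max (P'.ord x) 0 * (P'.deg : ℤ) = P.ord x * P.deg := by
    rw [finsum_eq_single _ P, max_eq_left hr.le]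
    intro P' hP'
    have : P'.ord x ≤ 0 := by
      by_contra h
      exact absurd ((P'.v_lt_one_iff hx0).2 (not_le.1 h)) (not_lt.2 (hx' P' hP'))
    rw [max_eq_right this, zero_mul]
  -- upstairs
  have h2 : ∀ Q : Place k M', max (Q.ord (algebraMap M M' x)) 0 * (Q.deg : ℤ)
      = P.ord x * ((Q.ramIdx P * Q.deg : ℕ) : ℤ) := by
    intro Q
    by_cases hQ : Q.Over P
    · rw [hQ.ord_algebraMap, max_eq_left (by positivity)]
      push_cast
      ring
    · have : Q.ord (algebraMap M M' x) ≤ 0 := by
        by_contra h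
        exact hQ ((Place.over_iff_v_lt_one hx hx0 hx' Q).2 ((Q.v_lt_one_iff hx0').2 (not_le.1 h)))
      rw [max_eq_right this, Place.ramIdx_eq_zero hQ]
      simp
  have hfin : (Function.support fun Q : Place k M' => Q.ramIdx P * Q.deg).Finite :=
    (Place.finite_over P).subset (ffAb_support_ramIdx P _)
  have h3 := sum_zeros (M := M') ((transcendental_algebraMap_iff (M' := M')).2 hxt)
  rw [finrank_adjoin_tower, finsum_congr h2] at h3
  have h4 := sum_zeros hxt
  rw [h1] at h4
  have h5 : ∑ᶠ Q : Place k M', P.ord x * ((Q.ramIdx P * Q.deg : ℕ) : ℤ)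
      = P.ord x * ((∑ᶠ Q : Place k M', Q.ramIdx P * Q.deg : ℕ) : ℤ) := by
    rw [← Nat.coe_castAddMonoidHom, map_finsum _ hfin, mul_finsum]
  rw [h5] at h3
  push_cast at h3
  rw [← h4] at h3
  have h6 : P.ord x * ((∑ᶠ Q : Place k M', Q.ramIdx P * Q.deg : ℕ) : ℤ)
      = P.ord x * ((Module.finrank M M' * P.deg : ℕ) : ℤ) := by
    rw [h3]; push_cast; ring
  exact_mod_cast mul_left_cancel₀ hr.ne' h6

theorem conormPlace_apply (P : Place k M) (Q : Place k M') :
    conormPlace k M' P Q = Q.ramIdx P := by
  classical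
  have hsub : (Function.support fun Q : Place k M' => Finsupp.single Q (Q.ramIdx P : ℤ))
      ⊆ ((Place.finite_over (M' := M') P).toFinset : Set (Place k M')) := by
    intro Q' hQ'
    rw [Set.Finite.coe_toFinset]
    by_contra h
    exact hQ' (by simp [Place.ramIdx_eq_zero h])
  rw [conormPlace, finsum_eq_sum_of_support_subset _ hsub, Finsupp.finsetSum_apply]
  simp only [Finsupp.single_apply]
  rw [Finset.sum_ite_eq']
  split_ifs with h
  · rfl
  · rw [Set.Finite.mem_toFinset] at h
    rw [Place.ramIdx_eq_zero h]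
    rfl

theorem conorm_apply (D : Dvsr k M) {Q : Place k M'} {P : Place k M} (h : Q.Over P) :
    conorm k M' D Q = Q.ramIdx P * D P := by
  rw [conorm, Finsupp.sum, Finsupp.finsetSum_apply, Finset.sum_eq_single P]
  · rw [Finsupp.smul_apply, conormPlace_apply, smul_eq_mul, mul_comm]
  · intro P' _ hP'
    have : ¬ Q.Over P' := fun h' => hP' (h'.unique h)
    rw [Finsupp.smul_apply, conormPlace_apply, Place.ramIdx_eq_zero this]
    simp
  · intro hP
    rw [Finsupp.notMem_support_iff.1 hP]
    simp

theorem deg_conormPlace (P : Place k M) :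
    (conormPlace k M' P).deg = Module.finrank M M' * P.deg := by
  classical
  have hsub : (conormPlace k M' P).support ⊆ (Place.finite_over (M' := M') P).toFinset := by
    intro Q hQ
    rw [Set.Finite.mem_toFinset]
    by_contra h
    rw [Finsupp.mem_support_iff, conormPlace_apply, Place.ramIdx_eq_zero h] at hQ
    exact hQ rfl
  rw [Dvsr.deg_eq_sum _ _ hsub]
  have h := sum_ramIdx_mul_deg (M' := M') P
  rw [finsum_eq_sum_of_support_subset _ (s := (Place.finite_over (M' := M') P).toFinset)
    (by rw [Set.Finite.coe_toFinset]; exact ffAb_support_ramIdx P _)] at h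
  have h' := congrArg (Nat.cast : ℕ → ℤ) h
  push_cast at h'
  rw [← h']
  exact Finset.sum_congr rfl fun Q _ => by rw [conormPlace_apply]

omit [IsFF k M] in
theorem ffAb_deg_sum {ι : Type*} (s : Finset ι) (f : ι → Dvsr k M) :
    (∑ i ∈ s, f i).deg = ∑ i ∈ s, (f i).deg := by
  classical
  induction s using Finset.induction_on with
  | empty => simp
  | insert a s ha ih => rw [Finset.sum_insert ha, Finset.sum_insert ha, Dvsr.deg_add, ih]

theorem deg_conorm (D : Dvsr k M) :
    (conorm k M' D).deg = Module.finrank M M' * D.deg := by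
  rw [conorm, Finsupp.sum, ffAb_deg_sum, Dvsr.deg, Finsupp.sum, Finset.mul_sum]
  refine Finset.sum_congr rfl fun P _ => ?_
  rw [Dvsr.deg_smul, deg_conormPlace]
  ring

/-- `y ∈ L(conorm D)` in terms of the places of `M` -/
theorem mem_LSp_conorm_iff (D : Dvsr k M) (y : M') :
    y ∈ LSp (conorm k M' D) ↔
      ∀ (P : Place k M) (Q : Place k M'), Q.Over P → Q.v y ≤ exp (Q.ramIdx P * D P) := by
  rw [mem_LSp]
  constructor
  · intro h P Q hQ
    rw [← conorm_apply D hQ]
    exact h Q
  · intro h Q
    obtain ⟨P, hP, -⟩ := Place.existsUnique_below (M := M) Q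
    rw [conorm_apply D hP]
    exact h P Q hP

end Claimed.Agent.R280
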