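import Claimed.Agent.R280.FF.Ord

/-!
# Row 280, package FF, file ResMap (PROVED): the `k`-linear map `x ↦ residue of s x` on a subspace of `M`

Used by the leaves LSpace (`exists_LSp_add_single_map`) and SemiLocal (`relDim_slat_update`).
-/

set_option autoImplicit false

namespace Claimed.Agent.R280

open WithZero

variable {k M : Type*} [Field k] [Field M] [Algebra k M]

namespace Place

variable (P : Place k M)

theorem residue_eq_zero_iff (z : P.O) : IsLocalRing.residue P.O z = 0 ↔ P.v (z : M) < 1 := by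
  rw [IsLocalRing.residue_eq_zero_iff]
  exact Valuation.mem_maximalIdeal_iff M P.v

theorem residue_eq_iff (z w : P.O) :
    IsLocalRing.residue P.O z = IsLocalRing.residue P.O w ↔ P.v ((z : M) - (w : M)) < 1 := by
  rw [← sub_eq_zero, ← map_sub, residue_eq_zero_iff]
  rfl

theorem smul_residue (c : k) (z : P.O) :
    c • IsLocalRing.residue P.O z = IsLocalRing.residue P.O (c • z) := rfl

theorem coe_smul_O (c : k) (z : P.O) : ((c • z : P.O) : M) = c • (z : M) := by
  rw [Algebra.smul_def, Algebra.smul_def]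
  rfl

/-- `x ↦ residue of s x` -/
noncomputable def resMap (s : M) (X : Submodule k M) (hX : ∀ x ∈ X, P.v (s * x) ≤ 1) :
    X →ₗ[k] P.Res where
  toFun x := IsLocalRing.residue P.O ⟨s * x, hX x x.2⟩
  map_add' x y := by
    rw [← map_add]
    congr 1
    ext
    simp [mul_add]
  map_smul' c x := by
    rw [RingHom.id_apply, smul_residue]
    congr 1
    ext
    rw [coe_smul_O]
    simp

theorem resMap_apply (s : M) (X : Submodule k M) (hX : ∀ x ∈ X, P.v (s * x) ≤ 1) (x : X) :
    P.resMap s X hX x = IsLocalRing.residue P.O ⟨s * x, hX x x.2⟩ := rfl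

theorem resMap_eq_zero_iff (s : M) (X : Submodule k M) (hX : ∀ x ∈ X, P.v (s * x) ≤ 1) (x : X) :
    P.resMap s X hX x = 0 ↔ P.v (s * x) < 1 := by
  rw [resMap_apply, residue_eq_zero_iff]

/-- discreteness -/
theorem v_lt_exp_add_one_iff (f : M) (n : ℤ) : P.v f < exp (n + 1) ↔ P.v f ≤ exp n := by
  by_cases hf : f = 0
  · simp [hf, zero_lt_iff]
  · rw [P.v_lt_exp_iff hf, P.v_le_exp_iff hf]
    constructor <;> intro h <;> omega

theorem v_lt_exp_iff_le (f : M) (n : ℤ) : P.v f < exp n ↔ P.v f ≤ exp (n - 1) := by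
  rw [← P.v_lt_exp_add_one_iff, sub_add_cancel]

theorem v_lt_one_iff_le (f : M) : P.v f < 1 ↔ P.v f ≤ exp (-1) := by
  have := P.v_lt_exp_iff_le f 0
  simpa using this

/-- `v (s x) ≤ exp m ↔ v x ≤ exp (m + ord s)` -/
theorem v_mul_le_exp_iff {s : M} (hs : s ≠ 0) (x : M) (m : ℤ) :
    P.v (s * x) ≤ exp m ↔ P.v x ≤ exp (m + P.ord s) := by
  by_cases hx : x = 0
  · simp [hx]
  · rw [P.v_le_exp_iff (mul_ne_zero hs hx), P.v_le_exp_iff hx, P.ord_mul hs hx]
    constructor <;> intro h <;> omega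

theorem v_mul_lt_exp_iff {s : M} (hs : s ≠ 0) (x : M) (m : ℤ) :
    P.v (s * x) < exp m ↔ P.v x < exp (m + P.ord s) := by
  by_cases hx : x = 0
  · simp [hx, zero_lt_iff]
  · rw [P.v_lt_exp_iff (mul_ne_zero hs hx), P.v_lt_exp_iff hx, P.ord_mul hs hx]
    constructor <;> intro h <;> omega

end Place

end Claimed.Agent.R280
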