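import Claimed.Agent.R280.FF.Below
import Claimed.Agent.R280.FF.ResMap

/-!
# Row 280, package FF, leaf FF4c (ResExt): residue field extensions

`Q.Over P`.  The inclusion `P.O → Q.O` is a local homomorphism and induces a `k`-linear field embedding
`P.Res → Q.Res` (`IsLocalRing.ResidueField.map`).  Tower law: `deg Q = f deg P`.  To keep algebra
structures on residue fields out of the interfaces, the consumers only use `Place.IsResBasis`: a family
`u` of `f` elements of `Q.O` whose residues are a basis of `Q.Res` over `P.Res`.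

Plan for `exists_resBasis`: `Q.Res` is finite over `k` (`Place.finite_res` for `M'`, which is a function field by
`isFF_of_finite`), hence over `P.Res`; take a basis, lift it to `Q.O`.  Clause 2 = linear independence of the
residues (a combination with coefficients in `P.O`, one of them a unit, has nonzero residue); clause 3 = they span.
-/

set_option autoImplicit false

namespace Claimed.Agent.R280

open WithZero

variable {k M M' : Type*} [Field k] [Field M] [Field M'] [Algebra k M] [Algebra k M'] [Algebra M M']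

/-- `u` lifts a basis of the residue field of `Q` over the residue field of `P` -/
def Place.IsResBasis (Q : Place k M') (P : Place k M) {f : ℕ} (u : Fin f → M') : Prop :=
  f * P.deg = Q.deg ∧ (∀ j, Q.v (u j) ≤ 1) ∧
    (∀ c : Fin f → M, (∀ j, P.v (c j) ≤ 1) → (∃ j, P.v (c j) = 1) →
      Q.v (∑ j, algebraMap M M' (c j) * u j) = 1) ∧
    (∀ y : M', Q.v y ≤ 1 → ∃ c : Fin f → M, (∀ j, P.v (c j) ≤ 1) ∧
      Q.v (y - ∑ j, algebraMap M M' (c j) * u j) < 1)

/-- `P.O → Q.O` -/
def Place.Over.mapO {Q : Place k M'} {P : Place k M} (h : Q.Over P) : P.O →+* Q.O :=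
  ((algebraMap M M').comp P.O.subtype).codRestrict Q.O.toSubring fun a => (h.v_le_one_iff (a : M)).2 a.2

theorem Place.Over.coe_mapO {Q : Place k M'} {P : Place k M} (h : Q.Over P) (a : P.O) :
    ((h.mapO a : Q.O) : M') = algebraMap M M' (a : M) := rfl

theorem Place.Over.isLocalHom_mapO {Q : Place k M'} {P : Place k M} (h : Q.Over P) : IsLocalHom h.mapO := by
  refine ⟨fun a ha => ?_⟩
  by_contra hna
  have h1 : IsLocalRing.residue P.O a = 0 := (IsLocalRing.residue_eq_zero_iff a).2 hna
  rw [P.residue_eq_zero_iff, ← h.v_lt_one_iff, ← h.coe_mapO, ← Q.residue_eq_zero_iff,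
    IsLocalRing.residue_eq_zero_iff] at h1
  exact h1 ha

variable [IsScalarTower k M M'] [IsFF k M] [Module.Finite M M']

theorem Place.exists_resBasis {Q : Place k M'} {P : Place k M} (h : Q.Over P) :
    ∃ (f : ℕ) (u : Fin f → M'), Q.IsResBasis P u := by
  have hFF : IsFF k M' := isFF_of_finite k M M'
  have hloc : IsLocalHom h.mapO := h.isLocalHom_mapO
  let alg : Algebra P.Res Q.Res := (IsLocalRing.ResidueField.map h.mapO).toAlgebra
  have halg : ∀ a : P.O, algebraMap P.Res Q.Res (IsLocalRing.residue P.O a) = IsLocalRing.residue Q.O (h.mapO a) :=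
    fun a => rfl
  have tower : IsScalarTower k P.Res Q.Res := by
    refine IsScalarTower.of_algebraMap_eq fun a => ?_
    show IsLocalRing.residue Q.O (algebraMap k Q.O a) =
      algebraMap P.Res Q.Res (IsLocalRing.residue P.O (algebraMap k P.O a))
    rw [halg]
    congr 1
    ext
    rw [h.coe_mapO]
    exact IsScalarTower.algebraMap_apply k M M' a
  have finQ : Module.Finite k Q.Res := Q.finite_res
  have finQP : Module.Finite P.Res Q.Res := Module.Finite.of_restrictScalars_finite k P.Res Q.Res
  let b := Module.finBasis P.Res Q.Res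
  have hlift : ∀ j, ∃ u : Q.O, IsLocalRing.residue Q.O u = b j := fun j => IsLocalRing.residue_surjective (b j)
  choose u hu using hlift
  have key : ∀ c : Fin (Module.finrank P.Res Q.Res) → P.O,
      IsLocalRing.residue Q.O (∑ j, h.mapO (c j) * u j) = ∑ j, IsLocalRing.residue P.O (c j) • b j := by
    intro c
    rw [map_sum]
    refine Finset.sum_congr rfl fun j _ => ?_
    rw [map_mul, hu, Algebra.smul_def, halg]
  have coe : ∀ c : Fin (Module.finrank P.Res Q.Res) → P.O,
      ((∑ j, h.mapO (c j) * u j : Q.O) : M') = ∑ j, algebraMap M M' (c j : M) * (u j : M') := by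
    intro c
    push_cast
    rfl
  refine ⟨Module.finrank P.Res Q.Res, fun j => (u j : M'), ?_, fun j => (u j).2, ?_, ?_⟩
  · rw [mul_comm]
    exact Module.finrank_mul_finrank k P.Res Q.Res
  · intro c hc ⟨j₀, hj₀⟩
    have e := coe fun j => ⟨c j, hc j⟩
    simp only at e
    rw [← e]
    refine le_antisymm (∑ j, h.mapO ⟨c j, hc j⟩ * u j : Q.O).2 (not_lt.1 fun hlt => ?_)
    rw [← Q.residue_eq_zero_iff, key] at hlt
    have h0 := (Fintype.linearIndependent_iff.1 b.linearIndependent) _ hlt j₀
    rw [P.residue_eq_zero_iff] at h0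
    exact absurd hj₀ h0.ne
  · intro y hy
    have hrep := b.sum_repr (IsLocalRing.residue Q.O ⟨y, hy⟩)
    have hl : ∀ j, ∃ a : P.O, IsLocalRing.residue P.O a = b.repr (IsLocalRing.residue Q.O ⟨y, hy⟩) j :=
      fun j => IsLocalRing.residue_surjective _
    choose a ha using hl
    refine ⟨fun j => (a j : M), fun j => (a j).2, ?_⟩
    rw [← coe a]
    have : IsLocalRing.residue Q.O ⟨y, hy⟩ = IsLocalRing.residue Q.O (∑ j, h.mapO (a j) * u j) := by
      rw [key]
      conv_lhs => rw [← hrep]
      refine Finset.sum_congr rfl fun j _ => ?_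
      rw [ha]
    exact (Q.residue_eq_iff _ _).1 this

theorem Place.deg_dvd_deg {Q : Place k M'} {P : Place k M} (h : Q.Over P) : P.deg ∣ Q.deg :=
  let ⟨f, _, hf, _⟩ := Place.exists_resBasis h
  ⟨f, by rw [← hf, mul_comm]⟩

end Claimed.Agent.R280
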