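import Claimed.Agent.R280.FF.Above
import Claimed.Agent.R280.FF.ResExt
import Claimed.Agent.R280.FF.ResMap

/-!
# Row 280, package FF, leaf FF4d (Adapted): the adapted local integral basis (also for inseparable `M'/M`) (PROVED)
(Stichtenoth 3.3.? / proof of 3.1.11)

`O'_P = {y | Q.v y ≤ 1 for all Q over P}`.  DATA: for every `Q | P` a uniformiser `t Q` and a residue basis
`u Q : Fin (f Q) → M'` (`Place.IsResBasis`).  Index type `AdIdx P f = Σ Q | P, Fin e(Q|P) × Fin (f Q)`; its cardinality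
is `∑ e_Q f_Q = n` (`sum_ramIdx_mul_deg`, `f_Q deg P = deg Q`, divide by `deg P > 0`).
A family `E : AdIdx P f → M'` is ADAPTED if `E (Q,i,j) ≡ t_Q ^ i u_{Q,j}` modulo `π` at `Q` and `≡ 0` modulo `π` at the
other places above `P` (existence: `weak_approx` in `M'`).

* `IsAdapted.expansion` (the heart): let `y = ∑ c_a E_a` with `c_a ∈ O_P`.  At `Q` we have
  `y ≡ ∑_{i,j} c_{Q,i,j} t_Q ^ i u_{Q,j}` modulo `t_Q ^ e_Q`.  If `ord_Q y ≥ i₀` (`i₀ ≤ e_Q`) then `c_{Q,i,j}` is a nonunit for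
  `i < i₀` (look at the least `i` with a unit coefficient: that layer has value exactly `exp (-i)` by clause 2 of
  `IsResBasis`, the later layers and the nonunit coefficients are smaller), and the layer `i₀` is the leading term.
* `IsAdapted.exists_lt`: if some `c_a` is a unit then some `Q | P` has `Q.v (∑ c E) > Q.v π` (`expansion` with `i₀ = e_Q`).
* `IsAdapted.exists_basis`: scale a linear relation by a power of `π`: linear independence; cardinality `n`: basis.  Scale a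
  representation of `y ∈ O'_P`: the coefficients are in `O_P`.  Conversely `E_a ∈ O'_P`.
-/

set_option autoImplicit false

namespace Claimed.Agent.R280

open WithZero

variable {k M M' : Type*} [Field k] [Field M] [Field M'] [Algebra k M] [Algebra k M'] [Algebra M M']

/-- `e` is a basis of the integral closure of `O_P` in `M'` -/
def IsIntBasis {ι : Type*} (P : Place k M) (e : Module.Basis ι M M') : Prop :=
  ∀ x : M', (∀ Q : Place k M', Q.Over P → Q.v x ≤ 1) ↔ ∀ i, P.v (e.repr x i) ≤ 1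

/-- index type of the adapted basis -/
abbrev AdIdx (P : Place k M) (f : Place k M' → ℕ) : Type _ :=
  Σ Q : {Q : Place k M' // Q.Over P}, Fin (Q.1.ramIdx P) × Fin (f Q.1)

open Classical in
/-- `E (Q,i,j) ≡ t_Q ^ i u_{Q,j}` modulo `π` at `Q`, `≡ 0` modulo `π` at the other places above `P` -/
def IsAdapted (P : Place k M) (t : Place k M' → M') (f : Place k M' → ℕ)
    (u : ∀ Q : Place k M', Fin (f Q) → M') (E : AdIdx P f → M') : Prop :=
  ∀ (a : AdIdx P f) (Q' : Place k M'), Q'.Over P →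
    Q'.v (E a - if Q' = a.1.1 then t a.1.1 ^ (a.2.1 : ℕ) * u a.1.1 a.2.2 else 0)
      ≤ exp (-(Q'.ramIdx P : ℤ))

variable [IsScalarTower k M M'] [IsFF k M] [Module.Finite M M']

instance AdIdx.finite (P : Place k M) (f : Place k M' → ℕ) : Finite (AdIdx P f) :=
  haveI : Finite {Q : Place k M' // Q.Over P} := (Place.finite_over P).to_subtype
  inferInstance

noncomputable instance AdIdx.fintype (P : Place k M) (f : Place k M' → ℕ) : Fintype (AdIdx P f) :=
  Fintype.ofFinite _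

theorem AdIdx.card_eq (P : Place k M) (f : Place k M' → ℕ)
    (hf : ∀ Q : Place k M', Q.Over P → f Q * P.deg = Q.deg) :
    Fintype.card (AdIdx P f) = Module.finrank M M' := by
  classical
  let _ : Fintype {Q : Place k M' // Q.Over P} := (Place.finite_over P).fintype
  have h1 : Fintype.card (AdIdx P f)
      = ∑ Q : {Q : Place k M' // Q.Over P}, Q.1.ramIdx P * f Q.1 := by
    rw [← Nat.card_eq_fintype_card, Nat.card_sigma]
    refine Finset.sum_congr rfl fun Q _ => ?_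
    rw [Nat.card_prod, Nat.card_eq_fintype_card, Nat.card_eq_fintype_card, Fintype.card_fin,
      Fintype.card_fin]
  have h2 : ∑ᶠ Q : Place k M', Q.ramIdx P * Q.deg
      = ∑ Q : {Q : Place k M' // Q.Over P}, Q.1.ramIdx P * Q.1.deg := by
    rw [finsum_eq_sum_of_support_subset (s := (Place.finite_over (M' := M') P).toFinset)]
    · exact Finset.sum_subtype _ (fun Q => by simp) _
    · intro Q hQ
      simp only [Set.Finite.coe_toFinset, Set.mem_ofPred_eq]
      by_contra h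
      exact hQ (by simp [Place.ramIdx_eq_zero h])
  have h3 := sum_ramIdx_mul_deg (M' := M') P
  rw [h2] at h3
  have h4 : (∑ Q : {Q : Place k M' // Q.Over P}, Q.1.ramIdx P * f Q.1) * P.deg
      = ∑ Q : {Q : Place k M' // Q.Over P}, Q.1.ramIdx P * Q.1.deg := by
    rw [Finset.sum_mul]
    refine Finset.sum_congr rfl fun Q _ => ?_
    rw [mul_assoc, hf Q.1 Q.2]
  rw [h1]
  exact Nat.eq_of_mul_eq_mul_right P.deg_pos (h4.trans h3)

/-- sums over the index type -/
theorem AdIdx.sum_eq {A : Type*} [AddCommMonoid A] (P : Place k M) (f : Place k M' → ℕ)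
    [Fintype {Q : Place k M' // Q.Over P}] (g : AdIdx P f → A) :
    ∑ a, g a = ∑ Q : {Q : Place k M' // Q.Over P}, ∑ i : Fin (Q.1.ramIdx P),
      ∑ j : Fin (f Q.1), g ⟨Q, i, j⟩ := by
  classical
  rw [(Finset.sum_congr (by ext; simp) (fun _ _ => rfl) :
    ∑ a, g a = ∑ a ∈ (Finset.univ : Finset {Q : Place k M' // Q.Over P}).sigma
      (fun _ => Finset.univ), g a), Finset.sum_sigma]
  refine Finset.sum_congr rfl fun Q _ => ?_
  exact Fintype.sum_prod_type _

theorem exists_isAdapted (P : Place k M) (t : Place k M' → M') (f : Place k M' → ℕ)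
    (u : ∀ Q : Place k M', Fin (f Q) → M') : ∃ E : AdIdx P f → M', IsAdapted P t f u E := by
  classical
  set T := (Place.finite_over (M' := M') P).toFinset with hT
  set N : ℤ := ∑ Q ∈ T, (Q.ramIdx P : ℤ) with hN
  have hNle : ∀ Q ∈ T, (Q.ramIdx P : ℤ) ≤ N := fun Q hQ =>
    Finset.single_le_sum (f := fun Q : Place k M' => (Q.ramIdx P : ℤ))
      (fun _ _ => Int.natCast_nonneg _) hQ
  choose E hE using fun a : AdIdx P f => weak_approx T
    (fun Q' => if Q' = a.1.1 then t a.1.1 ^ (a.2.1 : ℕ) * u a.1.1 a.2.2 else 0) N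
  refine ⟨E, fun a Q' hQ' => ?_⟩
  have hmem : Q' ∈ T := by simpa [hT] using hQ'
  refine le_trans ?_ (exp_le_exp.2 (neg_le_neg (hNle Q' hmem)))
  convert hE a Q' hmem

section

variable {P : Place k M} {t : Place k M' → M'} {f : Place k M' → ℕ}
  {u : ∀ Q : Place k M', Fin (f Q) → M'} {E : AdIdx P f → M'}

omit [IsScalarTower k M M'] [IsFF k M] [Module.Finite M M'] in
theorem IsAdapted.v_le_one (hE : IsAdapted P t f u E)
    (ht : ∀ Q : Place k M', Q.Over P → Q.v (t Q) = exp (-1))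
    (hu : ∀ Q : Place k M', Q.Over P → Q.IsResBasis P (u Q)) (a : AdIdx P f) (Q : Place k M')
    (hQ : Q.Over P) : Q.v (E a) ≤ 1 := by
  classical
  have h1 := hE a Q hQ
  have h2 : Q.v (if Q = a.1.1 then t a.1.1 ^ (a.2.1 : ℕ) * u a.1.1 a.2.2 else 0) ≤ 1 := by
    split_ifs with h
    · subst h
      rw [map_mul, map_pow]
      have h3 : a.1.1.v (t a.1.1) ≤ 1 := by
        rw [ht _ hQ]
        exact exp_le_exp.2 (by norm_num : (-1 : ℤ) ≤ 0)
      exact mul_le_one' (pow_le_one' h3 _) ((hu a.1.1 a.1.2).2.1 a.2.2)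
    · simp
  have h5 : E a = (E a - if Q = a.1.1 then t a.1.1 ^ (a.2.1 : ℕ) * u a.1.1 a.2.2 else 0)
      + if Q = a.1.1 then t a.1.1 ^ (a.2.1 : ℕ) * u a.1.1 a.2.2 else 0 := by ring
  rw [h5]
  exact (Q.v.map_add _ _).trans (max_le
    (h1.trans ((exp_le_exp.2 (by simp : -(Q.ramIdx P : ℤ) ≤ 0)).trans_eq exp_zero)) h2)

/-- the `t_Q`-adic expansion of `∑ c E` at `Q` -/
theorem IsAdapted.expansion (hE : IsAdapted P t f u E)
    (ht : ∀ Q : Place k M', Q.Over P → Q.v (t Q) = exp (-1))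
    (hu : ∀ Q : Place k M', Q.Over P → Q.IsResBasis P (u Q))
    (c : AdIdx P f → M) (hc : ∀ a, P.v (c a) ≤ 1) (Q : Place k M') (hQ : Q.Over P) (i₀ : ℕ)
    (hi₀ : i₀ ≤ Q.ramIdx P) (hy : Q.v (∑ a, algebraMap M M' (c a) * E a) ≤ exp (-(i₀ : ℤ))) :
    (∀ (i : Fin (Q.ramIdx P)) (j : Fin (f Q)), (i : ℕ) < i₀ → P.v (c ⟨⟨Q, hQ⟩, i, j⟩) < 1) ∧
      ∀ h : i₀ < Q.ramIdx P,
        Q.v (∑ a, algebraMap M M' (c a) * E a
          - t Q ^ i₀ * ∑ j, algebraMap M M' (c ⟨⟨Q, hQ⟩, ⟨i₀, h⟩, j⟩) * u Q j) < exp (-(i₀ : ℤ)) := by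
  classical
  let _ : Fintype {Q : Place k M' // Q.Over P} := (Place.finite_over P).fintype
  set y := ∑ a, algebraMap M M' (c a) * E a with hy_def
  set L : Fin (Q.ramIdx P) → M' :=
    fun i => ∑ j, algebraMap M M' (c ⟨⟨Q, hQ⟩, i, j⟩) * u Q j with hL
  have hcQ : ∀ a, Q.v (algebraMap M M' (c a)) ≤ 1 := fun a => (hQ.v_le_one_iff _).2 (hc a)
  have hmain : ∑ a, algebraMap M M' (c a) *
      (if Q = a.1.1 then t a.1.1 ^ (a.2.1 : ℕ) * u a.1.1 a.2.2 else 0)
        = ∑ i : Fin (Q.ramIdx P), t Q ^ (i : ℕ) * L i := by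
    rw [AdIdx.sum_eq, Finset.sum_eq_single (⟨Q, hQ⟩ : {Q : Place k M' // Q.Over P})]
    · refine Finset.sum_congr rfl fun i _ => ?_
      rw [hL, Finset.mul_sum]
      refine Finset.sum_congr rfl fun j _ => ?_
      rw [if_pos rfl]; ring
    · intro Q' _ hne
      refine Finset.sum_eq_zero fun i _ => Finset.sum_eq_zero fun j _ => ?_
      rw [if_neg, mul_zero]
      intro h; exact hne (Subtype.ext h.symm)
    · intro h; exact absurd (Finset.mem_univ _) h
  have hR : Q.v (y - ∑ i : Fin (Q.ramIdx P), t Q ^ (i : ℕ) * L i)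
      ≤ exp (-(Q.ramIdx P : ℤ)) := by
    rw [← hmain, hy_def, ← Finset.sum_sub_distrib]
    apply Q.v.map_sum_le
    intro a _
    rw [← mul_sub, map_mul]
    exact mul_le_of_le_one_of_le (hcQ a) (hE a Q hQ)
  have hL1 : ∀ i, Q.v (L i) ≤ 1 := by
    intro i
    apply Q.v.map_sum_le
    intro j _
    rw [map_mul]
    exact mul_le_one' (hcQ _) ((hu Q hQ).2.1 j)
  have hL2 : ∀ i, (∃ j, P.v (c ⟨⟨Q, hQ⟩, i, j⟩) = 1) → Q.v (L i) = 1 := fun i hi =>
    (hu Q hQ).2.2.1 (fun j => c ⟨⟨Q, hQ⟩, i, j⟩) (fun j => hc _) hi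
  have hL3 : ∀ i, (∀ j, P.v (c ⟨⟨Q, hQ⟩, i, j⟩) < 1) → Q.v (L i) ≤ exp (-(Q.ramIdx P : ℤ)) := by
    intro i hi
    apply Q.v.map_sum_le
    intro j _
    rw [map_mul, (Place.overE_ramIdx hQ).2]
    refine mul_le_of_le_of_le_one ?_ ((hu Q hQ).2.1 j)
    have h1 : P.v (c ⟨⟨Q, hQ⟩, i, j⟩) ≤ exp (-1) := (P.v_lt_one_iff_le _).1 (hi j)
    refine (pow_le_pow_left₀ zero_le h1 _).trans_eq ?_
    rw [← exp_nsmul]
    simp
  have htpow : ∀ n : ℕ, Q.v (t Q ^ n) = exp (-(n : ℤ)) := by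
    intro n
    rw [map_pow, ht Q hQ, ← exp_nsmul]
    simp
  have core : ∀ i : Fin (Q.ramIdx P),
      (∀ i' : Fin (Q.ramIdx P), i' < i → ∀ j, P.v (c ⟨⟨Q, hQ⟩, i', j⟩) < 1) →
        Q.v (y - t Q ^ (i : ℕ) * L i) < exp (-((i : ℕ) : ℤ)) := by
    intro i hi
    have hie : -(Q.ramIdx P : ℤ) < -((i : ℕ) : ℤ) := by have := i.2; omega
    have h1 : y - t Q ^ (i : ℕ) * L i = (y - ∑ i : Fin (Q.ramIdx P), t Q ^ (i : ℕ) * L i)
        + ∑ i' ∈ Finset.univ.erase i, t Q ^ (i' : ℕ) * L i' := by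
      rw [← Finset.add_sum_erase Finset.univ (fun i' : Fin (Q.ramIdx P) => t Q ^ (i' : ℕ) * L i')
        (Finset.mem_univ i)]
      ring
    rw [h1]
    refine lt_of_le_of_lt (Q.v.map_add _ _) (max_lt (lt_of_le_of_lt hR (exp_lt_exp.2 hie)) ?_)
    apply Q.v.map_sum_lt exp_ne_zero
    intro i' hi'
    have hne : i' ≠ i := (Finset.mem_erase.1 hi').1
    rw [map_mul, htpow]
    rcases lt_or_gt_of_ne hne with hlt | hgt
    · refine lt_of_le_of_lt (mul_le_of_le_one_of_le ?_ (hL3 i' (hi i' hlt))) (exp_lt_exp.2 hie)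
      exact (exp_le_exp.2 (by simp : -((i' : ℕ) : ℤ) ≤ 0)).trans_eq exp_zero
    · refine lt_of_le_of_lt (mul_le_of_le_of_le_one le_rfl (hL1 i')) (exp_lt_exp.2 ?_)
      have : (i : ℕ) < (i' : ℕ) := hgt
      omega
  have claim1 : ∀ n : ℕ, ∀ i : Fin (Q.ramIdx P), (i : ℕ) = n → n < i₀ →
      ∀ j, P.v (c ⟨⟨Q, hQ⟩, i, j⟩) < 1 := by
    intro n
    induction n using Nat.strong_induction_on with
    | _ n ih =>
      intro i hin hn j
      have hcore := core i (fun i' hi' j' =>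
        ih i' (by rw [← hin]; exact hi') i' rfl
          (by have : (i' : ℕ) < (i : ℕ) := hi'; omega) j')
      have h1 : Q.v (t Q ^ (i : ℕ) * L i) < exp (-((i : ℕ) : ℤ)) := by
        have h0 : t Q ^ (i : ℕ) * L i = y - (y - t Q ^ (i : ℕ) * L i) := by ring
        rw [h0]
        exact lt_of_le_of_lt (Q.v.map_sub _ _)
          (max_lt (lt_of_le_of_lt hy (exp_lt_exp.2 (by omega))) hcore)
      rw [map_mul, htpow] at h1
      have h2 : Q.v (L i) < 1 := by
        by_contra h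
        exact absurd h1 (not_lt.2 (le_mul_of_one_le_right' (not_lt.1 h)))
      by_contra h3
      have h4 : P.v (c ⟨⟨Q, hQ⟩, i, j⟩) = 1 := le_antisymm (hc _) (not_lt.1 h3)
      rw [hL2 i ⟨j, h4⟩] at h2
      exact lt_irrefl _ h2
  refine ⟨fun i j hi => claim1 i i rfl hi j, fun h => ?_⟩
  exact core ⟨i₀, h⟩ (fun i' hi' j => claim1 i' i' rfl hi' j)

theorem IsAdapted.exists_lt (hE : IsAdapted P t f u E)
    (ht : ∀ Q : Place k M', Q.Over P → Q.v (t Q) = exp (-1))
    (hu : ∀ Q : Place k M', Q.Over P → Q.IsResBasis P (u Q))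
    (c : AdIdx P f → M) (hc : ∀ a, P.v (c a) ≤ 1) (hc' : ∃ a, P.v (c a) = 1) :
    ∃ Q : Place k M', Q.Over P ∧
      exp (-(Q.ramIdx P : ℤ)) < Q.v (∑ a, algebraMap M M' (c a) * E a) := by
  obtain ⟨⟨⟨Q, hQ⟩, i, j⟩, ha⟩ := hc'
  refine ⟨Q, hQ, ?_⟩
  by_contra hcon
  have h1 := (hE.expansion ht hu c hc Q hQ (Q.ramIdx P) le_rfl (not_lt.1 hcon)).1 i j i.2
  rw [ha] at h1
  exact lt_irrefl _ h1

/-- an adapted family is an integral basis -/
theorem IsAdapted.exists_basis (hE : IsAdapted P t f u E)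
    (ht : ∀ Q : Place k M', Q.Over P → Q.v (t Q) = exp (-1))
    (hu : ∀ Q : Place k M', Q.Over P → Q.IsResBasis P (u Q)) :
    ∃ e : Module.Basis (AdIdx P f) M M', (∀ a, e a = E a) ∧ IsIntBasis P e := by
  classical
  have hcard : Fintype.card (AdIdx P f) = Module.finrank M M' :=
    AdIdx.card_eq P f fun Q hQ => (hu Q hQ).1
  have hne : Nonempty (AdIdx P f) := by
    rw [← Fintype.card_pos_iff, hcard]
    exact Module.finrank_pos
  -- normalisation of a coefficient vector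
  have hnorm : ∀ g : AdIdx P f → M, (∃ a, g a ≠ 0) → ∃ γ : M, γ ≠ 0 ∧ (∀ a, P.v (g a) ≤ P.v γ) ∧
      ∃ Q : Place k M', Q.Over P ∧ exp (-(Q.ramIdx P : ℤ)) * Q.v (algebraMap M M' γ)
        < Q.v (∑ a, algebraMap M M' (g a) * E a) := by
    intro g hg
    obtain ⟨a₁, ha₁⟩ := Finite.exists_max (fun a => P.v (g a))
    have hγ : g a₁ ≠ 0 := by
      obtain ⟨a, ha⟩ := hg
      intro h0
      have h1 := ha₁ a
      rw [h0, map_zero] at h1
      exact P.v_ne_zero ha (le_antisymm h1 zero_le)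
    refine ⟨g a₁, hγ, ha₁, ?_⟩
    have hvγ : 0 < P.v (g a₁) := zero_lt_iff.2 (P.v_ne_zero hγ)
    obtain ⟨Q, hQ, hlt⟩ := hE.exists_lt ht hu (fun a => g a * (g a₁)⁻¹)
      (fun a => by
        rw [map_mul, map_inv₀]
        exact (mul_inv_le_iff₀ hvγ).2 (by rw [one_mul]; exact ha₁ a))
      ⟨a₁, by rw [mul_inv_cancel₀ hγ, map_one]⟩
    refine ⟨Q, hQ, ?_⟩
    have hγ' : algebraMap M M' (g a₁) ≠ 0 := by simpa using hγ
    have h2 : ∑ a, algebraMap M M' (g a * (g a₁)⁻¹) * E a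
        = (∑ a, algebraMap M M' (g a) * E a) * (algebraMap M M' (g a₁))⁻¹ := by
      rw [Finset.sum_mul]
      refine Finset.sum_congr rfl fun a _ => ?_
      rw [map_mul, map_inv₀]; ring
    rw [h2, map_mul, map_inv₀] at hlt
    exact (lt_mul_inv_iff₀ (zero_lt_iff.2 (Q.v_ne_zero hγ'))).1 hlt
  have hli : LinearIndependent M E := by
    rw [Fintype.linearIndependent_iff]
    intro g hg a
    by_contra ha
    obtain ⟨γ, _, _, Q, _, hlt⟩ := hnorm g ⟨a, ha⟩
    have h0 : ∑ a, algebraMap M M' (g a) * E a = 0 := by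
      rw [← hg]
      exact Finset.sum_congr rfl fun a _ => (Algebra.smul_def _ _).symm
    rw [h0, map_zero] at hlt
    exact not_lt_zero hlt
  refine ⟨basisOfLinearIndependentOfCardEqFinrank hli hcard, fun a => by simp, ?_⟩
  set e := basisOfLinearIndependentOfCardEqFinrank hli hcard with he
  have hea : ∀ a, e a = E a := fun a => by simp [he]
  intro x
  have hx : x = ∑ a, algebraMap M M' (e.repr x a) * E a := by
    conv_lhs => rw [← e.sum_repr x]
    exact Finset.sum_congr rfl fun a _ => by rw [hea, Algebra.smul_def]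
  constructor
  · intro hint a
    by_contra hcon
    have ha0 : e.repr x a ≠ 0 := by
      intro h0
      rw [h0, map_zero] at hcon
      exact hcon zero_le
    obtain ⟨γ, hγ0, hγ, Q, hQ, hlt⟩ := hnorm (fun a => e.repr x a) ⟨a, ha0⟩
    rw [← hx] at hlt
    have h1 : 1 < P.v γ := lt_of_lt_of_le (not_le.1 hcon) (hγ a)
    have h2 : exp (1 : ℤ) ≤ P.v γ := by
      rw [P.v_eq_exp_neg_ord hγ0] at h1 ⊢
      rw [← exp_zero, exp_lt_exp] at h1
      rw [exp_le_exp]
      omega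
    have h3 : exp ((Q.ramIdx P : ℕ) : ℤ) ≤ Q.v (algebraMap M M' γ) := by
      rw [(Place.overE_ramIdx hQ).2]
      refine le_trans (le_of_eq ?_) (pow_le_pow_left₀ zero_le h2 _)
      rw [← exp_nsmul]
      simp
    have h4 : (1 : ℤᵐ⁰) ≤ exp (-(Q.ramIdx P : ℤ)) * Q.v (algebraMap M M' γ) := by
      calc (1 : ℤᵐ⁰) = exp (-(Q.ramIdx P : ℤ)) * exp ((Q.ramIdx P : ℕ) : ℤ) := by
            rw [← exp_add]; simp
        _ ≤ _ := by gcongr
    exact absurd (hint Q hQ) (not_le.2 (lt_of_le_of_lt h4 hlt))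
  · intro hint Q hQ
    rw [hx]
    apply Q.v.map_sum_le
    intro a _
    rw [map_mul]
    exact mul_le_one' ((hQ.v_le_one_iff _).2 (hint a)) (hE.v_le_one ht hu a Q hQ)

end

/-- for all local data there is an adapted integral basis -/
theorem exists_adapted_basis (P : Place k M) (t : Place k M' → M') (f : Place k M' → ℕ)
    (u : ∀ Q : Place k M', Fin (f Q) → M')
    (ht : ∀ Q : Place k M', Q.Over P → Q.v (t Q) = exp (-1))
    (hu : ∀ Q : Place k M', Q.Over P → Q.IsResBasis P (u Q)) :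
    ∃ e : Module.Basis (AdIdx P f) M M', IsAdapted P t f u e ∧ IsIntBasis P e := by
  obtain ⟨E, hE⟩ := exists_isAdapted P t f u
  obtain ⟨e, he, he'⟩ := hE.exists_basis ht hu
  have : (e : AdIdx P f → M') = E := funext he
  exact ⟨e, this ▸ hE, he'⟩

/-- local data exist -/
theorem exists_local_data (P : Place k M) :
    ∃ (t : Place k M' → M') (f : Place k M' → ℕ) (u : ∀ Q : Place k M', Fin (f Q) → M'),
      (∀ Q : Place k M', Q.v (t Q) = exp (-1)) ∧
      ∀ Q : Place k M', Q.Over P → Q.IsResBasis P (u Q) := by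
  classical
  have h : ∀ Q : Place k M', ∃ (f : ℕ) (u : Fin f → M'), Q.Over P → Q.IsResBasis P u := by
    intro Q
    by_cases hQ : Q.Over P
    · obtain ⟨f, u, hu⟩ := Place.exists_resBasis hQ
      exact ⟨f, u, fun _ => hu⟩
    · exact ⟨0, fun i => i.elim0, fun h => (hQ h).elim⟩
  choose f u hu using h
  choose t ht using fun Q : Place k M' => Q.exists_unif
  exact ⟨t, f, u, ht, hu⟩

end Claimed.Agent.R280
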