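import Claimed.Agent.R280.FF.Discrete

/-!
# Row 280, package FF, leaf FF2a (Approx): weak approximation (Stichtenoth 1.3.1)

No hypothesis `IsFF`: only `Place.exists_le_one_lt` (distinct places are incomparable) is used.
Plan (Stichtenoth): (1) `exists_sep`: for `P ∉ S` ... by induction on `S` there is `u` with `P.v u < 1` and
`1 < Q.v u` for all `Q ∈ S`, `Q ≠ P`.  Two places: `u = a / b` with `a` integral at `P`, pole at `Q`, `b` the
other way round.  Induction step: `u` good for `S`, `w` good for the new place `Q₀`; if `Q₀.v u ≤ 1` take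
`u + w ^ r` for suitable `r`.  (2) `exists_idem`: `w = (1 + u ^ s)⁻¹` is close to `1` at `P` and close to
`0` at the other places.  (3) `f = ∑ a P * w P`.
-/

set_option autoImplicit false

namespace Claimed.Agent.R280

open WithZero

variable {k M : Type*} [Field k] [Field M] [Algebra k M]

theorem Place.ap_sep_two {P Q : Place k M} (h : Q ≠ P) : ∃ w : M, P.v w < 1 ∧ 1 < Q.v w := by
  obtain ⟨a, ha1, ha2⟩ := Place.exists_le_one_lt (Ne.symm h)
  obtain ⟨b, hb1, hb2⟩ := Place.exists_le_one_lt h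
  have hb0 : b ≠ 0 := by
    rintro rfl
    simp at hb2
  refine ⟨a / b, ?_, ?_⟩
  · rw [map_div₀, div_lt_one₀ (lt_trans zero_lt_one hb2)]
    exact lt_of_le_of_lt ha1 hb2
  · rw [map_div₀, one_lt_div₀ ((Q.v.pos_iff).2 hb0)]
    exact lt_of_le_of_lt hb1 ha2

theorem Place.ap_lt_one_iff (P : Place k M) (f : M) : P.v f < 1 ↔ P.v f ≤ exp (-1) := by
  by_cases hf : f = 0
  · simp [hf]
  · rw [P.v_lt_one_iff hf, P.v_le_exp_iff hf]
    constructor <;> intro h <;> omega

theorem Place.ap_one_lt_iff (P : Place k M) (f : M) : 1 < P.v f ↔ exp 1 ≤ P.v f := by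
  by_cases hf : f = 0
  · simp [hf]
  · rw [P.v_eq_exp_neg_ord hf, ← exp_zero, exp_lt_exp, exp_le_exp]
    constructor <;> intro h <;> omega

theorem exists_sep (S : Finset (Place k M)) (P : Place k M) :
    ∃ u : M, P.v u < 1 ∧ ∀ Q ∈ S, Q ≠ P → 1 < Q.v u := by
  classical
  induction S using Finset.induction_on with
  | empty => exact ⟨0, by simp, by simp⟩
  | insert Q₀ S hQ₀ ih =>
    obtain ⟨u, hu1, hu2⟩ := ih
    by_cases hQP : Q₀ = P
    · refine ⟨u, hu1, fun Q hQ hne => ?_⟩
      rcases Finset.mem_insert.1 hQ with rfl | hQ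
      · exact absurd hQP hne
      · exact hu2 Q hQ hne
    by_cases hbig : 1 < Q₀.v u
    · refine ⟨u, hu1, fun Q hQ hne => ?_⟩
      rcases Finset.mem_insert.1 hQ with rfl | hQ
      · exact hbig
      · exact hu2 Q hQ hne
    obtain ⟨w, hw1, hw2⟩ := Place.ap_sep_two hQP
    have hw0 : w ≠ 0 := by
      rintro rfl
      simp at hw2
    set r : ℕ := 1 + (∑ Q ∈ S, |Q.ord u|).toNat with hr
    have hr1 : r ≠ 0 := by omega
    have hrS : ∀ Q ∈ S, |Q.ord u| < r := by
      intro Q hQ
      have h1 : |Q.ord u| ≤ ∑ Q ∈ S, |Q.ord u| :=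
        Finset.single_le_sum (f := fun Q : Place k M => |Q.ord u|) (fun _ _ => abs_nonneg _) hQ
      have h2 : 0 ≤ ∑ Q ∈ S, |Q.ord u| := Finset.sum_nonneg fun _ _ => abs_nonneg _
      rw [hr]
      push_cast
      rw [Int.toNat_of_nonneg h2]
      omega
    refine ⟨u + w ^ r, ?_, fun Q hQ hne => ?_⟩
    · refine Valuation.map_add_lt _ hu1 ?_
      rw [map_pow]
      exact pow_lt_one₀ zero_le hw1 hr1
    · rcases Finset.mem_insert.1 hQ with rfl | hQ
      · have h1 : 1 < Q.v (w ^ r) := by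
          rw [map_pow]
          exact one_lt_pow₀ hw2 hr1
        rw [Valuation.map_add_eq_of_lt_right _ (lt_of_le_of_lt (not_lt.1 hbig) h1)]
        exact h1
      · have hu := hu2 Q hQ hne
        have hu0 : u ≠ 0 := by
          rintro rfl
          simp at hu
        have hne' : Q.v u ≠ Q.v (w ^ r) := by
          intro heq
          have h1 : Q.ord u = Q.ord (w ^ r) := by
            rw [Place.ord, Place.ord, heq]
          rw [Q.ord_pow] at h1
          have h2 := hrS Q hQ
          have h3 : Q.ord u < 0 := by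
            rw [Q.v_eq_exp_neg_ord hu0, ← exp_zero, exp_lt_exp] at hu
            omega
          rw [abs_of_neg h3] at h2
          rcases le_or_gt 0 (Q.ord w) with h4 | h4
          · have : (0 : ℤ) ≤ r * Q.ord w := by positivity
            omega
          · have : (r : ℤ) * Q.ord w ≤ r * (-1) := by
              apply mul_le_mul_of_nonneg_left (by omega) (by positivity)
            omega
        rw [Valuation.map_add_of_distinct_val _ hne']
        exact lt_of_lt_of_le hu (le_max_left _ _)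

theorem exists_idem (S : Finset (Place k M)) (P : Place k M) (N : ℤ) :
    ∃ w : M, P.v (w - 1) ≤ exp (-N) ∧ ∀ Q ∈ S, Q ≠ P → Q.v w ≤ exp (-N) := by
  obtain ⟨u, hu1, hu2⟩ := exists_sep S P
  set s : ℕ := N.toNat + 1 with hs
  have hs0 : s ≠ 0 := by omega
  have hsN : exp (-(s : ℤ)) ≤ (exp (-N) : ℤᵐ⁰) := by
    rw [exp_le_exp, hs]
    push_cast
    have := Int.self_le_toNat N
    omega
  have hexp : ∀ a : ℤ, (exp a : ℤᵐ⁰) ^ s = exp ((s : ℤ) * a) := by
    intro a
    rw [← exp_nsmul]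
    simp
  refine ⟨(1 + u ^ s)⁻¹, ?_, fun Q hQ hne => ?_⟩
  · have h1 : P.v (u ^ s) ≤ exp (-(s : ℤ)) := by
      rw [map_pow]
      refine (pow_le_pow_left₀ zero_le ((P.ap_lt_one_iff u).1 hu1) s).trans (le_of_eq ?_)
      rw [hexp]; congr 1; ring
    have h2 : P.v (u ^ s) < 1 := by
      rw [map_pow]
      exact pow_lt_one₀ zero_le hu1 hs0
    have h3 : P.v (1 + u ^ s) = 1 := Valuation.map_one_add_of_lt _ h2
    have h0 : 1 + u ^ s ≠ 0 := by
      intro h
      rw [h, map_zero] at h3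
      exact zero_ne_one h3
    have h4 : (1 + u ^ s)⁻¹ - 1 = -(u ^ s) * (1 + u ^ s)⁻¹ := by
      field_simp
      ring
    rw [h4, map_mul, map_inv₀, h3, inv_one, mul_one, Valuation.map_neg]
    exact h1.trans hsN
  · have hu := hu2 Q hQ hne
    have h1 : exp (s : ℤ) ≤ Q.v (u ^ s) := by
      rw [map_pow]
      refine le_trans (le_of_eq ?_) (pow_le_pow_left₀ zero_le ((Q.ap_one_lt_iff u).1 hu) s)
      rw [hexp]; congr 1; ring
    have h2 : 1 < Q.v (u ^ s) := by
      rw [map_pow]
      exact one_lt_pow₀ hu hs0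
    have h3 : Q.v (1 + u ^ s) = Q.v (u ^ s) :=
      Valuation.map_add_eq_of_lt_right _ (by rw [map_one]; exact h2)
    rw [map_inv₀, h3]
    refine le_trans ?_ hsN
    rw [exp_neg]
    exact inv_anti₀ exp_pos h1

theorem Place.ap_v_le_exp_abs (P : Place k M) (f : M) : P.v f ≤ exp |P.ord f| := by
  by_cases hf : f = 0
  · simp [hf]
  · rw [P.v_eq_exp_neg_ord hf, exp_le_exp]
    exact neg_le_abs _

/-- weak approximation -/
theorem weak_approx (S : Finset (Place k M)) (a : Place k M → M) (N : ℤ) :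
    ∃ f : M, ∀ P ∈ S, P.v (f - a P) ≤ exp (-N) := by
  classical
  set B : ℤ := ∑ P ∈ S, ∑ Q ∈ S, |P.ord (a Q)| with hB
  have hBle : ∀ P ∈ S, ∀ Q ∈ S, P.v (a Q) ≤ exp B := by
    intro P hP Q hQ
    refine (P.ap_v_le_exp_abs _).trans ?_
    rw [exp_le_exp]
    calc |P.ord (a Q)| ≤ ∑ Q ∈ S, |P.ord (a Q)| :=
          Finset.single_le_sum (f := fun Q : Place k M => |P.ord (a Q)|) (fun _ _ => abs_nonneg _) hQ
      _ ≤ B := Finset.single_le_sum (f := fun P : Place k M => ∑ Q ∈ S, |P.ord (a Q)|)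
          (fun _ _ => Finset.sum_nonneg fun _ _ => abs_nonneg _) hP
  choose w hw1 hw2 using fun P : Place k M => exists_idem S P (N + B)
  have hmul : ∀ (P : Place k M) (x y : M), P.v x ≤ exp B → P.v y ≤ exp (-(N + B)) →
      P.v (x * y) ≤ exp (-N) := by
    intro P x y hx hy
    rw [map_mul]
    refine (mul_le_mul' hx hy).trans (le_of_eq ?_)
    rw [← exp_add]; congr 1; ring
  refine ⟨∑ Q ∈ S, a Q * w Q, fun P hP => ?_⟩
  have hdec : ∑ Q ∈ S, a Q * w Q - a P = a P * (w P - 1) + ∑ Q ∈ S.erase P, a Q * w Q := by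
    rw [← Finset.add_sum_erase S _ hP]
    ring
  rw [hdec]
  refine Valuation.map_add_le _ (hmul P _ _ (hBle P hP P hP) (hw1 P)) ?_
  refine Valuation.map_sum_le _ fun Q hQ => ?_
  have hQS := Finset.mem_of_mem_erase hQ
  have hne := Finset.ne_of_mem_erase hQ
  exact hmul P _ _ (hBle P hP Q hQS) (hw2 Q P hP (Ne.symm hne))

/-- prescribed orders at finitely many places -/
theorem exists_forall_ord_eq (S : Finset (Place k M)) (n : Place k M → ℤ) :
    ∃ f : M, f ≠ 0 ∧ ∀ P ∈ S, P.ord f = n P := by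
  classical
  rcases S.eq_empty_or_nonempty with rfl | ⟨P0, hP0⟩
  · exact ⟨1, one_ne_zero, by simp⟩
  choose t ht0 ht using fun P : Place k M => P.exists_ord_eq (n P)
  set N : ℤ := 1 + ∑ P ∈ S, |n P| with hN
  have hNle : ∀ P ∈ S, n P < N := by
    intro P hP
    have h1 : |n P| ≤ ∑ P ∈ S, |n P| :=
      Finset.single_le_sum (f := fun P : Place k M => |n P|) (fun _ _ => abs_nonneg _) hP
    have := le_abs_self (n P)
    omega
  obtain ⟨f, hf⟩ := weak_approx S t N
  have hv : ∀ P ∈ S, P.v f = exp (-(n P)) := by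
    intro P hP
    have h1 : P.v (t P) = exp (-(n P)) := (P.ord_eq_iff (ht0 P) _).1 (ht P)
    have h2 : P.v (f - t P) < P.v (t P) := by
      rw [h1]
      refine lt_of_le_of_lt (hf P hP) ?_
      rw [exp_lt_exp]
      have := hNle P hP
      omega
    have h3 : f = t P + (f - t P) := by ring
    rw [h3, Valuation.map_add_eq_of_lt_left _ h2, h1]
  have hf0 : f ≠ 0 := by
    rintro rfl
    have := hv P0 hP0
    rw [map_zero] at this
    exact exp_ne_zero this.symm
  exact ⟨f, hf0, fun P hP => (P.ord_eq_iff hf0 _).2 (hv P hP)⟩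

end Claimed.Agent.R280
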