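import Claimed.Agent.R280.FF.Riemann

/-!
# Row 280, package FF, leaf FF4a (Below): the place below, ramification index (PROVED)
(Stichtenoth 3.1.4)

The first lemmas are formal (any tower, the ground fields may differ).
* `Place.OverE.unique`: `P.v` is onto, so `e` is determined by `Q.v t = exp (-e)` for a uniformiser `t` of `P`.
* `Place.existsUnique_below`: `A = Q.O.comap (algebraMap M M')` is a valuation ring of `M` containing `k`.
  `A ≠ ⊤`: otherwise `Q.v ≤ 1` on `M`, hence `= 1` on `M \ {0}`, hence (every `y ∈ M'` is algebraic over `M`, look at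
  the dominant term of its minimal equation) `Q.v = 1` on `M' \ {0}`, contradicting surjectivity.
  `exists_place_of_valuationSubring` gives `P`.  With a uniformiser `t` of `P`: `Q.v t = exp (-e)`, `e > 0`, and
  `f = t ^ n u` with `u ∈ A ˣ`.  Uniqueness: `Q.Over P → P.O = A`, `Place.eq_of_O_eq`.
-/

set_option autoImplicit false

namespace Claimed.Agent.R280

open WithZero

section Formal

variable {k k' M M' : Type*} [Field k] [Field k'] [Field M] [Field M'] [Algebra k M] [Algebra k' M']
  [Algebra M M']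

theorem Place.OverE.unique {Q : Place k' M'} {P : Place k M} {e e' : ℕ} (h : Q.OverE P e)
    (h' : Q.OverE P e') : e = e' := by
  obtain ⟨t, ht⟩ := P.exists_unif
  have h1 := h.2 t
  rw [h'.2 t, ht, ← exp_nsmul, ← exp_nsmul, exp_inj] at h1
  simp only [nsmul_eq_mul] at h1
  omega

theorem Place.overE_ramIdx {Q : Place k' M'} {P : Place k M} (h : Q.Over P) :
    Q.OverE P (Q.ramIdx P) := Nat.sInf_mem (s := {e | Q.OverE P e}) h

theorem Place.ramIdx_eq_zero {Q : Place k' M'} {P : Place k M} (h : ¬ Q.Over P) :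
    Q.ramIdx P = 0 := by
  have : {e | Q.OverE P e} = ∅ := by
    ext e
    simp only [Set.mem_ofPred_eq, Set.mem_empty_iff_false, iff_false]
    exact fun he => h ⟨e, he⟩
  rw [Place.ramIdx, this, Nat.sInf_empty]

theorem Place.OverE.ramIdx_eq {Q : Place k' M'} {P : Place k M} {e : ℕ} (h : Q.OverE P e) :
    Q.ramIdx P = e := (Place.overE_ramIdx ⟨e, h⟩).unique h

theorem Place.Over.ramIdx_pos {Q : Place k' M'} {P : Place k M} (h : Q.Over P) :
    0 < Q.ramIdx P := (Place.overE_ramIdx h).1

theorem Place.Over.v_le_one_iff {Q : Place k' M'} {P : Place k M} (h : Q.Over P) (f : M) :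
    Q.v (algebraMap M M' f) ≤ 1 ↔ P.v f ≤ 1 := by
  obtain ⟨e, he, h⟩ := h
  rw [h f]
  exact pow_le_one_iff he.ne'

theorem Place.Over.v_lt_one_iff {Q : Place k' M'} {P : Place k M} (h : Q.Over P) (f : M) :
    Q.v (algebraMap M M' f) < 1 ↔ P.v f < 1 := by
  obtain ⟨e, he, h⟩ := h
  rw [h f]
  exact pow_lt_one_iff he.ne'

theorem Place.Over.ord_algebraMap {Q : Place k' M'} {P : Place k M} (h : Q.Over P) (f : M) :
    Q.ord (algebraMap M M' f) = Q.ramIdx P * P.ord f := by
  rw [Place.ord, Place.ord, (Place.overE_ramIdx h).2 f, log_pow]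
  simp

/-- the place below is unique -/
theorem Place.Over.unique {Q : Place k' M'} {P P' : Place k M} (h : Q.Over P) (h' : Q.Over P') :
    P = P' := by
  apply Place.eq_of_O_eq
  ext f
  rw [Valuation.mem_valuationSubring_iff, Valuation.mem_valuationSubring_iff, ← h.v_le_one_iff,
    ← h'.v_le_one_iff]

/-- a criterion: the valuation rings correspond -/
theorem Place.over_of_forall_le_one {Q : Place k' M'} {P : Place k M}
    (h : ∀ f : M, P.v f ≤ 1 → Q.v (algebraMap M M' f) ≤ 1)
    (h' : ∃ f : M, Q.v (algebraMap M M' f) < 1 ∧ f ≠ 0) : Q.Over P := by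
  obtain ⟨t, ht⟩ := P.exists_unif
  have ht0 : t ≠ 0 := by
    rintro rfl
    rw [map_zero] at ht
    exact exp_ne_zero ht.symm
  -- units go to units
  have hunit : ∀ u : M, P.v u = 1 → Q.v (algebraMap M M' u) = 1 := by
    intro u hu
    have hu0 : u ≠ 0 := by
      rintro rfl
      simp at hu
    apply le_antisymm (h u hu.le)
    have h2 := h u⁻¹ (by rw [map_inv₀, hu, inv_one])
    rw [map_inv₀, map_inv₀] at h2
    have h3 : Q.v (algebraMap M M' u) ≠ 0 := Q.v_ne_zero (by simpa using hu0)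
    exact (inv_le_one₀ (zero_lt_iff.2 h3)).1 h2
  -- every element is a power of `t` times a unit
  have hdec : ∀ f : M, f ≠ 0 → Q.v (algebraMap M M' f) = Q.v (algebraMap M M' t) ^ (P.ord f) := by
    intro f hf
    have hu : P.v (f * (t ^ (P.ord f))⁻¹) = 1 := by
      rw [map_mul, map_inv₀, map_zpow₀, ht, P.v_eq_exp_neg_ord hf, ← exp_zsmul]
      simp
    have h1 := hunit _ hu
    rw [map_mul, map_mul, map_inv₀, map_inv₀, map_zpow₀, map_zpow₀] at h1
    have h3 : Q.v (algebraMap M M' t) ^ (P.ord f) ≠ 0 :=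
      zpow_ne_zero _ (Q.v_ne_zero (by simpa using ht0))
    exact (mul_inv_eq_one₀ h3).1 h1
  have ht1 : Q.v (algebraMap M M' t) < 1 := by
    refine lt_of_le_of_ne (h t (by rw [ht]; exact exp_le_exp.2 (by norm_num : (-1 : ℤ) ≤ 0))) ?_
    intro h1
    obtain ⟨f, hf, hf0⟩ := h'
    rw [hdec f hf0, h1, one_zpow] at hf
    exact lt_irrefl _ hf
  have ht0' : algebraMap M M' t ≠ 0 := by simpa using ht0
  have hpos : 0 < Q.ord (algebraMap M M' t) := (Q.v_lt_one_iff ht0').1 ht1
  refine ⟨(Q.ord (algebraMap M M' t)).toNat, by omega, fun f => ?_⟩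
  by_cases hf : f = 0
  · subst hf
    rw [map_zero, map_zero, map_zero, zero_pow (by omega)]
  · rw [hdec f hf, Q.v_eq_exp_neg_ord ht0', P.v_eq_exp_neg_ord hf, ← exp_zsmul, ← exp_nsmul, exp_inj]
    have : ((Q.ord (algebraMap M M' t)).toNat : ℤ) = Q.ord (algebraMap M M' t) :=
      Int.toNat_of_nonneg hpos.le
    simp only [smul_eq_mul, nsmul_eq_mul, this]
    ring

/-! #### FF8a (statements of helper256, moved here from `Gal/ConstExt.lean`) -/

theorem Place.over_of_comap_eq {Q : Place k' M'} {P : Place k M}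
    (h : Q.O.comap (algebraMap M M') = P.O) : Q.Over P := by
  have hiff : ∀ f : M, Q.v (algebraMap M M' f) ≤ 1 ↔ P.v f ≤ 1 := by
    intro f
    rw [← Valuation.mem_valuationSubring_iff, ← Valuation.mem_valuationSubring_iff,
      ← ValuationSubring.mem_comap]
    exact iff_of_eq (congrArg (f ∈ ·) h)
  apply Place.over_of_forall_le_one (fun f hf => (hiff f).2 hf)
  obtain ⟨t, ht⟩ := P.exists_unif
  have ht0 : t ≠ 0 := by
    rintro rfl
    rw [map_zero] at ht
    exact exp_ne_zero ht.symm
  refine ⟨t, ?_, ht0⟩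
  have h1 : ¬ P.v t⁻¹ ≤ 1 := by
    rw [map_inv₀, ht, ← exp_neg, not_le, neg_neg]
    exact exp_lt_exp.2 (by norm_num : (0 : ℤ) < 1)
  rw [← hiff, map_inv₀, map_inv₀, not_le] at h1
  have h3 : Q.v (algebraMap M M' t) ≠ 0 := Q.v_ne_zero (by simpa using ht0)
  exact (one_lt_inv₀ (zero_lt_iff.2 h3)).1 h1

theorem Place.Over.comap_eq {Q : Place k' M'} {P : Place k M} (h : Q.Over P) :
    Q.O.comap (algebraMap M M') = P.O := by
  ext f
  rw [ValuationSubring.mem_comap, Valuation.mem_valuationSubring_iff,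
    Valuation.mem_valuationSubring_iff]
  exact h.v_le_one_iff f

theorem Place.ramIdx_eq_of_overE {Q : Place k' M'} {P : Place k M} {e : ℕ} (h : Q.OverE P e) :
    Q.ramIdx P = e := h.ramIdx_eq

theorem Place.Over.overE_ramIdx {Q : Place k' M'} {P : Place k M} (h : Q.Over P) :
    Q.OverE P (Q.ramIdx P) := Place.overE_ramIdx h

theorem Place.Over.unique_below {Q : Place k' M'} {P P' : Place k M} (h : Q.Over P)
    (h' : Q.Over P') : P = P' := h.unique h'

section Trans

variable {k'' M'' : Type*} [Field k''] [Field M''] [Algebra k'' M''] [Algebra M' M'']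
  [Algebra M M''] [IsScalarTower M M' M'']

theorem Place.OverE.trans {R : Place k'' M''} {Q : Place k' M'} {P : Place k M} {e e' : ℕ}
    (h : R.OverE Q e) (h' : Q.OverE P e') : R.OverE P (e * e') := by
  refine ⟨Nat.mul_pos h.1 h'.1, fun f => ?_⟩
  rw [IsScalarTower.algebraMap_apply M M' M'', h.2, h'.2, ← pow_mul, mul_comm]

theorem Place.Over.trans {R : Place k'' M''} {Q : Place k' M'} {P : Place k M}
    (h : R.Over Q) (h' : Q.Over P) : R.Over P := by
  obtain ⟨e, he⟩ := h
  obtain ⟨e', he'⟩ := h'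
  exact ⟨_, he.trans he'⟩

theorem Place.ramIdx_trans {R : Place k'' M''} {Q : Place k' M'} {P : Place k M}
    (h : R.Over Q) (h' : Q.Over P) : R.ramIdx P = R.ramIdx Q * Q.ramIdx P :=
  ((Place.overE_ramIdx h).trans (Place.overE_ramIdx h')).ramIdx_eq

end Trans

end Formal

variable {k M M' : Type*} [Field k] [Field M] [Field M'] [Algebra k M] [Algebra k M'] [Algebra M M']
  [IsScalarTower k M M'] [IsFF k M]

omit [Algebra k M] [IsScalarTower k M M'] [IsFF k M] in
/-- a place of an algebraic extension is not trivial on the base -/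
theorem Place.exists_v_algebraMap_lt_one [Algebra.IsAlgebraic M M'] (Q : Place k M') :
    ∃ f : M, Q.v (algebraMap M M' f) < 1 ∧ f ≠ 0 := by
  by_contra hcon
  push Not at hcon
  have hone : ∀ f : M, f ≠ 0 → Q.v (algebraMap M M' f) = 1 := by
    intro f hf
    have h1 : 1 ≤ Q.v (algebraMap M M' f) := by
      by_contra h
      exact hf (hcon f (not_le.1 h))
    have h2 : 1 ≤ Q.v (algebraMap M M' f⁻¹) := by
      by_contra h
      exact inv_ne_zero hf (hcon f⁻¹ (not_le.1 h))
    rw [map_inv₀, map_inv₀] at h2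
    have h3 : Q.v (algebraMap M M' f) ≠ 0 := Q.v_ne_zero (by simpa using hf)
    exact le_antisymm ((one_le_inv₀ (zero_lt_iff.2 h3)).1 h2) h1
  obtain ⟨y, hy⟩ := Q.exists_unif
  have hy0 : y ≠ 0 := by
    rintro rfl
    rw [map_zero] at hy
    exact exp_ne_zero hy.symm
  have hint : IsIntegral M y := (Algebra.IsAlgebraic.isAlgebraic y).isIntegral
  have hc0 : (minpoly M y).coeff 0 ≠ 0 := minpoly.coeff_zero_ne_zero hint hy0
  have hev := minpoly.aeval M y
  rw [← Polynomial.divX_mul_X_add (minpoly M y), map_add, map_mul, Polynomial.aeval_X,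
    Polynomial.aeval_C] at hev
  have h1 : Q.v (Polynomial.aeval y (minpoly M y).divX) ≤ 1 :=
    v_aeval_le_one Q.v hone (by rw [hy]; exact exp_le_exp.2 (by norm_num : (-1 : ℤ) ≤ 0)) _
  have h2 : algebraMap M M' ((minpoly M y).coeff 0)
      = - (Polynomial.aeval y (minpoly M y).divX * y) := by
    rw [eq_neg_iff_add_eq_zero, add_comm]; exact hev
  have h3 := hone _ hc0
  rw [h2, Valuation.map_neg, map_mul, hy] at h3
  have h4 : Q.v (Polynomial.aeval y (minpoly M y).divX) * exp (-1 : ℤ) ≤ 1 * exp (-1 : ℤ) :=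
    mul_le_mul_left h1 _
  rw [h3, one_mul] at h4
  exact absurd h4 (not_le.2 (exp_lt_exp.2 (by norm_num : (-1 : ℤ) < 0)))

theorem Place.existsUnique_below [Module.Finite M M'] (Q : Place k M') :
    ∃! P : Place k M, Q.Over P := by
  have hk : ∀ a : k, algebraMap k M a ∈ Q.O.comap (algebraMap M M') := by
    intro a
    rw [ValuationSubring.mem_comap, ← IsScalarTower.algebraMap_apply]
    exact Q.algebraMap_mem a
  have hA : Q.O.comap (algebraMap M M') ≠ ⊤ := by
    intro htop
    obtain ⟨f, hf, hf0⟩ := Place.exists_v_algebraMap_lt_one (M := M) Q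
    have h1 : f⁻¹ ∈ Q.O.comap (algebraMap M M') := htop ▸ ValuationSubring.mem_top _
    rw [ValuationSubring.mem_comap, Valuation.mem_valuationSubring_iff, map_inv₀, map_inv₀] at h1
    have h3 : Q.v (algebraMap M M' f) ≠ 0 := Q.v_ne_zero (by simpa using hf0)
    exact absurd ((inv_le_one₀ (zero_lt_iff.2 h3)).1 h1) (not_le.2 hf)
  obtain ⟨P, hP⟩ := exists_place_of_valuationSubring _ hk hA
  exact ⟨P, Place.over_of_comap_eq hP.symm, fun P' hP' => hP'.unique (Place.over_of_comap_eq hP.symm)⟩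

end Claimed.Agent.R280
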