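import Claimed.Agent.R280.FF.Discrete
import Claimed.Agent.R280.FF.ResMap

/-!
# Row 280, package FF, leaf FF1d (Residue): residue fields, zeros, constants
(Stichtenoth 1.1.15, 1.1.16, 1.1.19, 1.1.20)

* `Place.v_sum_eq_one`: lifts of `k`-independent residue classes are valuation independent.
* `Place.finite_res`: take `x ≠ 0` with `P.v x < 1`; it is transcendental; every finite `k`-independent
  family of `P.Res` has at most `[M : k(x)]` elements (`card_le_finrank_adjoin_of_valuation`, `γ = 1`).
* `exists_place_lt_one`: `Ideal.image_subset_nonunits_valuationSubring` for the subring `k[f]` and the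
  proper ideal `(f)`, then `exists_place_of_valuationSubring`.
* `finite_algebraicClosure`: the constants embed `k`-linearly into `P.Res` for any place `P`.
-/

set_option autoImplicit false

namespace Claimed.Agent.R280

open WithZero

variable {k M : Type*} [Field k] [Field M] [Algebra k M]

theorem Place.v_sum_eq_one (P : Place k M) {ι : Type*} [Fintype ι] (u : ι → P.O)
    (hu : LinearIndependent k fun i => IsLocalRing.residue P.O (u i)) {c : ι → k} (hc : c ≠ 0) :
    P.v (∑ i, c i • (u i : M)) = 1 := by
  have hcoe : ((∑ i, c i • u i : P.O) : M) = ∑ i, c i • (u i : M) := by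
    rw [AddSubmonoidClass.coe_finsetSum]
    exact Finset.sum_congr rfl fun i _ => P.coe_smul_O (c i) (u i)
  have hres : IsLocalRing.residue P.O (∑ i, c i • u i) ≠ 0 := by
    intro h0
    rw [map_sum] at h0
    have h1 : ∑ i, c i • IsLocalRing.residue P.O (u i) = 0 := by
      rw [← h0]
      exact Finset.sum_congr rfl fun i _ => P.smul_residue (c i) (u i)
    exact hc (funext fun i => Fintype.linearIndependent_iff.1 hu c h1 i)
  rw [Ne, P.residue_eq_zero_iff, hcoe, not_lt] at hres
  refine le_antisymm ?_ hres
  rw [← hcoe]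
  exact (∑ i, c i • u i : P.O).2

theorem Place.mem_nonunits_iff_ff1d (P : Place k M) {f : M} : f ∈ P.O.nonunits ↔ P.v f < 1 := by
  rw [ValuationSubring.mem_nonunits_iff]
  exact (Valuation.isEquiv_valuation_valuationSubring P.v).lt_one_iff_lt_one.symm

/-- constants are units at every place -/
theorem Place.v_eq_one_of_isAlgebraic (P : Place k M) {f : M} (hf : IsAlgebraic k f) (h0 : f ≠ 0) :
    P.v f = 1 := by
  rcases lt_trichotomy (P.v f) 1 with h | h | h
  · exact absurd hf (transcendental_of_mem_nonunits P.O P.algebraMap_mem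
      (P.mem_nonunits_iff_ff1d.2 h) h0)
  · exact h
  · have h' : P.v f⁻¹ < 1 := by
      rw [map_inv₀]
      exact inv_lt_one_of_one_lt₀ h
    exact absurd hf.inv (transcendental_of_mem_nonunits P.O P.algebraMap_mem
      (P.mem_nonunits_iff_ff1d.2 h') (inv_ne_zero h0))

theorem Place.transcendental_of_v_ne_one (P : Place k M) {f : M} (h0 : f ≠ 0) (h : P.v f ≠ 1) :
    Transcendental k f := fun hf => h (P.v_eq_one_of_isAlgebraic hf h0)

variable [IsFF k M]

theorem Place.finite_res (P : Place k M) : Module.Finite k P.Res := by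
  obtain ⟨x, hx⟩ := P.exists_unif
  have hx1 : P.v x < 1 := by
    rw [hx, ← exp_zero, exp_lt_exp]
    norm_num
  have hx0 : x ≠ 0 := by
    rintro rfl
    rw [map_zero] at hx
    exact exp_ne_zero hx.symm
  have htr : Transcendental k x := P.transcendental_of_v_ne_one hx0 hx1.ne
  have := IsFF.finite_adjoin htr
  rw [← Module.rank_lt_aleph0_iff]
  refine lt_of_le_of_lt (rank_le (n := Module.finrank (IntermediateField.adjoin k {x}) M) ?_)
    Cardinal.natCast_lt_aleph0
  intro s hs
  choose u hu using fun i : s => IsLocalRing.residue_surjective (R := P.O) (i : P.Res)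
  have hli : LinearIndependent k fun i => IsLocalRing.residue P.O (u i) := by
    simpa only [hu] using hs
  have := card_le_finrank_adjoin_of_valuation (k := k) (x := x) (fun i : s => (u i : M))
    (fun c hc => ⟨P.v, 1, P.triv, hx1, fun i => (u i).2, by
      rw [mul_one, P.v_sum_eq_one u hli hc]
      exact hx1⟩)
  simpa using this

theorem Place.deg_pos (P : Place k M) : 0 < P.deg :=
  have := P.finite_res
  Module.finrank_pos

/-- a transcendental element has a zero -/
theorem exists_place_lt_one {f : M} (hf : Transcendental k f) : ∃ P : Place k M, P.v f < 1 := by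
  have hf0 : f ≠ 0 := by
    rintro rfl
    exact hf isAlgebraic_zero
  set A : Subring M := (Algebra.adjoin k {f}).toSubring with hA
  have hfA : f ∈ A := Algebra.subset_adjoin (Set.mem_singleton f)
  have hI : Ideal.span {(⟨f, hfA⟩ : A)} ≠ ⊤ := by
    intro htop
    rw [Ideal.span_singleton_eq_top] at htop
    obtain ⟨g, hg⟩ := htop.exists_right_inv
    have hgM : f * (g : M) = 1 := by
      have := congrArg (Subtype.val) hg
      simpa using this
    have hgA : (g : M) ∈ Algebra.adjoin k {f} := g.2
    rw [Algebra.adjoin_singleton_eq_range_aeval] at hgA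
    obtain ⟨q, hq⟩ := hgA
    have h1 : Polynomial.aeval f (Polynomial.X * q - 1) = 0 := by
      rw [map_sub, map_mul, Polynomial.aeval_X, map_one]
      have : (Polynomial.aeval f) q = (g : M) := hq
      rw [this, hgM, sub_self]
    have h2 := (transcendental_iff.1 hf) _ h1
    have h3 := congrArg (fun p => Polynomial.coeff p 0) h2
    simp at h3
  obtain ⟨B, hAB, hB⟩ := Ideal.image_subset_nonunits_valuationSubring _ hI
  have hk : ∀ a : k, algebraMap k M a ∈ B := fun a =>
    hAB ((Algebra.adjoin k {f}).algebraMap_mem a)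
  have hfB : f ∈ B.nonunits :=
    hB ⟨⟨f, hfA⟩, Ideal.subset_span (Set.mem_singleton _), rfl⟩
  have hBtop : B ≠ ⊤ := by
    rintro rfl
    rw [ValuationSubring.mem_nonunits_iff_exists_mem_maximalIdeal] at hfB
    obtain ⟨hm, hmax⟩ := hfB
    rw [IsLocalRing.mem_maximalIdeal, mem_nonunits_iff] at hmax
    apply hmax
    refine ⟨⟨⟨f, hm⟩, ⟨f⁻¹, trivial⟩, ?_, ?_⟩, rfl⟩
    · ext
      exact mul_inv_cancel₀ hf0
    · ext
      exact inv_mul_cancel₀ hf0
  obtain ⟨P, hP⟩ := exists_place_of_valuationSubring B hk hBtop
  refine ⟨P, P.mem_nonunits_iff_ff1d.1 ?_⟩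
  rw [hP]
  exact hfB

theorem exists_place (k M : Type*) [Field k] [Field M] [Algebra k M] [IsFF k M] :
    Nonempty (Place k M) :=
  let ⟨_, hx⟩ := IsFF.exists_transcendental k M
  let ⟨P, _⟩ := exists_place_lt_one hx
  ⟨P⟩

/-- a transcendental element has a pole -/
theorem exists_place_one_lt {f : M} (hf : Transcendental k f) : ∃ P : Place k M, 1 < P.v f := by
  have hf0 : f ≠ 0 := by
    rintro rfl
    exact hf isAlgebraic_zero
  have hinv : Transcendental k f⁻¹ := fun h => hf (by simpa using h.inv)
  obtain ⟨P, hP⟩ := exists_place_lt_one hinv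
  refine ⟨P, ?_⟩
  rw [map_inv₀] at hP
  exact (inv_lt_one₀ (zero_lt_iff.2 (P.v_ne_zero hf0))).1 hP

/-- an element without poles is algebraic over `k` -/
theorem isAlgebraic_of_forall_le_one {f : M} (hf : ∀ P : Place k M, P.v f ≤ 1) :
    IsAlgebraic k f := by
  by_contra h
  obtain ⟨P, hP⟩ := exists_place_one_lt (k := k) h
  exact absurd (hf P) (not_le.2 hP)

/-- the field of constants is finite over `k` -/
theorem finite_algebraicClosure : Module.Finite k (algebraicClosure k M) := by
  obtain ⟨P⟩ := exists_place k M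
  have := P.finite_res
  have hle : ∀ a ∈ (algebraicClosure k M).toSubalgebra.toSubmodule, P.v (1 * a) ≤ 1 := by
    intro a ha
    rw [one_mul]
    by_cases h0 : a = 0
    · simp [h0]
    · exact (P.v_eq_one_of_isAlgebraic (mem_algebraicClosure_iff.1 ha) h0).le
  refine Module.Finite.of_injective
    (P.resMap 1 (algebraicClosure k M).toSubalgebra.toSubmodule hle) ?_
  rw [injective_iff_map_eq_zero]
  intro a ha
  rw [P.resMap_eq_zero_iff, one_mul] at ha
  by_contra h0
  have h0' : (a : M) ≠ 0 := fun h => h0 (Subtype.ext h)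
  exact ha.ne (P.v_eq_one_of_isAlgebraic (mem_algebraicClosure_iff.1 a.2) h0')

end Claimed.Agent.R280
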