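import Claimed.Agent.R280.FF.RelDim
import Claimed.Agent.R280.FF.Approx
import Claimed.Agent.R280.FF.Residue
import Claimed.Agent.R280.FF.ResMap

/-!
# Row 280, package FF, leaf FF5b (SemiLocal): dimension of quotients of semilocal fractional ideals (PROVED)

`slat T a = {x | Q.v x ≤ exp (a Q) for all Q ∈ T}` (a `k`-subspace of `M`), `T` a finite set of places.
`finrank_slat`: `dim_k slat T b / slat T a = ∑_{Q ∈ T} (b Q - a Q) deg Q` for `a ≤ b` on `T`.

Plan: induction on `∑ (b Q - a Q)` with `relDim_add`; the step is `relDim_slat_update`: raising `a` by one at `Q₀ ∈ T` adds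
`deg Q₀`.  For this take `s` with `Q₀.ord s = a Q₀ + 1` (`Place.exists_ord_eq`); the map `x ↦ residue of s x` from
`slat T (a + 1_{Q₀})` to `Q₀.Res` is `k`-linear with kernel `slat T a`; it is onto by `weak_approx` (approximate `s⁻¹ r` at `Q₀`
to the order `- a Q₀`, and `0` at the other places of `T` to the order `- a Q`).  `relDim_eq_finrank_of_surjective`.
The same map (without surjectivity) is used in leaf LSpace.
-/

set_option autoImplicit false

namespace Claimed.Agent.R280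

open WithZero

variable {k M : Type*} [Field k] [Field M] [Algebra k M]

/-- `{x | Q.v x ≤ exp (a Q) for all Q ∈ T}` -/
def slat (T : Finset (Place k M)) (a : Place k M → ℤ) : Submodule k M where
  carrier := {x | ∀ Q ∈ T, Q.v x ≤ exp (a Q)}
  zero_mem' := fun Q _ => by simp
  add_mem' := fun {x y} hx hy Q hQ => (Q.v.map_add x y).trans (max_le (hx Q hQ) (hy Q hQ))
  smul_mem' := fun c x hx Q hQ => by
    rw [Algebra.smul_def, map_mul]
    by_cases h : c = 0
    · simp [h]
    · rw [Q.triv c h, one_mul]; exact hx Q hQ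

theorem mem_slat {T : Finset (Place k M)} {a : Place k M → ℤ} {x : M} :
    x ∈ slat T a ↔ ∀ Q ∈ T, Q.v x ≤ exp (a Q) := Iff.rfl

theorem slat_mono (T : Finset (Place k M)) {a b : Place k M → ℤ} (h : ∀ Q ∈ T, a Q ≤ b Q) :
    slat T a ≤ slat T b := fun _ hx Q hQ => (hx Q hQ).trans (exp_le_exp.2 (h Q hQ))

variable [IsFF k M]

open Classical in
theorem relDim_slat_update (T : Finset (Place k M)) (a : Place k M → ℤ) {Q₀ : Place k M}
    (h₀ : Q₀ ∈ T) :
    RelFin (slat T a) (slat T (Function.update a Q₀ (a Q₀ + 1))) ∧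
      relDim (slat T a) (slat T (Function.update a Q₀ (a Q₀ + 1))) = Q₀.deg := by
  set a' := Function.update a Q₀ (a Q₀ + 1) with ha'
  obtain ⟨s, hs0, hs⟩ := Q₀.exists_ord_eq (a Q₀ + 1)
  have hX : ∀ x ∈ slat T a', Q₀.v (s * x) ≤ 1 := by
    intro x hx
    have h1 := hx Q₀ h₀
    rw [ha', Function.update_self] at h1
    have h := (Q₀.v_mul_le_exp_iff hs0 x 0).2 (by rwa [hs, zero_add])
    simpa using h
  have hlt : ∀ x : M, Q₀.v (s * x) < 1 ↔ Q₀.v x ≤ exp (a Q₀) := by
    intro x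
    have h1 := Q₀.v_mul_lt_exp_iff hs0 x 0
    rw [exp_zero, hs, zero_add, Q₀.v_lt_exp_add_one_iff] at h1
    exact h1
  have hker : ∀ x : slat T a', Q₀.resMap s _ hX x = 0 ↔ (x : M) ∈ slat T a := by
    intro x
    rw [Place.resMap_eq_zero_iff, hlt, mem_slat]
    constructor
    · intro h Q hQ
      by_cases hQQ : Q = Q₀
      · subst hQQ; exact h
      · have h1 := x.2 Q hQ
        have h2 : a' Q = a Q := by rw [ha', Function.update_of_ne hQQ]
        rwa [h2] at h1
    · intro h; exact h Q₀ h₀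
  have hsurj : Function.Surjective (Q₀.resMap s _ hX) := by
    intro r
    obtain ⟨z, rfl⟩ := IsLocalRing.residue_surjective r
    set N : ℤ := ∑ Q ∈ T, |a Q| with hN
    have hNa : ∀ Q ∈ T, -N ≤ a Q := by
      intro Q hQ
      have h1 : |a Q| ≤ N :=
        Finset.single_le_sum (f := fun Q => |a Q|) (fun _ _ => abs_nonneg _) hQ
      have h2 := neg_abs_le (a Q)
      omega
    obtain ⟨x, hx⟩ := weak_approx T (fun Q => if Q = Q₀ then s⁻¹ * (z : M) else 0) N
    have hx0 : Q₀.v (x - s⁻¹ * (z : M)) ≤ exp (a Q₀) := by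
      have h1 := hx Q₀ h₀
      rw [if_pos rfl] at h1
      exact h1.trans (exp_le_exp.2 (hNa Q₀ h₀))
    have hz : Q₀.v (s⁻¹ * (z : M)) ≤ exp (a Q₀ + 1) := by
      rw [Q₀.v_mul_le_exp_iff (inv_ne_zero hs0), Q₀.ord_inv, hs, add_neg_cancel, exp_zero]
      exact z.2
    have hxmem : x ∈ slat T a' := by
      intro Q hQ
      by_cases hQQ : Q = Q₀
      · subst hQQ
        rw [ha', Function.update_self]
        have h1 : x = (x - s⁻¹ * (z : M)) + s⁻¹ * (z : M) := by ring
        rw [h1]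
        exact (Q.v.map_add _ _).trans
          (max_le (hx0.trans (exp_le_exp.2 (by omega))) hz)
      · have h1 := hx Q hQ
        rw [if_neg hQQ, sub_zero] at h1
        rw [ha', Function.update_of_ne hQQ]
        exact h1.trans (exp_le_exp.2 (hNa Q hQ))
    refine ⟨⟨x, hxmem⟩, ?_⟩
    rw [Place.resMap_apply, Place.residue_eq_iff]
    have h1 : s * x - (z : M) = s * (x - s⁻¹ * (z : M)) := by
      field_simp
    show Q₀.v (s * x - (z : M)) < 1
    rw [h1, hlt]
    exact hx0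
  have := Q₀.finite_res
  exact ⟨(relFin_iff_of_surjective _ hsurj hker).2 inferInstance,
    relDim_eq_finrank_of_surjective _ hsurj hker⟩

omit [IsFF k M] in
theorem slat_congr (T : Finset (Place k M)) {a b : Place k M → ℤ} (h : ∀ Q ∈ T, a Q = b Q) :
    slat T a = slat T b :=
  le_antisymm (slat_mono T fun Q hQ => (h Q hQ).le) (slat_mono T fun Q hQ => (h Q hQ).ge)

theorem finrank_slat (T : Finset (Place k M)) (a b : Place k M → ℤ) (h : ∀ Q ∈ T, a Q ≤ b Q) :
    RelFin (slat T a) (slat T b) ∧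
      (relDim (slat T a) (slat T b) : ℤ) = ∑ Q ∈ T, (b Q - a Q) * (Q.deg : ℤ) := by
  classical
  obtain ⟨n, hn⟩ : ∃ n : ℕ, ∑ Q ∈ T, (b Q - a Q) = n :=
    ⟨(∑ Q ∈ T, (b Q - a Q)).toNat,
      (Int.toNat_of_nonneg (Finset.sum_nonneg fun Q hQ => sub_nonneg.2 (h Q hQ))).symm⟩
  induction n generalizing a with
  | zero =>
    have h0 : ∀ Q ∈ T, b Q - a Q = 0 :=
      (Finset.sum_eq_zero_iff_of_nonneg fun Q hQ => sub_nonneg.2 (h Q hQ)).1 (by simpa using hn)
    have h1 : slat T a = slat T b := slat_congr T fun Q hQ => by have := h0 Q hQ; omega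
    rw [h1]
    refine ⟨RelFin.refl _, ?_⟩
    rw [relDim_self, Finset.sum_eq_zero fun Q hQ => by rw [h0 Q hQ, zero_mul]]
    rfl
  | succ n ih =>
    have hex : ∃ Q₀ ∈ T, a Q₀ < b Q₀ := by
      by_contra hcon
      push Not at hcon
      have : ∑ Q ∈ T, (b Q - a Q) = 0 :=
        Finset.sum_eq_zero fun Q hQ => by have := hcon Q hQ; have := h Q hQ; omega
      rw [this] at hn
      push_cast at hn
      omega
    obtain ⟨Q₀, h₀, hlt⟩ := hex
    set a₁ := Function.update a Q₀ (a Q₀ + 1) with ha₁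
    have ha₁' : ∀ Q, a₁ Q = a Q + if Q = Q₀ then 1 else 0 := by
      intro Q
      by_cases hQ : Q = Q₀
      · subst hQ; simp [ha₁]
      · simp [ha₁, hQ]
    have hle₁ : ∀ Q ∈ T, a₁ Q ≤ b Q := by
      intro Q hQ
      rw [ha₁']
      split_ifs with hQQ
      · subst hQQ; omega
      · have := h Q hQ; omega
    have hle₀ : ∀ Q ∈ T, a Q ≤ a₁ Q := by
      intro Q _
      rw [ha₁']
      split_ifs <;> omega
    have hsum : ∑ Q ∈ T, (b Q - a₁ Q) = n := by
      have h1 : ∑ Q ∈ T, (b Q - a₁ Q)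
          = ∑ Q ∈ T, (b Q - a Q) - ∑ Q ∈ T, (if Q = Q₀ then (1 : ℤ) else 0) := by
        rw [← Finset.sum_sub_distrib]
        refine Finset.sum_congr rfl fun Q _ => ?_
        rw [ha₁']; ring
      rw [h1, hn, Finset.sum_ite_eq' T Q₀, if_pos h₀]
      push_cast; ring
    obtain ⟨hf₁, hd₁⟩ := ih a₁ hle₁ hsum
    obtain ⟨hf₀, hd₀⟩ := relDim_slat_update T a h₀
    have hfin := RelFin.trans (slat_mono T hle₀) (slat_mono T hle₁) hf₀ hf₁
    refine ⟨hfin, ?_⟩
    rw [relDim_add (slat_mono T hle₀) (slat_mono T hle₁) hfin, hd₀]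
    push_cast
    rw [hd₁]
    have h2 : ∑ Q ∈ T, (b Q - a Q) * (Q.deg : ℤ)
        = ∑ Q ∈ T, (b Q - a₁ Q) * (Q.deg : ℤ)
          + ∑ Q ∈ T, (if Q = Q₀ then (Q.deg : ℤ) else 0) := by
      rw [← Finset.sum_add_distrib]
      refine Finset.sum_congr rfl fun Q _ => ?_
      rw [ha₁']
      split_ifs <;> ring
    rw [h2, Finset.sum_ite_eq' T Q₀, if_pos h₀]
    ring

end Claimed.Agent.R280
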