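import Claimed.Agent.R280.FF.MatInt
import Claimed.Agent.R280.FF.SemiLocal

/-!
# Row 280, package FF, leaf FF5d (LocalIndex): the index of two `O_P`-lattices in `M ^ ι` (PROVED)

`lat P B m = π ^ (-m) B O_P ^ ι = {c | B⁻¹ c ∈ π ^ (-m) O_P ^ ι}` as a `k`-subspace of `ι → M`.
`relDim_lat`: for `lat P B₁ m₁ ≤ lat P B₂ m₂`:
`dim_k = ((n m₂ - ord det B₂) - (n m₁ - ord det B₁)) deg P`.

Proof (no elementary divisors): `IdxProp P B`: for all `m, r` with `L r := lat P 1 r ≤ lat P B m`,
`dim (lat P B m / L r) = (n m - ord det B - n r) deg P`.  It holds for diagonal matrices (`relDim_pi`, `finrank_slat` with `T = {P}`), for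
`U ∈ GL(O_P)` (`lat P U m = L m`), it is multiplicative (`lat P (A * B) m` is the image of `lat P B m` under `c ↦ A c`, `relDim_map`,
`relDim_add`), a transvection is conjugate under a diagonal matrix to an integral one; conclude with
`Matrix.diagonal_transvection_induction_of_det_ne_zero`.
-/

set_option autoImplicit false

namespace Claimed.Agent.R280

open WithZero

variable {k M : Type*} [Field k] [Field M] [Algebra k M] {ι : Type*} [Fintype ι] [DecidableEq ι]

/-- the lattice `π ^ (-m) B O_P ^ ι` -/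
def lat (P : Place k M) (B : Matrix ι ι M) (m : ℤ) : Submodule k (ι → M) where
  carrier := {c | ∀ i, P.v ((B⁻¹.mulVec c) i) ≤ exp m}
  zero_mem' := fun i => by simp
  add_mem' := fun {x y} hx hy i => by
    rw [Matrix.mulVec_add]
    exact (P.v.map_add _ _).trans (max_le (hx i) (hy i))
  smul_mem' := fun c x hx i => by
    rw [Matrix.mulVec_smul, Pi.smul_apply, Algebra.smul_def, map_mul]
    by_cases h : c = 0
    · simp [h]
    · rw [P.triv c h, one_mul]; exact hx i

theorem mem_lat {P : Place k M} {B : Matrix ι ι M} {m : ℤ} {c : ι → M} :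
    c ∈ lat P B m ↔ ∀ i, P.v ((B⁻¹.mulVec c) i) ≤ exp m := Iff.rfl

theorem mem_lat_one {P : Place k M} {m : ℤ} {c : ι → M} :
    c ∈ lat P (1 : Matrix ι ι M) m ↔ ∀ i, P.v (c i) ≤ exp m := by
  simp [mem_lat]

theorem lat_mono (P : Place k M) (B : Matrix ι ι M) {m m' : ℤ} (h : m ≤ m') :
    lat P B m ≤ lat P B m' := fun _ hc i => (hc i).trans (exp_le_exp.2 h)

/-- the `k`-linear equivalence `c ↦ A c` -/
noncomputable def mulVecEquiv (k : Type*) {M : Type*} [Field k] [Field M] [Algebra k M]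
    (A : Matrix ι ι M) (hA : IsUnit A.det) : (ι → M) ≃ₗ[k] (ι → M) where
  toFun := A.mulVec
  invFun := A⁻¹.mulVec
  map_add' := Matrix.mulVec_add A
  map_smul' := fun c x => Matrix.mulVec_smul A c x
  left_inv := fun x => by
    rw [Matrix.mulVec_mulVec, Matrix.nonsing_inv_mul A hA, Matrix.one_mulVec]
  right_inv := fun x => by
    rw [Matrix.mulVec_mulVec, Matrix.mul_nonsing_inv A hA, Matrix.one_mulVec]

theorem lat_mul_left (P : Place k M) (A B : Matrix ι ι M) (hA : IsUnit A.det)
    (m : ℤ) (c : ι → M) : A.mulVec c ∈ lat P (A * B) m ↔ c ∈ lat P B m := by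
  rw [mem_lat, mem_lat, Matrix.mul_inv_rev, Matrix.mulVec_mulVec, Matrix.mul_assoc,
    Matrix.nonsing_inv_mul A hA, Matrix.mul_one]

theorem lat_mul_eq_map (P : Place k M) (A B : Matrix ι ι M) (hA : IsUnit A.det) (m : ℤ) :
    lat P (A * B) m = (lat P B m).map (mulVecEquiv k A hA : (ι → M) →ₗ[k] (ι → M)) := by
  ext x
  rw [Submodule.mem_map]
  constructor
  · intro hx
    refine ⟨A⁻¹.mulVec x, ?_, (mulVecEquiv k A hA).right_inv x⟩
    rw [← lat_mul_left P A B hA, Matrix.mulVec_mulVec, Matrix.mul_nonsing_inv A hA,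
      Matrix.one_mulVec]
    exact hx
  · rintro ⟨c, hc, rfl⟩
    exact (lat_mul_left P A B hA m c).2 hc

theorem lat_mul_intUnit (P : Place k M) (B U : Matrix ι ι M)
    (hU : IsIntUnit P U) (m : ℤ) : lat P (B * U) m = lat P B m := by
  ext x
  rw [mem_lat, mem_lat, Matrix.mul_inv_rev, ← Matrix.mulVec_mulVec, hU.inv.v_mulVec_le_iff]

theorem lat_intUnit (P : Place k M) (U : Matrix ι ι M) (hU : IsIntUnit P U) (m : ℤ) :
    lat P U m = lat P (1 : Matrix ι ι M) m := by
  have := lat_mul_intUnit P 1 U hU m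
  rwa [Matrix.one_mul] at this

/-- every lattice is commensurable with the standard one -/
theorem exists_lat_sandwich (P : Place k M) (B : Matrix ι ι M) (hB : IsUnit B.det) :
    ∃ r : ℕ, ∀ m : ℤ, lat P (1 : Matrix ι ι M) (m - r) ≤ lat P B m ∧
      lat P B m ≤ lat P (1 : Matrix ι ι M) (m + r) := by
  choose r₁ hr₁ using fun ij : ι × ι => exists_le_exp_nat (P.v (B ij.1 ij.2))
  choose r₂ hr₂ using fun ij : ι × ι => exists_le_exp_nat (P.v (B⁻¹ ij.1 ij.2))
  set R : ℕ := ∑ ij, (r₁ ij + r₂ ij) with hR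
  have hR₁ : ∀ i j, P.v (B i j) ≤ exp (R : ℤ) := fun i j => by
    refine (hr₁ (i, j)).trans (exp_le_exp.2 ?_)
    have : r₁ (i, j) + r₂ (i, j) ≤ R :=
      Finset.single_le_sum (f := fun ij => r₁ ij + r₂ ij) (fun _ _ => Nat.zero_le _)
        (Finset.mem_univ (i, j))
    omega
  have hR₂ : ∀ i j, P.v (B⁻¹ i j) ≤ exp (R : ℤ) := fun i j => by
    refine (hr₂ (i, j)).trans (exp_le_exp.2 ?_)
    have : r₁ (i, j) + r₂ (i, j) ≤ R :=
      Finset.single_le_sum (f := fun ij => r₁ ij + r₂ ij) (fun _ _ => Nat.zero_le _)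
        (Finset.mem_univ (i, j))
    omega
  refine ⟨R, fun m => ⟨fun c hc => ?_, fun c hc => ?_⟩⟩
  · rw [mem_lat_one] at hc
    rw [mem_lat]
    intro i
    have := P.v_mulVec_le_mul B⁻¹ _ hR₂ c _ hc i
    rwa [← exp_add, add_sub_cancel] at this
  · rw [mem_lat] at hc
    rw [mem_lat_one]
    intro i
    have := P.v_mulVec_le_mul B _ hR₁ _ _ hc i
    rwa [Matrix.mulVec_mulVec, Matrix.mul_nonsing_inv B hB, Matrix.one_mulVec, ← exp_add,
      add_comm] at this

theorem lat_diagonal (P : Place k M) (d : ι → M) (hd : ∀ i, d i ≠ 0) (m : ℤ) :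
    lat P (Matrix.diagonal d) m
      = Submodule.pi Set.univ (fun i => slat {P} (fun _ => m - P.ord (d i))) := by
  have hinv : (Matrix.diagonal d)⁻¹ = Matrix.diagonal (fun i => (d i)⁻¹) := by
    apply Matrix.inv_eq_left_inv
    rw [Matrix.diagonal_mul_diagonal, ← Matrix.diagonal_one]
    congr 1
    funext i
    exact inv_mul_cancel₀ (hd i)
  ext x
  rw [mem_lat, Submodule.mem_pi, hinv]
  simp only [Set.mem_univ, forall_true_left, mem_slat, Finset.mem_singleton, forall_eq]
  refine forall_congr' fun i => ?_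
  rw [Matrix.mulVec_diagonal, P.v_mul_le_exp_iff (inv_ne_zero (hd i)), P.ord_inv, sub_eq_add_neg]

theorem lat_one_eq_pi (P : Place k M) (m : ℤ) :
    lat P (1 : Matrix ι ι M) m = Submodule.pi Set.univ (fun _ : ι => slat {P} (fun _ => m)) := by
  have := lat_diagonal (ι := ι) P (fun _ => 1) (fun _ => one_ne_zero) m
  simpa using this

variable [IsFF k M]

/-- the index formula relative to the standard lattices -/
private def IdxProp (P : Place k M) (B : Matrix ι ι M) : Prop :=
  ∀ m r : ℤ, lat P (1 : Matrix ι ι M) r ≤ lat P B m →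
    RelFin (lat P (1 : Matrix ι ι M) r) (lat P B m) ∧
      (relDim (lat P (1 : Matrix ι ι M) r) (lat P B m) : ℤ)
        = (Fintype.card ι * m - P.ord B.det - Fintype.card ι * r) * (P.deg : ℤ)

private theorem idxProp_diagonal (P : Place k M) (d : ι → M) (hd : ∀ i, d i ≠ 0) :
    IdxProp P (Matrix.diagonal d) := by
  intro m r hle
  have hr : ∀ i, r ≤ m - P.ord (d i) := by
    intro i
    obtain ⟨t, ht0, ht⟩ := P.exists_ord_eq (-r)
    have h1 : (Pi.single i t : ι → M) ∈ lat P (1 : Matrix ι ι M) r := by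
      rw [mem_lat_one]
      intro j
      rw [Pi.single_apply]
      split_ifs
      · rw [P.v_le_exp_iff ht0, ht]
      · simp
    have h2 := hle h1
    rw [lat_diagonal P d hd, Submodule.mem_pi] at h2
    have h3 := h2 i trivial P (Finset.mem_singleton_self P)
    rw [Pi.single_eq_same, P.v_le_exp_iff ht0, ht] at h3
    simp only at h3
    omega
  have h1 := fun i => finrank_slat {P} (fun _ => r) (fun _ => m - P.ord (d i)) (fun _ _ => hr i)
  have h2 := relDim_pi (fun _ : ι => slat {P} (fun _ => r))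
    (fun i => slat {P} (fun _ => m - P.ord (d i))) (fun i => (h1 i).1)
  rw [lat_diagonal P d hd, lat_one_eq_pi]
  refine ⟨h2.1, ?_⟩
  rw [h2.2]
  push_cast
  rw [Finset.sum_congr rfl fun i _ => (h1 i).2]
  simp only [Finset.sum_singleton]
  rw [← Finset.sum_mul, Matrix.det_diagonal, P.ord_prod _ _ fun i _ => hd i]
  congr 1
  rw [Finset.sum_sub_distrib, Finset.sum_sub_distrib]
  simp

private theorem idxProp_one (P : Place k M) : IdxProp P (1 : Matrix ι ι M) := by
  have := idxProp_diagonal (ι := ι) P (fun _ => 1) (fun _ => one_ne_zero)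
  rwa [Matrix.diagonal_one] at this

private theorem idxProp_intUnit (P : Place k M) (U : Matrix ι ι M) (hU : IsIntUnit P U) :
    IdxProp P U := by
  intro m r hle
  rw [lat_intUnit P U hU] at hle ⊢
  have h := idxProp_one P m r hle
  have h0 : P.ord U.det = 0 := by simp [Place.ord, hU.2]
  rw [h0]
  simpa using h

private theorem idxProp_mul (P : Place k M) (A B : Matrix ι ι M) (hA : IsUnit A.det)
    (hB : IsUnit B.det) (hPA : IdxProp P A) (hPB : IdxProp P B) : IdxProp P (A * B) := by
  intro m r hle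
  obtain ⟨rB, hrB⟩ := exists_lat_sandwich P B hB
  obtain ⟨rA, hrA⟩ := exists_lat_sandwich P A hA
  -- `L s ≤ lat B m`, `L r' ≤ lat A s`, `r' ≤ r`
  set s : ℤ := m - rB with hs
  set r' : ℤ := min r (s - rA) with hr'
  have h1 : lat P (1 : Matrix ι ι M) s ≤ lat P B m := (hrB m).1
  have h2 : lat P (1 : Matrix ι ι M) r' ≤ lat P A s :=
    (lat_mono P 1 (min_le_right _ _)).trans (hrA s).1
  have h3 : lat P (1 : Matrix ι ι M) r' ≤ lat P (1 : Matrix ι ι M) r :=
    lat_mono P 1 (min_le_left _ _)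
  have hAs : lat P A s
      = (lat P (1 : Matrix ι ι M) s).map (mulVecEquiv k A hA : (ι → M) →ₗ[k] (ι → M)) := by
    rw [← lat_mul_eq_map, Matrix.mul_one]
  have h4 : lat P A s ≤ lat P (A * B) m := by
    rw [hAs, lat_mul_eq_map P A B hA]
    exact Submodule.map_mono h1
  obtain ⟨f1, d1⟩ := hPB m s h1
  obtain ⟨f2, d2⟩ := hPA s r' h2
  obtain ⟨f3, d3⟩ := idxProp_one P r r' h3
  have f4 : RelFin (lat P A s) (lat P (A * B) m) := by
    rw [hAs, lat_mul_eq_map P A B hA, relFin_map_iff]
    exact f1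
  have d4 : relDim (lat P A s) (lat P (A * B) m) = relDim (lat P (1 : Matrix ι ι M) s) (lat P B m) := by
    rw [hAs, lat_mul_eq_map P A B hA, relDim_map]
  have f5 : RelFin (lat P (1 : Matrix ι ι M) r') (lat P (A * B) m) := RelFin.trans h2 h4 f2 f4
  have e1 := relDim_add h2 h4 f5
  have e2 := relDim_add h3 hle f5
  refine ⟨RelFin.right h3 hle f5, ?_⟩
  have hdet : P.ord (A * B).det = P.ord A.det + P.ord B.det := by
    rw [Matrix.det_mul, P.ord_mul hA.ne_zero hB.ne_zero]
  have e3 : (relDim (lat P (1 : Matrix ι ι M) r) (lat P (A * B) m) : ℤ)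
      = relDim (lat P (1 : Matrix ι ι M) r') (lat P A s) + relDim (lat P A s) (lat P (A * B) m)
        - relDim (lat P (1 : Matrix ι ι M) r') (lat P (1 : Matrix ι ι M) r) := by
    omega
  rw [e3, d4, d1, d2, d3, hdet]
  simp only [Matrix.det_one, Place.ord_one]
  ring

private theorem idxProp_transvection (P : Place k M) (t : Matrix.TransvectionStruct ι M) :
    IdxProp P t.toMatrix := by
  obtain ⟨i, j, hij, c⟩ := t
  show IdxProp P (Matrix.transvection i j c)
  by_cases hc : c = 0
  · subst hc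
    rw [Matrix.transvection_zero]
    exact idxProp_one P
  · set δ : ι → M := Function.update (fun _ => 1) i c⁻¹ with hδ
    have hδ0 : ∀ a, δ a ≠ 0 := by
      intro a
      rw [hδ, Function.update_apply]
      split_ifs
      · exact inv_ne_zero hc
      · exact one_ne_zero
    have hδ0' : ∀ a, (δ a)⁻¹ ≠ 0 := fun a => inv_ne_zero (hδ0 a)
    have hdec : Matrix.transvection i j c
        = Matrix.diagonal (fun a => (δ a)⁻¹) * (Matrix.transvection i j 1 * Matrix.diagonal δ) := by
      ext a b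
      rw [Matrix.diagonal_mul, Matrix.mul_diagonal, Matrix.transvection, Matrix.transvection,
        Matrix.add_apply, Matrix.add_apply, Matrix.one_apply]
      by_cases hab : a = b
      · subst hab
        have h1 : ¬ (i = a ∧ j = a) := fun h => hij (h.1.trans h.2.symm)
        rw [Matrix.single_apply_of_ne _ _ _ _ _ h1, Matrix.single_apply_of_ne _ _ _ _ _ h1, if_pos rfl]
        field_simp [hδ0 a]
      · rw [if_neg hab]
        by_cases h1 : i = a ∧ j = b
        · obtain ⟨rfl, rfl⟩ := h1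
          rw [Matrix.single_apply_same, Matrix.single_apply_same, hδ, Function.update_self,
            Function.update_of_ne (Ne.symm hab)]
          simp
        · rw [Matrix.single_apply_of_ne _ _ _ _ _ h1, Matrix.single_apply_of_ne _ _ _ _ _ h1]
          simp
    have hU : IsIntUnit P (Matrix.transvection i j (1 : M)) := by
      refine ⟨fun a b => ?_, by rw [Matrix.det_transvection_of_ne _ _ hij, map_one]⟩
      rw [Matrix.transvection, Matrix.add_apply]
      refine (P.v.map_add _ _).trans (max_le ?_ ?_)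
      · rw [Matrix.one_apply]
        split_ifs <;> simp
      · by_cases h1 : i = a ∧ j = b
        · obtain ⟨rfl, rfl⟩ := h1
          simp
        · rw [Matrix.single_apply_of_ne _ _ _ _ _ h1]
          simp
    have hdet : ∀ e : ι → M, (∀ a, e a ≠ 0) → IsUnit (Matrix.diagonal e).det := by
      intro e he
      rw [Matrix.det_diagonal, isUnit_iff_ne_zero]
      exact Finset.prod_ne_zero_iff.2 fun a _ => he a
    rw [hdec]
    refine idxProp_mul P _ _ (hdet _ hδ0') ?_ (idxProp_diagonal P _ hδ0') ?_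
    · rw [Matrix.det_mul]
      exact hU.isUnit_det.mul (hdet _ hδ0)
    · exact idxProp_mul P _ _ hU.isUnit_det (hdet _ hδ0) (idxProp_intUnit P _ hU)
        (idxProp_diagonal P _ hδ0)

private theorem idxProp_all (P : Place k M) (B : Matrix ι ι M) (hB : IsUnit B.det) :
    IdxProp P B := by
  refine Matrix.diagonal_transvection_induction_of_det_ne_zero (IdxProp P) B hB.ne_zero ?_
    (idxProp_transvection P) ?_
  · intro d hd
    apply idxProp_diagonal
    rw [Matrix.det_diagonal] at hd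
    exact fun i => (Finset.prod_ne_zero_iff.1 hd) i (Finset.mem_univ i)
  · intro A B hA hB hPA hPB
    exact idxProp_mul P A B (isUnit_iff_ne_zero.2 hA) (isUnit_iff_ne_zero.2 hB) hPA hPB

/-- **the local index formula** -/
theorem relDim_lat (P : Place k M) (B₁ B₂ : Matrix ι ι M) (h₁ : IsUnit B₁.det)
    (h₂ : IsUnit B₂.det) (m₁ m₂ : ℤ) (hle : lat P B₁ m₁ ≤ lat P B₂ m₂) :
    RelFin (lat P B₁ m₁) (lat P B₂ m₂) ∧
      (relDim (lat P B₁ m₁) (lat P B₂ m₂) : ℤ)
        = ((Fintype.card ι * m₂ - P.ord B₂.det) - (Fintype.card ι * m₁ - P.ord B₁.det))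
          * (P.deg : ℤ) := by
  obtain ⟨r, hr⟩ := exists_lat_sandwich P B₁ h₁
  have h1 := (hr m₁).1
  obtain ⟨f1, d1⟩ := idxProp_all P B₁ h₁ m₁ _ h1
  obtain ⟨f2, d2⟩ := idxProp_all P B₂ h₂ m₂ _ (h1.trans hle)
  have e := relDim_add h1 hle f2
  refine ⟨RelFin.right h1 hle f2, ?_⟩
  have e' : (relDim (lat P B₁ m₁) (lat P B₂ m₂) : ℤ)
      = relDim (lat P (1 : Matrix ι ι M) (m₁ - r)) (lat P B₂ m₂)
        - relDim (lat P (1 : Matrix ι ι M) (m₁ - r)) (lat P B₁ m₁) := by
    omega
  rw [e', d1, d2]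
  ring

end Claimed.Agent.R280
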