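import Claimed.Agent.R280.FF.TraceRes
import Claimed.Agent.R280.FF.LocalIndex

/-!
# Row 280, package FF, leaf FF6b (Codiff): the local complementary module and the different exponent (PROVED)
(Stichtenoth 3.4.1 - 3.4.2, local version)

`P` the place below `Q`.  `codiff M Q = C_P = {x | Tr (x O'_P) ⊆ O_P}`, `diffExp M Q = d(Q) = max {- ord_Q x | x ∈ C_P}`.

* `Place.sameBelow_iff`: `Place.Over.v_le_one_iff`, `Place.existsUnique_below`, `Place.eq_of_O_eq`.
* `mem_codiff_iff`, `mem_codiff_iff_basis`: unfold; `y = ∑ c_i e_i` with `c_i ∈ O_P`.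
* `bddAbove_codiff`: `M'/M` separable: dual basis `e*` (`(Algebra.traceForm M M').dualBasis`, `traceForm_nondegenerate`);
  `x ∈ C_P → x = ∑ Tr (x e_i) e*_i`, so `ord_Q x ≥ min_i ord_Q e*_i`.
* `mem_codiff_iff_ord`: `C_P` is an `O'_P`-module containing `O'_P` (T0).  `→`: definition of the supremum.  `←`: choose `x_{Q'} ∈ C_P` with
  `ord_{Q'} x_{Q'} = - d(Q')`, by `weak_approx` `a_{Q'}` close to `x / x_{Q'}` at `Q'` and close to `0` at the other places above `P`;
  `a_{Q'} ∈ O'_P` and `x - ∑ a_{Q'} x_{Q'} ∈ O'_P ⊆ C_P`.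
* `ord_det_traceMatrix`: compute `dim_k C_P / O'_P` in two ways.  In the coordinates `e.repr` (a `k`-linear equivalence `M' ≃ (ι → M)`, `relDim_map`):
  `O'_P = lat P 1 0`, `C_P = lat P G⁻¹ 0` with `G = Algebra.traceMatrix M e` (as `Tr (x e_i) = (G *ᵥ e.repr x) i`); `relDim_lat` gives
  `ord_P (det G) deg P`.  In `M'`: `O'_P = slat T 0`, `C_P = slat T d` with `T` the set of places above `P` (`mem_codiff_iff_ord`); `finrank_slat` (for the
  function field `M'`, `isFF_of_finite`) gives `∑ d(Q) deg Q`.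
-/

set_option autoImplicit false

namespace Claimed.Agent.R280

open WithZero

section Defs

variable {k M' : Type*} (M : Type*) [Field k] [Field M] [Field M'] [Algebra k M] [Algebra k M']
  [Algebra M M']

/-- `Q'` and `Q` lie over the same place of `M` -/
def Place.SameBelow (Q Q' : Place k M') : Prop :=
  ∀ f : M, Q'.v (algebraMap M M' f) ≤ 1 ↔ Q.v (algebraMap M M' f) ≤ 1

/-- the local codifferent at the place below `Q` -/
def codiff (Q : Place k M') : Set M' :=
  {x | ∀ y : M', (∀ Q' : Place k M', Q.SameBelow M Q' → Q'.v y ≤ 1) →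
    Q.v (algebraMap M M' (Algebra.trace M M' (x * y))) ≤ 1}

/-- the different exponent `d(Q | Q ∩ M)` -/
noncomputable def diffExp (Q : Place k M') : ℤ :=
  sSup {n : ℤ | ∃ x ∈ codiff M Q, x ≠ 0 ∧ Q.ord x = -n}

end Defs

variable {k M M' : Type*} [Field k] [Field M] [Field M'] [Algebra k M] [Algebra k M'] [Algebra M M']
  [IsScalarTower k M M'] [IsFF k M] [Module.Finite M M']

theorem Place.sameBelow_iff {Q : Place k M'} {P : Place k M} (h : Q.Over P) (Q' : Place k M') :
    Q.SameBelow M Q' ↔ Q'.Over P := by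
  constructor
  · intro hs
    obtain ⟨P', hP', _⟩ := Place.existsUnique_below (M := M) Q'
    have : P' = P := by
      apply Place.eq_of_O_eq
      ext f
      rw [Valuation.mem_valuationSubring_iff, Valuation.mem_valuationSubring_iff,
        ← hP'.v_le_one_iff, ← h.v_le_one_iff]
      exact hs f
    rwa [this] at hP'
  · intro h' f
    rw [h'.v_le_one_iff, h.v_le_one_iff]

theorem mem_codiff_iff {Q : Place k M'} {P : Place k M} (h : Q.Over P) (x : M') :
    x ∈ codiff M Q ↔ ∀ y : M', (∀ Q' : Place k M', Q'.Over P → Q'.v y ≤ 1) →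
      P.v (Algebra.trace M M' (x * y)) ≤ 1 := by
  simp only [codiff, Set.mem_ofPred_eq, Place.sameBelow_iff h, h.v_le_one_iff]

theorem codiff_eq_of_over {Q Q' : Place k M'} {P : Place k M} (h : Q.Over P) (h' : Q'.Over P) :
    codiff M Q = codiff M Q' := by
  ext x
  rw [mem_codiff_iff h, mem_codiff_iff h']

theorem mem_codiff_iff_basis {ι : Type*} [Finite ι] {Q : Place k M'} {P : Place k M}
    (h : Q.Over P) {e : Module.Basis ι M M'} (he : IsIntBasis P e) (x : M') :
    x ∈ codiff M Q ↔ ∀ i, P.v (Algebra.trace M M' (x * e i)) ≤ 1 := by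
  have := Fintype.ofFinite ι
  rw [mem_codiff_iff h]
  constructor
  · intro hx i
    exact hx (e i) (he.v_le_one i)
  · intro hx y hy
    have hc := (he y).1 hy
    have h1 : x * y = ∑ i, e.repr y i • (x * e i) := by
      conv_lhs => rw [← e.sum_repr y, Finset.mul_sum]
      exact Finset.sum_congr rfl fun i _ => by rw [mul_smul_comm]
    rw [h1, map_sum]
    apply P.v.map_sum_le
    intro i _
    rw [map_smul, smul_eq_mul, map_mul]
    exact mul_le_one' (hc i) (hx i)

/-- `O'_P ⊆ C_P` -/
theorem mem_codiff_of_integral {Q : Place k M'} {P : Place k M} (h : Q.Over P) {x : M'}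
    (hx : ∀ Q' : Place k M', Q'.Over P → Q'.v x ≤ 1) : x ∈ codiff M Q := by
  rw [mem_codiff_iff h]
  intro y hy
  apply P.v_trace_le_one
  intro Q' hQ'
  rw [map_mul]
  exact mul_le_one' (hx Q' hQ') (hy Q' hQ')

/-- `C_P` is an `O'_P`-module -/
theorem mul_mem_codiff {Q : Place k M'} {P : Place k M} (h : Q.Over P) {a x : M'}
    (ha : ∀ Q' : Place k M', Q'.Over P → Q'.v a ≤ 1) (hx : x ∈ codiff M Q) :
    a * x ∈ codiff M Q := by
  rw [mem_codiff_iff h] at hx ⊢
  intro y hy
  have := hx (a * y) (fun Q' hQ' => by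
    rw [map_mul]; exact mul_le_one' (ha Q' hQ') (hy Q' hQ'))
  rwa [show a * x * y = x * (a * y) by ring]

theorem add_mem_codiff {Q : Place k M'} {x x' : M'}
    (hx : x ∈ codiff M Q) (hx' : x' ∈ codiff M Q) : x + x' ∈ codiff M Q := by
  intro y hy
  rw [add_mul, map_add, map_add]
  exact (Q.v.map_add _ _).trans (max_le (hx y hy) (hx' y hy))

theorem zero_mem_codiff (Q : Place k M') : (0 : M') ∈ codiff M Q := by
  intro y _
  simp

theorem sum_mem_codiff {Q : Place k M'} {σ : Type*} (S : Finset σ) (g : σ → M')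
    (hg : ∀ s ∈ S, g s ∈ codiff M Q) : ∑ s ∈ S, g s ∈ codiff M Q := by
  classical
  induction S using Finset.induction_on with
  | empty => simpa using zero_mem_codiff Q
  | insert a S ha ih =>
    rw [Finset.sum_insert ha]
    exact add_mem_codiff (hg a (Finset.mem_insert_self a S))
      (ih fun s hs => hg s (Finset.mem_insert_of_mem hs))

variable [Algebra.IsSeparable M M']

theorem bddAbove_codiff (Q : Place k M') :
    BddAbove {n : ℤ | ∃ x ∈ codiff M Q, x ≠ 0 ∧ Q.ord x = -n} := by
  classical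
  obtain ⟨P, hP, _⟩ := Place.existsUnique_below (M := M) Q
  obtain ⟨e, he⟩ := exists_isIntBasis (M' := M') P
  set d := (Algebra.traceForm M M').dualBasis (traceForm_nondegenerate M M') e with hd
  choose r hr using fun i => exists_le_exp_nat (Q.v (d i))
  refine ⟨((∑ i, r i : ℕ) : ℤ), ?_⟩
  rintro n ⟨x, hx, hx0, hn⟩
  have hxe := (mem_codiff_iff_basis hP he x).1 hx
  have h1 : x = ∑ i, Algebra.trace M M' (x * e i) • d i := by
    conv_lhs => rw [← d.sum_repr x]
    exact Finset.sum_congr rfl fun i _ => by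
      rw [hd, LinearMap.BilinForm.dualBasis_repr_apply, Algebra.traceForm_apply]
  have h2 : Q.v x ≤ exp ((∑ i, r i : ℕ) : ℤ) := by
    rw [h1]
    apply Q.v.map_sum_le
    intro i _
    rw [Algebra.smul_def, map_mul]
    refine mul_le_of_le_one_of_le ((hP.v_le_one_iff _).2 (hxe i)) ((hr i).trans (exp_le_exp.2 ?_))
    exact_mod_cast Finset.single_le_sum (f := r) (fun _ _ => Nat.zero_le _) (Finset.mem_univ i)
  have h3 := (Q.v_le_exp_iff hx0 _).1 h2
  omega

/-- the supremum is attained -/
theorem exists_mem_codiff_ord_eq (Q : Place k M') :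
    ∃ x ∈ codiff M Q, x ≠ 0 ∧ Q.ord x = - diffExp M Q := by
  obtain ⟨P, hP, _⟩ := Place.existsUnique_below (M := M) Q
  have h1 : (1 : M') ∈ codiff M Q := mem_codiff_of_integral hP (fun Q' _ => by simp)
  exact Int.csSup_mem (s := {n : ℤ | ∃ x ∈ codiff M Q, x ≠ 0 ∧ Q.ord x = -n})
    ⟨0, 1, h1, one_ne_zero, by simp⟩ (bddAbove_codiff Q)

theorem neg_diffExp_le_ord {Q : Place k M'} {x : M'} (hx : x ∈ codiff M Q) (h0 : x ≠ 0) :
    - diffExp M Q ≤ Q.ord x := by
  have := le_csSup (bddAbove_codiff (M := M) Q) (show - Q.ord x ∈ _ from ⟨x, hx, h0, by simp⟩)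
  unfold diffExp
  linarith

/-- to get a lower bound for the different exponent exhibit an element of the codifferent -/
theorem le_diffExp_of_mem {Q : Place k M'} {x : M'} (hx : x ∈ codiff M Q) (h0 : x ≠ 0) :
    - Q.ord x ≤ diffExp M Q := by
  have := neg_diffExp_le_ord hx h0
  linarith

theorem diffExp_nonneg (Q : Place k M') : 0 ≤ diffExp M Q := by
  obtain ⟨P, hP, _⟩ := Place.existsUnique_below (M := M) Q
  have h1 : (1 : M') ∈ codiff M Q := mem_codiff_of_integral hP (fun Q' _ => by simp)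
  have := le_diffExp_of_mem h1 one_ne_zero
  simpa [Place.ord_one] using this

/-- `C_P = {x | ord_{Q'} x ≥ - d(Q') for all Q' | P}` -/
theorem mem_codiff_iff_ord {Q : Place k M'} {P : Place k M} (h : Q.Over P) {x : M'} (hx : x ≠ 0) :
    x ∈ codiff M Q ↔ ∀ Q' : Place k M', Q'.Over P → - diffExp M Q' ≤ Q'.ord x := by
  classical
  constructor
  · intro hxc Q' hQ'
    rw [codiff_eq_of_over h hQ'] at hxc
    exact neg_diffExp_le_ord hxc hx
  · intro hord
    set T := (Place.finite_over (M' := M') P).toFinset with hT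
    have hmemT : ∀ Q' : Place k M', Q' ∈ T ↔ Q'.Over P := fun Q' => by simp [hT]
    choose w hwc hw0 hword using fun Q' : Place k M' => exists_mem_codiff_ord_eq (M := M) Q'
    set N : ℤ := ∑ Q' ∈ T, diffExp M Q' with hN
    have hNle : ∀ Q' ∈ T, diffExp M Q' ≤ N := fun Q' hQ' =>
      Finset.single_le_sum (f := fun Q' : Place k M' => diffExp M Q')
        (fun _ _ => diffExp_nonneg _) hQ'
    have hN0 : 0 ≤ N := Finset.sum_nonneg fun _ _ => diffExp_nonneg _
    choose a ha using fun Q' : Place k M' =>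
      weak_approx T (fun Q'' => if Q'' = Q' then x / w Q' else 0) N
    have hexpN : exp (-N) ≤ (1 : ℤᵐ⁰) := (exp_le_exp.2 (by omega : -N ≤ 0)).trans_eq exp_zero
    -- `w Q'` at the other places
    have hwv : ∀ Q' Q'' : Place k M', Q'.Over P → Q''.Over P →
        Q''.v (w Q') ≤ exp (diffExp M Q'') := by
      intro Q' Q'' hQ' hQ''
      rw [Q''.v_le_exp_iff (hw0 Q')]
      have h1 := hwc Q'
      rw [codiff_eq_of_over hQ' hQ''] at h1
      exact neg_diffExp_le_ord h1 (hw0 Q')
    have hsmall : ∀ Q'' ∈ T, exp (-N) * exp (diffExp M Q'') ≤ (1 : ℤᵐ⁰) := by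
      intro Q'' hQ''
      rw [← exp_add]
      exact (exp_le_exp.2 (by have := hNle Q'' hQ''; omega)).trans_eq exp_zero
    -- the `a Q'` are integral
    have haint : ∀ Q' : Place k M', Q'.Over P → ∀ Q'' : Place k M', Q''.Over P →
        Q''.v (a Q') ≤ 1 := by
      intro Q' hQ' Q'' hQ''
      have h1 := ha Q' Q'' ((hmemT Q'').2 hQ'')
      by_cases hh : Q'' = Q'
      · subst hh
        rw [if_pos rfl] at h1
        have h2 : Q''.v (x / w Q'') ≤ 1 := by
          rw [Q''.v_le_one_iff (div_ne_zero hx (hw0 Q'')), div_eq_mul_inv,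
            Q''.ord_mul hx (inv_ne_zero (hw0 Q'')), Q''.ord_inv, hword]
          have := hord Q'' hQ''
          omega
        have h3 : a Q'' = (a Q'' - x / w Q'') + x / w Q'' := by ring
        rw [h3]
        exact (Q''.v.map_add _ _).trans (max_le (h1.trans hexpN) h2)
      · rw [if_neg hh, sub_zero] at h1
        exact h1.trans hexpN
    -- the remainder is integral
    have hrint : ∀ Q'' : Place k M', Q''.Over P → Q''.v (x - ∑ Q' ∈ T, a Q' * w Q') ≤ 1 := by
      intro Q'' hQ''
      have hQT := (hmemT Q'').2 hQ''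
      rw [← Finset.add_sum_erase T (fun Q' => a Q' * w Q') hQT, ← sub_sub]
      refine (Q''.v.map_sub _ _).trans (max_le ?_ ?_)
      · have h1 := ha Q'' Q'' hQT
        rw [if_pos rfl] at h1
        have h2 : x - a Q'' * w Q'' = -((a Q'' - x / w Q'') * w Q'') := by
          field_simp [hw0 Q'']
          ring
        rw [h2, Valuation.map_neg, map_mul]
        exact (mul_le_mul' h1 (hwv Q'' Q'' hQ'' hQ'')).trans (hsmall Q'' hQT)
      · apply Q''.v.map_sum_le
        intro Q' hQ'
        have hne : Q'' ≠ Q' := fun hh => (Finset.mem_erase.1 hQ').1 hh.symm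
        have hQ'P : Q'.Over P := (hmemT Q').1 (Finset.mem_erase.1 hQ').2
        have h1 := ha Q' Q'' hQT
        rw [if_neg hne, sub_zero] at h1
        rw [map_mul]
        exact (mul_le_mul' h1 (hwv Q' Q'' hQ'P hQ'')).trans (hsmall Q'' hQT)
    have h1 : x = (x - ∑ Q' ∈ T, a Q' * w Q') + ∑ Q' ∈ T, a Q' * w Q' := by ring
    rw [h1]
    refine add_mem_codiff (mem_codiff_of_integral h hrint) (sum_mem_codiff T _ fun Q' hQ' => ?_)
    have hQ'P := (hmemT Q').1 hQ'
    refine mul_mem_codiff h (haint Q' hQ'P) ?_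
    rw [codiff_eq_of_over h hQ'P]
    exact hwc Q'

/-- the local discriminant is the norm of the local different -/
theorem ord_det_traceMatrix {ι : Type*} [Fintype ι] [DecidableEq ι] {P : Place k M}
    {e : Module.Basis ι M M'} (he : IsIntBasis P e) :
    P.ord (Algebra.traceMatrix M e).det * (P.deg : ℤ)
      = ∑ Q ∈ (Place.finite_over (M' := M') P).toFinset, diffExp M Q * (Q.deg : ℤ) := by
  have hFF : IsFF k M' := isFF_of_finite k M M'
  set G := Algebra.traceMatrix M e with hG
  have hGdet : G.det ≠ 0 := by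
    rw [hG, Algebra.traceMatrix_of_basis]
    exact det_traceForm_ne_zero e
  have hGu : IsUnit G.det := isUnit_iff_ne_zero.2 hGdet
  have hGinvu : IsUnit (G⁻¹).det := by
    rw [Matrix.det_nonsing_inv, Ring.inverse_eq_inv']
    exact isUnit_iff_ne_zero.2 (inv_ne_zero hGdet)
  obtain ⟨Q₀, hQ₀⟩ := Place.exists_over (M' := M') P
  set T := (Place.finite_over (M' := M') P).toFinset with hT
  have hmemT : ∀ Q' : Place k M', Q' ∈ T ↔ Q'.Over P := fun Q' => by simp [hT]
  let φ : M' ≃ₗ[k] (ι → M) := e.equivFun.restrictScalars k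
  have hφ : ∀ (c : ι → M), e.equivFun (φ.symm c) = c := fun c => e.equivFun.apply_symm_apply c
  have hA : (slat T (fun _ => (0 : ℤ))).map (φ : M' →ₗ[k] (ι → M))
      = lat P (1 : Matrix ι ι M) 0 := by
    ext c
    rw [Submodule.mem_map_equiv, mem_slat, mem_lat_one]
    simp only [exp_zero]
    have h1 := he (φ.symm c)
    constructor
    · intro h i
      have h2 := h1.1 (fun Q hQ => h Q ((hmemT Q).2 hQ)) i
      rwa [← Module.Basis.equivFun_apply, hφ] at h2
    · intro h Q hQ
      refine h1.2 (fun i => ?_) Q ((hmemT Q).1 hQ)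
      rw [← Module.Basis.equivFun_apply, hφ]
      exact h i
  have hmemC : ∀ x : M', x ∈ slat T (fun Q => diffExp M Q) ↔ x ∈ codiff M Q₀ := by
    intro x
    by_cases hx : x = 0
    · subst hx
      exact ⟨fun _ => zero_mem_codiff Q₀, fun _ => Submodule.zero_mem _⟩
    · rw [mem_codiff_iff_ord hQ₀ hx, mem_slat]
      constructor
      · intro h Q hQ
        exact (Q.v_le_exp_iff hx _).1 (h Q ((hmemT Q).2 hQ))
      · intro h Q hQ
        exact (Q.v_le_exp_iff hx _).2 (h Q ((hmemT Q).1 hQ))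
  have hC : (slat T (fun Q => diffExp M Q)).map (φ : M' →ₗ[k] (ι → M))
      = lat P G⁻¹ 0 := by
    ext c
    rw [Submodule.mem_map_equiv, hmemC, mem_codiff_iff_basis hQ₀ he, mem_lat,
      Matrix.nonsing_inv_nonsing_inv G hGu]
    have h1 := Algebra.traceMatrix_of_basis_mulVec e (φ.symm c)
    rw [hφ] at h1
    rw [hG, h1]
    simp only [exp_zero]
  have hle0 : slat T (fun _ => (0 : ℤ)) ≤ slat T (fun Q => diffExp M Q) :=
    slat_mono T fun Q _ => diffExp_nonneg Q
  have hle : lat P (1 : Matrix ι ι M) 0 ≤ lat P G⁻¹ 0 := by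
    rw [← hA, ← hC]
    exact Submodule.map_mono hle0
  have h1 := (relDim_lat P 1 G⁻¹ (by simp) hGinvu 0 0 hle).2
  rw [← hA, ← hC, relDim_map,
    (finrank_slat T (fun _ => 0) (fun Q => diffExp M Q) fun Q _ => diffExp_nonneg Q).2] at h1
  rw [Matrix.det_nonsing_inv, Ring.inverse_eq_inv', P.ord_inv, Matrix.det_one, P.ord_one] at h1
  simp only [sub_zero, mul_zero, zero_sub, neg_neg] at h1
  exact h1.symm

end Claimed.Agent.R280
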