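import Claimed.Agent.R280.FF.Above

/-!
# Row 280, package FF, leaf FF7a (ConstA): change of the ground field `F ⊆ S ⊆ N`, the extension `MS / M`

PART 1 (tower `F ⊆ S ⊆ N`, `S/F` finite).  Places of `N/S` and of `N/F` are the same valuations:
* `Place.restrictConst`: forget; `Place.exists_restrictConst_eq`: a valuation trivial on `F` is trivial on the algebraic extension `S`
  (`Place.v_eq_one_of_isAlgebraic`).
* `Place.deg_restrictConst`: tower law for `F ⊆ S ⊆ Q.Res` (`Module.finrank_mul_finrank`; the residue field is the same ring, the two
  algebra structures are compatible: `IsScalarTower F S Q.Res`).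
* `isFF_of_tower`: `x` transcendental over `F` with `N / F(x)` finite.  `x` is transcendental over `S` (else algebraic over `F` by
  transitivity).  `N` is generated as a module over `F(x)` by finitely many elements; the same elements generate it over `S(x) ⊇ F(x)`.
* `finrank_LSp_restrictConst`: `LSp` over `S` and over `F` are the same subset when the divisors correspond.

PART 2 (`MS = M ⊗_F S`).  `h.symm : Algebra.IsPushout F M S MS`, so an `F`-basis `s` of `S` gives an `M`-basis of `MS`
(`IsBaseChange.basis` / `Algebra.IsPushout` API): `basis_constExt`.  Hence `finite_constExt`, `finrank_constExt`.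
`traceMatrix_constExt`: `Algebra.trace_eq_matrix_trace` and `leftMulMatrix` of `algebraMap S MS a` in the basis `b` is the image of the one
of `a` in the basis `s` (or `Algebra.trace_baseChange`-type lemma).  `isSeparable_constExt`: `MS = M(S)` is generated by separable elements
(`IntermediateField.isSeparable_adjoin_iff_isSeparable`, `IsSeparable.map`/`Polynomial.Separable.map`).
-/

set_option autoImplicit false

namespace Claimed.Agent.R280

open WithZero

section Tower

variable (F : Type*) {S N : Type*} [Field F] [Field S] [Field N] [Algebra F S] [Algebra S N]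
  [Algebra F N] [IsScalarTower F S N]

/-- a place of `N/S` is a place of `N/F` -/
def Place.restrictConst (Q : Place S N) : Place F N where
  v := Q.v
  surj := Q.surj
  triv := fun a ha => by
    rw [IsScalarTower.algebraMap_apply F S N]
    exact Q.triv _ (by simpa using ha)

@[simp] theorem Place.restrictConst_v (Q : Place S N) : (Q.restrictConst F).v = Q.v := rfl

theorem Place.restrictConst_injective :
    Function.Injective (Place.restrictConst F : Place S N → Place F N) := by
  intro Q Q' h
  ext1
  exact congrArg (fun R : Place F N => R.v) h

theorem Place.exists_restrictConst_eq [Algebra.IsAlgebraic F S] (R : Place F N) :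
    ∃ Q : Place S N, Q.restrictConst F = R :=
  ⟨⟨R.v, R.surj, fun a ha => R.v_eq_one_of_isAlgebraic
    ((Algebra.IsAlgebraic.isAlgebraic a).algebraMap) (by simpa using ha)⟩, rfl⟩

theorem Place.deg_restrictConst (Q : Place S N) :
    (Q.restrictConst F).deg = Module.finrank F S * Q.deg := by
  let _ : Algebra F Q.Res := inferInstanceAs (Algebra F (Q.restrictConst F).Res)
  have : IsScalarTower F S Q.Res := IsScalarTower.of_algebraMap_eq fun a => by
    show IsLocalRing.residue _ ((Q.restrictConst F).toO a) = IsLocalRing.residue _ (Q.toO (algebraMap F S a))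
    congr 1
    apply Subtype.ext
    exact IsScalarTower.algebraMap_apply F S N a
  exact (Module.finrank_mul_finrank F S Q.Res).symm

variable {F}

theorem isFF_of_tower [Algebra.IsAlgebraic F S] [IsFF F N] : IsFF S N := by
  obtain ⟨x, hx, hfin⟩ := IsFF.exists_finite (k := F) (M := N)
  refine ⟨x, fun halg => hx (halg.restrictScalars F), ?_⟩
  have hle : IntermediateField.adjoin F {x} ≤ (IntermediateField.adjoin S {x}).restrictScalars F := by
    rw [IntermediateField.adjoin_le_iff]
    intro y hy
    exact IntermediateField.subset_adjoin S {x} hy
  let _ : Algebra (IntermediateField.adjoin F {x}) (IntermediateField.adjoin S {x}) :=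
    (IntermediateField.inclusion hle).toRingHom.toAlgebra
  have : IsScalarTower (IntermediateField.adjoin F {x}) (IntermediateField.adjoin S {x}) N :=
    IsScalarTower.of_algebraMap_eq fun a => rfl
  exact Module.Finite.of_restrictScalars_finite (IntermediateField.adjoin F {x}) _ N

/-- `finsum` over the places of `N/S` = `finsum` over the places of `N/F` -/
theorem finsum_restrictConst [Algebra.IsAlgebraic F S] {A : Type*} [AddCommMonoid A]
    (g : Place F N → A) : ∑ᶠ Q : Place S N, g (Q.restrictConst F) = ∑ᶠ R : Place F N, g R :=
  finsum_comp_equiv (Equiv.ofBijective _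
    ⟨Place.restrictConst_injective F, Place.exists_restrictConst_eq F⟩)

/-- the Riemann-Roch spaces over `S` and over `F` -/
theorem finrank_LSp_restrictConst [Algebra.IsAlgebraic F S] (D : Dvsr S N) (D' : Dvsr F N)
    (h : ∀ Q : Place S N, D' (Q.restrictConst F) = D Q) :
    ell D' = Module.finrank F S * ell D := by
  have e : LSp D' = (LSp D).restrictScalars F := by
    ext f
    rw [Submodule.restrictScalars_mem, mem_LSp, mem_LSp]
    constructor
    · intro hf Q
      have := hf (Q.restrictConst F)
      rwa [h] at this
    · intro hf R
      obtain ⟨Q, rfl⟩ := Place.exists_restrictConst_eq (S := S) F R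
      rw [h]
      exact hf Q
  unfold ell
  rw [e]
  exact (Module.finrank_mul_finrank F S (LSp D)).symm

end Tower

section OverConst

variable {F S M N : Type*} [Field F] [Field S] [Field M] [Field N] [Algebra F S] [Algebra S N]
  [Algebra F N] [IsScalarTower F S N] [Algebra F M] [Algebra M N]

theorem Place.restrictConst_overE_iff (Q : Place S N) (P : Place F M) (e : ℕ) :
    (Q.restrictConst F).OverE P e ↔ Q.OverE P e := Iff.rfl

theorem Place.restrictConst_over_iff (Q : Place S N) (P : Place F M) :
    (Q.restrictConst F).Over P ↔ Q.Over P := Iff.rfl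

theorem Place.ramIdx_restrictConst (Q : Place S N) (P : Place F M) :
    (Q.restrictConst F).ramIdx P = Q.ramIdx P := rfl

end OverConst

section Pushout

variable {F S M MS : Type*} [Field F] [Field S] [Field M] [Field MS] [Algebra F S] [Algebra F M]
  [Algebra S MS] [Algebra M MS] [Algebra F MS] [IsScalarTower F S MS] [IsScalarTower F M MS]

theorem basis_constExt (h : Algebra.IsPushout F S M MS) {ι : Type*} (s : Module.Basis ι F S) :
    ∃ b : Module.Basis ι M MS, ∀ i, b i = algebraMap S MS (s i) :=
  ⟨h.symm.out.basis s, fun i => h.symm.out.basis_apply s i⟩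

theorem finite_constExt [FiniteDimensional F S] (h : Algebra.IsPushout F S M MS) :
    Module.Finite M MS := by
  obtain ⟨b, _⟩ := basis_constExt h (Module.finBasis F S)
  exact Module.Finite.of_basis b

theorem finrank_constExt [FiniteDimensional F S] (h : Algebra.IsPushout F S M MS) :
    Module.finrank M MS = Module.finrank F S := by
  obtain ⟨b, _⟩ := basis_constExt h (Module.finBasis F S)
  rw [Module.finrank_eq_card_basis b, Fintype.card_fin]

theorem isSeparable_constExt [Algebra.IsSeparable F S] (h : Algebra.IsPushout F S M MS) :
    Algebra.IsSeparable M MS := by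
  obtain ⟨b, hb⟩ := basis_constExt h (Module.Free.chooseBasis F S)
  have htop : IntermediateField.adjoin M (Set.range (algebraMap S MS)) = ⊤ := by
    rw [eq_top_iff]
    intro y _
    have h1 : Submodule.span M (Set.range b)
        ≤ (IntermediateField.adjoin M (Set.range (algebraMap S MS))).toSubalgebra.toSubmodule := by
      rw [Submodule.span_le]
      rintro _ ⟨i, rfl⟩
      rw [hb]
      exact IntermediateField.subset_adjoin _ _ ⟨_, rfl⟩
    exact h1 (b.mem_span y)
  have hsep : Algebra.IsSeparable M (IntermediateField.adjoin M (Set.range (algebraMap S MS))) := by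
    rw [IntermediateField.isSeparable_adjoin_iff_isSeparable]
    rintro _ ⟨a, rfl⟩
    have h1 : IsSeparable F (algebraMap S MS a) :=
      (Algebra.IsSeparable.isSeparable F a).map (IsScalarTower.toAlgHom F S MS) (algebraMap S MS).injective
    exact h1.tower_top M
  rw [htop] at hsep
  exact AlgEquiv.Algebra.isSeparable IntermediateField.topEquiv

/-- coordinates of the image of an element of `S` -/
theorem ca_repr_algebraMap {ι : Type*} (s : Module.Basis ι F S) (b : Module.Basis ι M MS)
    (hb : ∀ i, b i = algebraMap S MS (s i)) (a : S) (i : ι) :
    b.repr (algebraMap S MS a) i = algebraMap F M (s.repr a i) := by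
  have h1 : algebraMap S MS a = Finsupp.linearCombination M b
      ((s.repr a).mapRange (algebraMap F M) (map_zero _)) := by
    conv_lhs => rw [← s.linearCombination_repr a]
    rw [Finsupp.linearCombination_apply, Finsupp.linearCombination_apply, Finsupp.sum_mapRange_index (by simp),
      map_finsuppSum]
    refine Finsupp.sum_congr fun j _ => ?_
    rw [hb, Algebra.smul_def, Algebra.smul_def, map_mul, ← IsScalarTower.algebraMap_apply F S MS,
      ← IsScalarTower.algebraMap_apply F M MS]
  rw [h1, b.repr_linearCombination, Finsupp.mapRange_apply]

theorem ca_trace_algebraMap {ι : Type*} [Fintype ι]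
    [DecidableEq ι] (s : Module.Basis ι F S) (b : Module.Basis ι M MS)
    (hb : ∀ i, b i = algebraMap S MS (s i)) (a : S) :
    Algebra.trace M MS (algebraMap S MS a) = algebraMap F M (Algebra.trace F S a) := by
  rw [Algebra.trace_eq_matrix_trace b, Algebra.trace_eq_matrix_trace s, Matrix.trace, Matrix.trace, map_sum]
  refine Finset.sum_congr rfl fun i _ => ?_
  rw [Matrix.diag_apply, Matrix.diag_apply, Algebra.leftMulMatrix_eq_repr_mul, Algebra.leftMulMatrix_eq_repr_mul,
    hb, ← map_mul, ca_repr_algebraMap s b hb]

theorem traceMatrix_constExt (h : Algebra.IsPushout F S M MS) {ι : Type*} [Fintype ι]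
    [DecidableEq ι] (s : Module.Basis ι F S) (b : Module.Basis ι M MS)
    (hb : ∀ i, b i = algebraMap S MS (s i)) :
    Algebra.traceMatrix M b = (Algebra.traceMatrix F s).map (algebraMap F M) := by
  ext i j
  rw [Matrix.map_apply, Algebra.traceMatrix_apply, Algebra.traceMatrix_apply, Algebra.traceForm_apply,
    Algebra.traceForm_apply, hb, hb, ← map_mul, ca_trace_algebraMap s b hb]

/-- `MS = M ⊗_F S` is a field (hypothesis `Algebra.IsPushout`): it is a function field over `S`. -/
theorem isFF_constExt [IsFF F M] [FiniteDimensional F S] (h : Algebra.IsPushout F S M MS) :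
    IsFF S MS := by
  have := finite_constExt h
  have : IsFF F MS := isFF_of_finite F M MS
  exact isFF_of_tower (F := F)

theorem Place.exists_over_constExt [IsFF F M] [FiniteDimensional F S]
    (h : Algebra.IsPushout F S M MS) (P : Place F M) : ∃ Q : Place S MS, Q.Over P := by
  have := finite_constExt h
  obtain ⟨R, hR⟩ := Place.exists_over (M' := MS) P
  obtain ⟨Q, rfl⟩ := Place.exists_restrictConst_eq (S := S) F R
  exact ⟨Q, hR⟩

theorem Place.existsUnique_below_constExt [IsFF F M] [FiniteDimensional F S]
    (h : Algebra.IsPushout F S M MS) (Q : Place S MS) : ∃! P : Place F M, Q.Over P := by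
  have := finite_constExt h
  exact Place.existsUnique_below (M := M) (Q.restrictConst F)

end Pushout

end Claimed.Agent.R280
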