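import Claimed.Agent.R280.FF.Codiff

/-!
# Row 280, package FF, leaf FF6e (Dedekind): Dedekind's different theorem (Stichtenoth 3.5.1)

`π` a uniformiser of `P`, `T` the set of places above `P`, `e_{Q'} = e(Q'|P)`; `Q'.ord π = e_{Q'}`.
* `ramIdx_sub_one_le_diffExp`: `exists_forall_ord_eq` gives `x ≠ 0` with `ord_{Q'} x = 1 - e_{Q'}` for all `Q' ∈ T`.  For `y ∈ O'_P`, `π x y` is in all
  maximal ideals, so `v (Tr (π x y)) < 1` (T1), `Tr (π x y) = π Tr (x y)`, so `v (Tr (x y)) ≤ 1`.  `le_diffExp_of_mem`.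
* `ramIdx_le_diffExp_of_dvd`: `x` with `ord_Q x = - e_Q`, `ord_{Q'} x = 1 - e_{Q'}` for the others; T2.
* `diffExp_eq_of_charZero`: `≥` is the first statement.  `≤`: take `x ∈ C_P` with `ord_Q x = - d(Q)` (`exists_mem_codiff_ord_eq`) and suppose
  `d(Q) ≥ e_Q`.  `weak_approx`: `z` with `Q.v (z - 1) < 1` and `ord_{Q'} z ≥ max 1 (e_{Q'} + ord_{Q'} x)` for the other `Q' ∈ T`.  Then
  `y = z / (π x) ∈ O'_P` and `Tr (x y) = Tr z / π` has `v > 1` by T3: contradiction.
-/

set_option autoImplicit false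

namespace Claimed.Agent.R280

open WithZero

variable {k M M' : Type*} [Field k] [Field M] [Field M'] [Algebra k M] [Algebra k M'] [Algebra M M']
  [IsScalarTower k M M'] [IsFF k M] [Module.Finite M M'] [Algebra.IsSeparable M M']

omit [IsScalarTower k M M'] [IsFF k M] [Module.Finite M M'] [Algebra.IsSeparable M M'] in
/-- the value of a uniformiser of `P` at a place above `P` -/
theorem ff6e_v_unif {Q' : Place k M'} {P : Place k M} (h : Q'.Over P) {π : M}
    (hπ : P.v π = exp (-1)) : Q'.v (algebraMap M M' π) = exp (-(Q'.ramIdx P : ℤ)) := by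
  rw [(Place.overE_ramIdx h).2 π, hπ, ← exp_nsmul]
  congr 1
  simp

omit [Algebra.IsSeparable M M'] in
/-- `x ∈ C_P` as soon as `Tr (π x y)` is a nonunit for all `y ∈ O'_P` -/
theorem ff6e_mem_codiff {Q : Place k M'} {P : Place k M} (h : Q.Over P) {π : M}
    (hπ : P.v π = exp (-1)) {x : M'}
    (hx : ∀ y : M', (∀ Q' : Place k M', Q'.Over P → Q'.v y ≤ 1) →
      P.v (Algebra.trace M M' (algebraMap M M' π * (x * y))) < 1) : x ∈ codiff M Q := by
  rw [mem_codiff_iff h]
  intro y hy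
  have h1 := hx y hy
  rw [← Algebra.smul_def, map_smul, smul_eq_mul, map_mul, hπ] at h1
  have h2 : P.v (Algebra.trace M M' (x * y)) < exp (0 + 1) := by
    calc P.v (Algebra.trace M M' (x * y))
        = exp 1 * (exp (-1) * P.v (Algebra.trace M M' (x * y))) := by
          rw [← mul_assoc, ← exp_add]
          simp
      _ < exp 1 * 1 := by
          exact mul_lt_mul_of_pos_left h1 (zero_lt_iff.2 exp_ne_zero)
      _ = exp (0 + 1) := by simp
  rw [P.v_lt_exp_add_one_iff] at h2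
  simpa using h2

/-- Dedekind: `d ≥ e - 1` (no hypothesis on the residue extension) -/
theorem ramIdx_sub_one_le_diffExp {Q : Place k M'} {P : Place k M} (h : Q.Over P) :
    (Q.ramIdx P : ℤ) - 1 ≤ diffExp M Q := by
  obtain ⟨π, hπ⟩ := P.exists_unif
  obtain ⟨x, hx0, hx⟩ := exists_forall_ord_eq (Place.finite_over (M' := M') P).toFinset
    (fun Q' => 1 - (Q'.ramIdx P : ℤ))
  have hx' : ∀ Q' : Place k M', Q'.Over P → Q'.v x = exp ((Q'.ramIdx P : ℤ) - 1) := by
    intro Q' hQ'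
    rw [Q'.v_eq_exp_neg_ord hx0, hx Q' ((Place.finite_over P).mem_toFinset.2 hQ')]
    congr 1
    ring
  have hmem : x ∈ codiff M Q := by
    refine ff6e_mem_codiff h hπ fun y hy => P.v_trace_lt_one fun Q' hQ' => ?_
    rw [map_mul, map_mul, ff6e_v_unif hQ' hπ, hx' Q' hQ', ← mul_assoc, ← exp_add]
    calc exp (-(Q'.ramIdx P : ℤ) + ((Q'.ramIdx P : ℤ) - 1)) * Q'.v y
        ≤ exp (-(Q'.ramIdx P : ℤ) + ((Q'.ramIdx P : ℤ) - 1)) * 1 :=
          mul_le_mul_right (hy Q' hQ') _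
      _ = exp (-1) := by
          rw [mul_one]
          congr 1
          ring
      _ < 1 := by
          rw [← exp_zero, exp_lt_exp]
          norm_num
  have := le_diffExp_of_mem hmem hx0
  rw [hx Q ((Place.finite_over P).mem_toFinset.2 h)] at this
  linarith

/-- Dedekind, wild case: `d ≥ e` if `p ∣ e` -/
theorem ramIdx_le_diffExp_of_dvd (p : ℕ) [CharP k p] {Q : Place k M'} {P : Place k M}
    (h : Q.Over P) (hp : p ∣ Q.ramIdx P) : (Q.ramIdx P : ℤ) ≤ diffExp M Q := by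
  classical
  obtain ⟨π, hπ⟩ := P.exists_unif
  obtain ⟨x, hx0, hx⟩ := exists_forall_ord_eq (Place.finite_over (M' := M') P).toFinset
    (fun Q' => if Q' = Q then -(Q'.ramIdx P : ℤ) else 1 - (Q'.ramIdx P : ℤ))
  have hxQ : Q.ord x = -(Q.ramIdx P : ℤ) := by
    rw [hx Q ((Place.finite_over P).mem_toFinset.2 h), if_pos rfl]
  have hx' : ∀ Q' : Place k M', Q'.Over P → Q' ≠ Q → Q'.v x = exp ((Q'.ramIdx P : ℤ) - 1) := by
    intro Q' hQ' hne
    rw [Q'.v_eq_exp_neg_ord hx0, hx Q' ((Place.finite_over P).mem_toFinset.2 hQ'), if_neg hne]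
    congr 1
    ring
  have hmem : x ∈ codiff M Q := by
    refine ff6e_mem_codiff h hπ fun y hy => Place.v_trace_lt_one_of_dvd p h hp ?_ ?_
    · rw [map_mul, map_mul, ff6e_v_unif h hπ, Q.v_eq_exp_neg_ord hx0, hxQ, ← mul_assoc, ← exp_add]
      simpa using hy Q h
    · intro Q' hQ' hne
      rw [map_mul, map_mul, ff6e_v_unif hQ' hπ, hx' Q' hQ' hne, ← mul_assoc, ← exp_add]
      calc exp (-(Q'.ramIdx P : ℤ) + ((Q'.ramIdx P : ℤ) - 1)) * Q'.v y
          ≤ exp (-(Q'.ramIdx P : ℤ) + ((Q'.ramIdx P : ℤ) - 1)) * 1 :=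
            mul_le_mul_right (hy Q' hQ') _
        _ = exp (-1) := by
            rw [mul_one]
            congr 1
            ring
        _ < 1 := by
            rw [← exp_zero, exp_lt_exp]
            norm_num
  have := le_diffExp_of_mem hmem hx0
  rw [hxQ] at this
  linarith

/-- Dedekind, characteristic zero: `d = e - 1` -/
theorem diffExp_eq_of_charZero [CharZero k] {Q : Place k M'} {P : Place k M} (h : Q.Over P) :
    diffExp M Q = (Q.ramIdx P : ℤ) - 1 := by
  classical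
  refine le_antisymm ?_ (ramIdx_sub_one_le_diffExp h)
  by_contra hcon
  have hd : (Q.ramIdx P : ℤ) ≤ diffExp M Q := by omega
  obtain ⟨π, hπ⟩ := P.exists_unif
  have hπ0 : π ≠ 0 := by
    rintro rfl
    rw [map_zero] at hπ
    exact exp_ne_zero hπ.symm
  obtain ⟨x, hxC, hx0, hxQ⟩ := exists_mem_codiff_ord_eq (M := M) Q
  set T := (Place.finite_over (M' := M') P).toFinset with hT
  set N : ℤ := 1 + ∑ Q' ∈ T, |(Q'.ramIdx P : ℤ) + Q'.ord x| with hN
  have hN1 : 1 ≤ N := by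
    have : 0 ≤ ∑ Q' ∈ T, |(Q'.ramIdx P : ℤ) + Q'.ord x| := Finset.sum_nonneg fun _ _ => abs_nonneg _
    omega
  have hN2 : ∀ Q' ∈ T, (Q'.ramIdx P : ℤ) + Q'.ord x ≤ N := by
    intro Q' hQ'
    have h1 : |(Q'.ramIdx P : ℤ) + Q'.ord x| ≤ ∑ Q' ∈ T, |(Q'.ramIdx P : ℤ) + Q'.ord x| :=
      Finset.single_le_sum (f := fun Q' : Place k M' => |(Q'.ramIdx P : ℤ) + Q'.ord x|)
        (fun _ _ => abs_nonneg _) hQ'
    have h2 := le_abs_self ((Q'.ramIdx P : ℤ) + Q'.ord x)
    omega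
  obtain ⟨z, hz⟩ := weak_approx T (fun Q' => if Q' = Q then 1 else 0) N
  have hexpN : exp (-N) < (1 : ℤᵐ⁰) := by
    rw [← exp_zero, exp_lt_exp]
    omega
  have hzQ : Q.v (z - 1) < 1 := by
    have := hz Q ((Place.finite_over P).mem_toFinset.2 h)
    rw [if_pos rfl] at this
    exact lt_of_le_of_lt this hexpN
  have hzQ' : ∀ Q' : Place k M', Q'.Over P → Q' ≠ Q → Q'.v z ≤ exp (-N) := by
    intro Q' hQ' hne
    have := hz Q' ((Place.finite_over P).mem_toFinset.2 hQ')
    rwa [if_neg hne, sub_zero] at this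
  have hzQ1 : Q.v z = 1 := by
    have h1 : Q.v (z - 1 + 1) = 1 := by
      have := Valuation.map_add_eq_of_lt_right Q.v (x := z - 1) (y := 1) (by rwa [map_one])
      rw [this, map_one]
    rwa [sub_add_cancel] at h1
  have hT3 := Place.v_trace_eq_one_of_charZero h hzQ
    (fun Q' hQ' hne => lt_of_le_of_lt (hzQ' Q' hQ' hne) hexpN)
  have hπ' : algebraMap M M' π ≠ 0 := by
    rw [Ne, map_eq_zero]
    exact hπ0
  -- `y = z / (π x)` is integral above `P`
  have hy : ∀ Q' : Place k M', Q'.Over P → Q'.v (z / (algebraMap M M' π * x)) ≤ 1 := by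
    intro Q' hQ'
    rw [map_div₀, map_mul, ff6e_v_unif hQ' hπ, Q'.v_eq_exp_neg_ord hx0, ← exp_add]
    rw [div_le_one₀ (zero_lt_iff.2 exp_ne_zero)]
    by_cases hne : Q' = Q
    · subst hne
      rw [hzQ1, ← exp_zero, exp_le_exp, hxQ]
      omega
    · refine (hzQ' Q' hQ' hne).trans ?_
      rw [exp_le_exp]
      have := hN2 Q' ((Place.finite_over P).mem_toFinset.2 hQ')
      omega
  have hC := (mem_codiff_iff h x).1 hxC _ hy
  have hxy : x * (z / (algebraMap M M' π * x)) = π⁻¹ • z := by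
    rw [Algebra.smul_def, map_inv₀]
    field_simp
  rw [hxy, map_smul, smul_eq_mul, map_mul, hT3, mul_one, map_inv₀, hπ, ← exp_neg, neg_neg,
    ← exp_zero, exp_le_exp] at hC
  omega

end Claimed.Agent.R280
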