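import Claimed.Agent.R280.FF.ResMap

/-!
# Row 280, package FF, file MatInt (PROVED): matrices with entries in the valuation ring of a place

`IsIntUnit P U`: `U ∈ GL_ι(O_P)`.
-/

set_option autoImplicit false

namespace Claimed.Agent.R280

open WithZero

variable {k M : Type*} [Field k] [Field M] [Algebra k M]

theorem Place.ord_prod (P : Place k M) {ι : Type*} (s : Finset ι) (f : ι → M)
    (hf : ∀ i ∈ s, f i ≠ 0) : P.ord (∏ i ∈ s, f i) = ∑ i ∈ s, P.ord (f i) := by
  classical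
  induction s using Finset.induction_on with
  | empty => simp
  | insert a s ha ih =>
    rw [Finset.prod_insert ha, Finset.sum_insert ha,
      P.ord_mul (hf a (Finset.mem_insert_self a s))
        (Finset.prod_ne_zero_iff.2 fun i hi => hf i (Finset.mem_insert_of_mem hi)),
      ih fun i hi => hf i (Finset.mem_insert_of_mem hi)]

/-- every element of `ℤᵐ⁰` is bounded by some `exp r`, `r : ℕ` -/
theorem exists_le_exp_nat (x : ℤᵐ⁰) : ∃ r : ℕ, x ≤ exp (r : ℤ) := by
  by_cases hx : x = 0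
  · exact ⟨0, by simp [hx]⟩
  · refine ⟨(log x).toNat, ?_⟩
    rw [← exp_log hx, exp_le_exp, log_exp]
    exact Int.self_le_toNat _

variable {ι : Type*} [Fintype ι]

/-- a matrix with entries bounded by `γ'` maps vectors bounded by `γ` to vectors bounded by `γ' γ` -/
theorem Place.v_mulVec_le_mul (P : Place k M) (A : Matrix ι ι M) (γ' : ℤᵐ⁰)
    (hA : ∀ i j, P.v (A i j) ≤ γ') (c : ι → M) (γ : ℤᵐ⁰) (hc : ∀ i, P.v (c i) ≤ γ) (i : ι) :
    P.v ((A.mulVec c) i) ≤ γ' * γ := by
  rw [Matrix.mulVec, dotProduct]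
  apply P.v.map_sum_le
  intro j _
  rw [map_mul]
  exact mul_le_mul' (hA i j) (hc j)

/-- an integral matrix maps integral vectors to integral vectors -/
theorem Place.v_mulVec_le (P : Place k M) (A : Matrix ι ι M) (hA : ∀ i j, P.v (A i j) ≤ 1)
    (c : ι → M) (γ : ℤᵐ⁰) (hc : ∀ i, P.v (c i) ≤ γ) (i : ι) : P.v ((A.mulVec c) i) ≤ γ := by
  have := P.v_mulVec_le_mul A 1 hA c γ hc i
  rwa [one_mul] at this

variable [DecidableEq ι]

/-- the determinant of a matrix with entries in the valuation ring -/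
theorem Place.v_det_le_one (P : Place k M) (A : Matrix ι ι M) (hA : ∀ i j, P.v (A i j) ≤ 1) :
    P.v A.det ≤ 1 := by
  let A' : Matrix ι ι P.O := fun i j => ⟨A i j, hA i j⟩
  have h1 : A = A'.map P.O.subtype := by
    ext i j
    rfl
  have h2 : A.det = P.O.subtype A'.det := by
    rw [h1]
    exact (RingHom.map_det P.O.subtype A').symm
  rw [h2]
  exact A'.det.2

/-- the inverse of an integral matrix with unit determinant is integral -/
theorem Place.v_inv_le_one (P : Place k M) (A : Matrix ι ι M) (hA : ∀ i j, P.v (A i j) ≤ 1)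
    (hdet : P.v A.det = 1) (i j : ι) : P.v (A⁻¹ i j) ≤ 1 := by
  rw [Matrix.inv_def, Matrix.smul_apply, smul_eq_mul, map_mul, Ring.inverse_eq_inv', map_inv₀, hdet,
    inv_one, one_mul, Matrix.adjugate_apply]
  apply P.v_det_le_one
  intro a b
  rw [Matrix.updateRow_apply]
  split_ifs
  · rw [Pi.single_apply]
    split_ifs <;> simp
  · exact hA a b

/-- `U ∈ GL_ι(O_P)` -/
def IsIntUnit (P : Place k M) (U : Matrix ι ι M) : Prop :=
  (∀ i j, P.v (U i j) ≤ 1) ∧ P.v U.det = 1

theorem IsIntUnit.one (P : Place k M) : IsIntUnit P (1 : Matrix ι ι M) := by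
  refine ⟨fun i j => ?_, by simp⟩
  rw [Matrix.one_apply]
  split_ifs <;> simp

theorem IsIntUnit.mul {P : Place k M} {U U' : Matrix ι ι M} (h : IsIntUnit P U)
    (h' : IsIntUnit P U') : IsIntUnit P (U * U') := by
  refine ⟨fun i j => ?_, by rw [Matrix.det_mul, map_mul, h.2, h'.2, one_mul]⟩
  rw [Matrix.mul_apply]
  apply P.v.map_sum_le
  intro l _
  rw [map_mul]
  exact mul_le_one' (h.1 i l) (h'.1 l j)

theorem IsIntUnit.isUnit_det {P : Place k M} {U : Matrix ι ι M} (h : IsIntUnit P U) :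
    IsUnit U.det := by
  rw [isUnit_iff_ne_zero]
  intro h0
  have := h.2
  rw [h0, map_zero] at this
  exact zero_ne_one this

theorem IsIntUnit.inv {P : Place k M} {U : Matrix ι ι M} (h : IsIntUnit P U) :
    IsIntUnit P U⁻¹ := by
  refine ⟨P.v_inv_le_one U h.1 h.2, ?_⟩
  rw [Matrix.det_nonsing_inv, Ring.inverse_eq_inv', map_inv₀, h.2, inv_one]

/-- `U` preserves `π ^ (-m) O_P ^ ι` -/
theorem IsIntUnit.v_mulVec_le_iff {P : Place k M} {U : Matrix ι ι M} (h : IsIntUnit P U)
    (c : ι → M) (γ : ℤᵐ⁰) :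
    (∀ i, P.v ((U.mulVec c) i) ≤ γ) ↔ ∀ i, P.v (c i) ≤ γ := by
  constructor
  · intro hc
    have h1 := P.v_mulVec_le U⁻¹ h.inv.1 _ γ hc
    rwa [Matrix.mulVec_mulVec, Matrix.nonsing_inv_mul U h.isUnit_det, Matrix.one_mulVec] at h1
  · intro hc
    exact P.v_mulVec_le U h.1 c γ hc

end Claimed.Agent.R280
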