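import Claimed.Agent.R280.FF.Adapted
import Claimed.Agent.R280.FF.MatInt

/-!
# Row 280, package FF, leaf FF4e (IntBasis): generalities on local integral bases (PROVED)

`IsIntBasis P e`: `e` is an `O_P`-basis of `O'_P = {y | Q.v y ≤ 1 for all Q over P}`.  Existence is glue from leaf
`Adapted`.  The other statements are formal:
* `v_repr_le_iff`: multiply `y` by `π ^ m`, `Q.v π = exp (- e(Q|P))` (`Place.overE_ramIdx`).
* `v_det_toMatrix`: `e.toMatrix e'` and `e'.toMatrix e` have entries in `O_P` and are inverse to each other; the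
  determinant of a matrix with entries in `O_P` is in `O_P` (`Matrix.det_apply`, ultrametric inequality:
  `v_det_le_one`).
* `of_v_det_toMatrix`: `e.toMatrix b` is integral, so `v (det (b.toMatrix e)) ≥ 1`; in case of equality the inverse
  `b.toMatrix e` = adjugate / det is integral too, so `b.repr y = (b.toMatrix e) *ᵥ e.repr y` is integral for `y ∈ O'_P`.
-/

set_option autoImplicit false

namespace Claimed.Agent.R280

open WithZero

variable {k M M' : Type*} [Field k] [Field M] [Field M'] [Algebra k M] [Algebra k M'] [Algebra M M']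

theorem IsIntBasis.reindex {ι ι' : Type*} {P : Place k M} {e : Module.Basis ι M M'}
    (he : IsIntBasis P e) (φ : ι ≃ ι') : IsIntBasis P (e.reindex φ) := by
  intro x
  rw [he x]
  constructor
  · intro h i
    simpa using h (φ.symm i)
  · intro h i
    simpa using h (φ i)

/-- the members of an integral basis are integral -/
theorem IsIntBasis.v_le_one {ι : Type*} {P : Place k M} {e : Module.Basis ι M M'}
    (he : IsIntBasis P e) (i : ι) (Q : Place k M') (hQ : Q.Over P) : Q.v (e i) ≤ 1 := by
  classical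
  refine (he (e i)).2 (fun j => ?_) Q hQ
  rw [Module.Basis.repr_self, Finsupp.single_apply]
  split_ifs <;> simp

variable [IsScalarTower k M M'] [IsFF k M] [Module.Finite M M']

theorem exists_isIntBasis (P : Place k M) :
    ∃ e : Module.Basis (Fin (Module.finrank M M')) M M', IsIntBasis P e := by
  obtain ⟨t, f, u, ht, hu⟩ := exists_local_data (M' := M') P
  obtain ⟨e, _, he⟩ := exists_adapted_basis P t f u (fun Q _ => ht Q) hu
  have hcard : Fintype.card (AdIdx P f) = Module.finrank M M' :=
    (Module.finrank_eq_card_basis e).symm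
  exact ⟨e.reindex (Fintype.equivFinOfCardEq hcard), he.reindex _⟩

/-- integral bases with any index type of the right size -/
theorem exists_isIntBasis' {ι : Type*} [Finite ι] (b : Module.Basis ι M M') (P : Place k M) :
    ∃ e : Module.Basis ι M M', IsIntBasis P e := by
  classical
  have := Fintype.ofFinite ι
  obtain ⟨e, he⟩ := exists_isIntBasis (M' := M') P
  have hcard : Fintype.card ι = Module.finrank M M' := (Module.finrank_eq_card_basis b).symm
  exact ⟨e.reindex (Fintype.equivFinOfCardEq hcard).symm, he.reindex _⟩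

omit [IsScalarTower k M M'] [IsFF k M] [Module.Finite M M'] in
/-- scaling: integrality of `π ^ m y` -/
theorem IsIntBasis.v_repr_le_iff {ι : Type*} {P : Place k M} {e : Module.Basis ι M M'}
    (he : IsIntBasis P e) (y : M') (m : ℤ) :
    (∀ Q : Place k M', Q.Over P → Q.v y ≤ exp (Q.ramIdx P * m)) ↔
      ∀ i, P.v (e.repr y i) ≤ exp m := by
  obtain ⟨s, hs0, hs⟩ := P.exists_ord_eq m
  have hvs : P.v s = exp (-m) := (P.ord_eq_iff hs0 m).1 hs
  have key : ∀ (a : ℤᵐ⁰) (n : ℤ), exp (-n) * a ≤ 1 ↔ a ≤ exp n := by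
    intro a n
    rw [exp_neg, mul_comm, mul_inv_le_iff₀ (zero_lt_iff.2 exp_ne_zero), one_mul]
  have h := he (s • y)
  have h1 : ∀ i, P.v (e.repr (s • y) i) ≤ 1 ↔ P.v (e.repr y i) ≤ exp m := by
    intro i
    rw [map_smul, Finsupp.smul_apply, smul_eq_mul, map_mul, hvs, key]
  have h2 : ∀ Q : Place k M', Q.Over P → (Q.v (s • y) ≤ 1 ↔ Q.v y ≤ exp (Q.ramIdx P * m)) := by
    intro Q hQ
    rw [Algebra.smul_def, map_mul, (Place.overE_ramIdx hQ).2 s, hvs, ← exp_nsmul]
    have : (Q.ramIdx P) • (-m) = -((Q.ramIdx P : ℤ) * m) := by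
      simp
    rw [this, key]
  constructor
  · intro hy i
    exact (h1 i).1 (h.1 (fun Q hQ => (h2 Q hQ).2 (hy Q hQ)) i)
  · intro hy Q hQ
    exact (h2 Q hQ).1 (h.2 (fun i => (h1 i).2 (hy i)) Q hQ)

omit [IsScalarTower k M M'] [IsFF k M] [Module.Finite M M'] in
/-- the base change matrix between two integral bases is invertible over `O_P` -/
theorem IsIntBasis.v_det_toMatrix {ι : Type*} [Fintype ι] [DecidableEq ι] {P : Place k M}
    {e e' : Module.Basis ι M M'} (he : IsIntBasis P e) (he' : IsIntBasis P e') :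
    P.v (e.toMatrix e').det = 1 := by
  have h1 : P.v (e.toMatrix e').det ≤ 1 := P.v_det_le_one _ fun i j => by
    rw [Module.Basis.toMatrix_apply]
    exact (he (e' j)).1 (he'.v_le_one j) i
  have h2 : P.v (e'.toMatrix e).det ≤ 1 := P.v_det_le_one _ fun i j => by
    rw [Module.Basis.toMatrix_apply]
    exact (he' (e j)).1 (he.v_le_one j) i
  have h3 : P.v (e.toMatrix e').det * P.v (e'.toMatrix e).det = 1 := by
    rw [← map_mul, ← Matrix.det_mul, Module.Basis.toMatrix_mul_toMatrix_flip, Matrix.det_one,
      map_one]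
  apply le_antisymm h1
  calc (1 : ℤᵐ⁰) = P.v (e.toMatrix e').det * P.v (e'.toMatrix e).det := h3.symm
    _ ≤ P.v (e.toMatrix e').det * 1 := by gcongr
    _ = _ := mul_one _

omit [IsScalarTower k M M'] [IsFF k M] [Module.Finite M M'] in
/-- a basis of integral elements: the determinant detects whether it is an integral basis -/
theorem IsIntBasis.of_v_det_toMatrix {ι : Type*} [Fintype ι] [DecidableEq ι] {P : Place k M}
    {e b : Module.Basis ι M M'} (he : IsIntBasis P e)
    (hb : ∀ i (Q : Place k M'), Q.Over P → Q.v (b i) ≤ 1) :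
    1 ≤ P.v (b.toMatrix e).det ∧ (P.v (b.toMatrix e).det = 1 → IsIntBasis P b) := by
  have hint : ∀ i j, P.v (e.toMatrix b i j) ≤ 1 := fun i j => by
    rw [Module.Basis.toMatrix_apply]
    exact (he (b j)).1 (hb j) i
  have h2 : P.v (e.toMatrix b).det ≤ 1 := P.v_det_le_one _ hint
  have h3 : P.v (b.toMatrix e).det * P.v (e.toMatrix b).det = 1 := by
    rw [← map_mul, ← Matrix.det_mul, Module.Basis.toMatrix_mul_toMatrix_flip, Matrix.det_one,
      map_one]
  refine ⟨?_, fun h1 => ?_⟩
  · calc (1 : ℤᵐ⁰) = P.v (b.toMatrix e).det * P.v (e.toMatrix b).det := h3.symm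
      _ ≤ P.v (b.toMatrix e).det * 1 := by gcongr
      _ = _ := mul_one _
  · rw [h1, one_mul] at h3
    have hinv : b.toMatrix e = (e.toMatrix b)⁻¹ :=
      (Matrix.inv_eq_left_inv (Module.Basis.toMatrix_mul_toMatrix_flip b e)).symm
    have hint' : ∀ i j, P.v (b.toMatrix e i j) ≤ 1 := fun i j => by
      rw [hinv]
      exact P.v_inv_le_one _ hint h3 i j
    intro x
    constructor
    · intro hx i
      have h4 := (he x).1 hx
      rw [← Module.Basis.sum_repr_mul_repr b e x i]
      apply P.v.map_sum_le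
      intro j _
      rw [map_mul]
      exact mul_le_one' (hint' i j) (h4 j)
    · intro hx Q hQ
      rw [← b.sum_repr x]
      apply Q.v.map_sum_le
      intro i _
      rw [Algebra.smul_def, map_mul]
      exact mul_le_one' ((hQ.v_le_one_iff _).2 (hx i)) (hb i Q hQ)

end Claimed.Agent.R280
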