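import Claimed.Agent.R280.FF.Lattice
import Claimed.Agent.R280.FF.IntBasis

/-!
# Row 280, package FF, leaf FF5f (Frames): `finite_not_isIntBasis` and `chi_eq_of_frames` (PROVED)
(valid for inseparable `M'/M`)

`b` a basis of `M'/M`, `e P` integral bases, `B P = b.toMatrix (e P)`, `a P = ord_P det (B P)`, `n = [M':M]`.
For `y ∈ M'`: `b.repr y = (B P) *ᵥ (e P).repr y`.  For a finite set `S` of places put
`frameMat b e S P = if P ∈ S then B P else 1`.

* `finite_not_integral`: `T = {P | some b i is not integral over O_P}` is finite (`finite_setOf_v_ne_one` in `M'`, every `Q` lies over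
  exactly one `P`).
* `repr_mem_HS`: for `T ⊆ S`: `b.repr y ∈ HS (frameMat b e S) D → y ∈ LSp (conorm D)` (`mem_LSp_conorm_iff`,
  `IsIntBasis.v_repr_le_iff` for `P ∈ S`; for `P ∉ S` the `b i` are integral and `Q.v π ^ (-D P) = exp (e(Q|P) D P)`).
  If moreover `b` is an integral basis at all `P ∉ S` this is an equivalence (`repr_mem_HS_iff`).
* `sum_le`: for `T ⊆ S`: `- ∑_{P ∈ S} a P deg P ≤ χ(M') - n χ(M)`: take `D` of large degree (`exists_le_deg`), compare
  `exists_finrank_HS` with `hasChi_chi` for `M'` (function field by `isFF_of_finite`) and `deg_conorm`; `b.repr` is injective and `k`-linear.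
* For `P ∉ T`: `a P ≤ 0`, and `a P = 0 → IsIntBasis P b` (`IsIntBasis.of_v_det_toMatrix`).  So every finite set `S'` of places
  outside `T` where `b` is not an integral basis satisfies `|S'| ≤ ∑_{S'} (- a P) deg P ≤ χ(M') - n χ(M) + ∑_T a P deg P`:
  `finite_not_isIntBasis` (`Set.Finite` from a bound on the finite subsets: `Set.infinite... exists_subset_card_eq`).
* `chi_eq_of_frames`: `S = T ∪ {P | ¬ IsIntBasis P b}`, equality in `sum_le` by `repr_mem_HS_iff`; outside `S`, `a P = 0` by
  `IsIntBasis.v_det_toMatrix`, so the `finsum` is the sum over `S`.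
-/

set_option autoImplicit false
set_option linter.unusedSectionVars false

namespace Claimed.Agent.R280

open WithZero

variable {k M M' : Type*} [Field k] [Field M] [Field M'] [Algebra k M] [Algebra k M'] [Algebra M M']
  [IsScalarTower k M M'] [IsFF k M] [Module.Finite M M']

theorem finite_not_integral (y : M') :
    {P : Place k M | ∃ Q : Place k M', Q.Over P ∧ 1 < Q.v y}.Finite := by
  by_cases hy : y = 0
  · subst hy
    convert Set.finite_empty (α := Place k M)
    ext P
    simp
  · have : IsFF k M' := isFF_of_finite k M M'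
    choose below hbelow _ using fun Q : Place k M' => Place.existsUnique_below (M := M) Q
    refine ((finite_setOf_v_ne_one (k := k) hy).image below).subset ?_
    rintro P ⟨Q, hQ, hQy⟩
    exact ⟨Q, ne_of_gt hQy, (hbelow Q).unique hQ⟩

omit [IsScalarTower k M M'] [IsFF k M] [Module.Finite M M'] in
theorem Place.Over.v_algebraMap_le_exp {Q : Place k M'} {P : Place k M} (h : Q.Over P) {c : M}
    {m : ℤ} (hc : P.v c ≤ exp m) : Q.v (algebraMap M M' c) ≤ exp (Q.ramIdx P * m) := by
  rw [(Place.overE_ramIdx h).2 c]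
  have h1 : exp ((Q.ramIdx P : ℤ) * m) = exp m ^ (Q.ramIdx P) := by
    rw [← exp_nsmul]
    simp
  rw [h1]
  exact pow_le_pow_left₀ zero_le hc _

section

variable {ι : Type*} [Fintype ι] [DecidableEq ι]

open Classical in
/-- the local frames: `b.toMatrix (e P)` on `S`, `1` outside -/
noncomputable def frameMat (b : Module.Basis ι M M') (e : Place k M → Module.Basis ι M M')
    (S : Finset (Place k M)) (P : Place k M) : Matrix ι ι M :=
  if P ∈ S then b.toMatrix (e P) else 1

omit [IsScalarTower k M M'] [IsFF k M] [Module.Finite M M'] [Algebra k M'] [Fintype ι] in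
theorem frameMat_of_mem (b : Module.Basis ι M M') (e : Place k M → Module.Basis ι M M')
    {S : Finset (Place k M)} {P : Place k M} (hP : P ∈ S) :
    frameMat b e S P = b.toMatrix (e P) := if_pos hP

omit [IsScalarTower k M M'] [IsFF k M] [Module.Finite M M'] [Algebra k M'] [Fintype ι] in
theorem frameMat_of_not_mem (b : Module.Basis ι M M') (e : Place k M → Module.Basis ι M M')
    {S : Finset (Place k M)} {P : Place k M} (hP : P ∉ S) :
    frameMat b e S P = 1 := if_neg hP

omit [IsScalarTower k M M'] [IsFF k M] [Module.Finite M M'] in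
theorem frameMat_inv_mulVec_of_mem (b : Module.Basis ι M M')
    (e : Place k M → Module.Basis ι M M') {S : Finset (Place k M)} {P : Place k M} (hP : P ∈ S)
    (y : M') : (frameMat b e S P)⁻¹.mulVec (fun i => b.repr y i) = fun i => (e P).repr y i := by
  rw [frameMat_of_mem b e hP,
    Matrix.inv_eq_left_inv (Module.Basis.toMatrix_mul_toMatrix_flip (e P) b)]
  exact Module.Basis.toMatrix_mulVec_repr b (e P) y

omit [IsScalarTower k M M'] [IsFF k M] [Module.Finite M M'] in
theorem frameMat_inv_mulVec_of_not_mem (b : Module.Basis ι M M')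
    (e : Place k M → Module.Basis ι M M') {S : Finset (Place k M)} {P : Place k M} (hP : P ∉ S)
    (c : ι → M) : (frameMat b e S P)⁻¹.mulVec c = c := by
  rw [frameMat_of_not_mem b e hP, inv_one, Matrix.one_mulVec]

omit [IsScalarTower k M M'] [IsFF k M] [Module.Finite M M'] in
theorem isUnit_det_frameMat (b : Module.Basis ι M M') (e : Place k M → Module.Basis ι M M')
    (S : Finset (Place k M)) (P : Place k M) : IsUnit (frameMat b e S P).det := by
  by_cases hP : P ∈ S
  · rw [frameMat_of_mem b e hP]
    exact IsUnit.of_mul_eq_one _ (by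
      rw [← Matrix.det_mul, Module.Basis.toMatrix_mul_toMatrix_flip b (e P), Matrix.det_one])
  · rw [frameMat_of_not_mem b e hP]
    simp

omit [IsScalarTower k M M'] [IsFF k M] [Module.Finite M M'] in
theorem finite_frameMat_ne_one (b : Module.Basis ι M M') (e : Place k M → Module.Basis ι M M')
    (S : Finset (Place k M)) : {P | frameMat b e S P ≠ 1}.Finite := by
  refine S.finite_toSet.subset fun P hP => ?_
  by_contra h
  exact hP (frameMat_of_not_mem b e h)

omit [IsScalarTower k M M'] [IsFF k M] [Module.Finite M M'] in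
theorem finsum_frameMat (b : Module.Basis ι M M') (e : Place k M → Module.Basis ι M M')
    (S : Finset (Place k M)) :
    ∑ᶠ P : Place k M, P.ord (frameMat b e S P).det * (P.deg : ℤ)
      = ∑ P ∈ S, P.ord (b.toMatrix (e P)).det * (P.deg : ℤ) := by
  rw [finsum_eq_sum_of_support_subset (s := S)]
  · exact Finset.sum_congr rfl fun P hP => by rw [frameMat_of_mem b e hP]
  · intro P hP
    by_contra h
    apply hP
    have h1 : P ∉ S := h
    simp [frameMat_of_not_mem b e h1]

theorem repr_mem_HS (b : Module.Basis ι M M') (e : Place k M → Module.Basis ι M M')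
    (he : ∀ P, IsIntBasis P (e P)) (S : Finset (Place k M))
    (hS : ∀ P ∉ S, ∀ i (Q : Place k M'), Q.Over P → Q.v (b i) ≤ 1) (D : Dvsr k M) (y : M')
    (hy : (fun i => b.repr y i) ∈ HS (frameMat b e S) D) : y ∈ LSp (conorm k M' D) := by
  rw [mem_LSp_conorm_iff]
  rw [mem_HS] at hy
  intro P
  by_cases hP : P ∈ S
  · have h1 := hy P
    rw [frameMat_inv_mulVec_of_mem b e hP] at h1
    exact ((he P).v_repr_le_iff y (D P)).2 h1
  · have h1 := hy P
    rw [frameMat_inv_mulVec_of_not_mem b e hP] at h1
    intro Q hQ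
    rw [← b.sum_repr y]
    apply Q.v.map_sum_le
    intro i _
    rw [Algebra.smul_def, map_mul]
    exact mul_le_of_le_of_le_one (hQ.v_algebraMap_le_exp (h1 i)) (hS P hP i Q hQ)

theorem repr_mem_HS_iff (b : Module.Basis ι M M') (e : Place k M → Module.Basis ι M M')
    (he : ∀ P, IsIntBasis P (e P)) (S : Finset (Place k M)) (hS : ∀ P ∉ S, IsIntBasis P b)
    (D : Dvsr k M) (y : M') :
    (fun i => b.repr y i) ∈ HS (frameMat b e S) D ↔ y ∈ LSp (conorm k M' D) := by
  rw [mem_LSp_conorm_iff, mem_HS]
  refine forall_congr' fun P => ?_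
  by_cases hP : P ∈ S
  · rw [frameMat_inv_mulVec_of_mem b e hP]
    exact ((he P).v_repr_le_iff y (D P)).symm
  · rw [frameMat_inv_mulVec_of_not_mem b e hP]
    exact ((hS P hP).v_repr_le_iff y (D P)).symm

/-- common part of `sum_le_chi_sub` and `sum_eq_chi_sub` -/
private theorem exists_divisor (b : Module.Basis ι M M') (e : Place k M → Module.Basis ι M M')
    (S : Finset (Place k M)) :
    ∃ D : Dvsr k M, (Module.finrank k (HS (frameMat b e S) D) : ℤ)
        = Fintype.card ι * (D.deg + chi k M)
          - ∑ P ∈ S, P.ord (b.toMatrix (e P)).det * (P.deg : ℤ) ∧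
      (ell (conorm k M' D) : ℤ) = Fintype.card ι * D.deg + chi k M' := by
  have : IsFF k M' := isFF_of_finite k M M'
  obtain ⟨c₀, hc₀⟩ := exists_finrank_HS (frameMat b e S) (isUnit_det_frameMat b e S)
    (finite_frameMat_ne_one b e S)
  obtain ⟨c', hc'⟩ := hasChi_chi (k := k) (M := M')
  obtain ⟨D, hD⟩ := exists_le_deg (k := k) (M := M) (max (max c₀ c') 0)
  have h1 : c₀ ≤ D.deg := ((le_max_left _ _).trans (le_max_left _ _)).trans hD
  have h2 : c' ≤ D.deg := ((le_max_right _ _).trans (le_max_left _ _)).trans hD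
  have h3 : 0 ≤ D.deg := (le_max_right _ _).trans hD
  have hn : Module.finrank M M' = Fintype.card ι := Module.finrank_eq_card_basis b
  have hn1 : (1 : ℤ) ≤ Fintype.card ι := by
    rw [← hn]
    exact_mod_cast Module.finrank_pos (R := M) (M := M')
  refine ⟨D, ?_, ?_⟩
  · rw [hc₀ D h1, finsum_frameMat]
  · have h4 : (conorm k M' D).deg = Fintype.card ι * D.deg := by rw [deg_conorm, hn]
    rw [hc' _ (by rw [h4]; nlinarith), h4]

/-- coordinates as a `k`-linear equivalence -/
private noncomputable def reprEquiv (b : Module.Basis ι M M') : M' ≃ₗ[k] (ι → M) :=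
  b.equivFun.restrictScalars k

theorem sum_le_chi_sub (b : Module.Basis ι M M') (e : Place k M → Module.Basis ι M M')
    (he : ∀ P, IsIntBasis P (e P)) (S : Finset (Place k M))
    (hS : ∀ P ∉ S, ∀ i (Q : Place k M'), Q.Over P → Q.v (b i) ≤ 1) :
    - ∑ P ∈ S, P.ord (b.toMatrix (e P)).det * (P.deg : ℤ)
      ≤ chi k M' - Fintype.card ι * chi k M := by
  have : IsFF k M' := isFF_of_finite k M M'
  obtain ⟨D, h1, h2⟩ := exists_divisor b e S
  have hle : HS (frameMat b e S) D
      ≤ (LSp (conorm k M' D)).map (reprEquiv (k := k) b : M' →ₗ[k] (ι → M)) := by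
    intro c hc
    refine ⟨(reprEquiv (k := k) b).symm c, ?_, (reprEquiv (k := k) b).apply_symm_apply c⟩
    apply repr_mem_HS b e he S hS D
    have h3 : (fun i => b.repr ((reprEquiv (k := k) b).symm c) i) = c :=
      (reprEquiv (k := k) b).apply_symm_apply c
    rw [h3]
    exact hc
  have hfin := finite_LSp (conorm k M' D)
  have hfin' : Module.Finite k
      ((LSp (conorm k M' D)).map (reprEquiv (k := k) b : M' →ₗ[k] (ι → M))) :=
    Module.Finite.equiv ((reprEquiv (k := k) b).submoduleMap (LSp (conorm k M' D)))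
  have h4 := Submodule.finrank_mono hle
  rw [LinearEquiv.finrank_map_eq] at h4
  have h5 : (Module.finrank k (HS (frameMat b e S) D) : ℤ) ≤ ell (conorm k M' D) := by
    exact_mod_cast h4
  rw [h1, h2] at h5
  linarith

theorem sum_eq_chi_sub (b : Module.Basis ι M M') (e : Place k M → Module.Basis ι M M')
    (he : ∀ P, IsIntBasis P (e P)) (S : Finset (Place k M)) (hS : ∀ P ∉ S, IsIntBasis P b) :
    - ∑ P ∈ S, P.ord (b.toMatrix (e P)).det * (P.deg : ℤ)
      = chi k M' - Fintype.card ι * chi k M := by
  obtain ⟨D, h1, h2⟩ := exists_divisor b e S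
  have heq : HS (frameMat b e S) D
      = (LSp (conorm k M' D)).map (reprEquiv (k := k) b : M' →ₗ[k] (ι → M)) := by
    ext c
    constructor
    · intro hc
      refine ⟨(reprEquiv (k := k) b).symm c, ?_, (reprEquiv (k := k) b).apply_symm_apply c⟩
      rw [SetLike.mem_coe, ← repr_mem_HS_iff b e he S hS D]
      have h3 : (fun i => b.repr ((reprEquiv (k := k) b).symm c) i) = c :=
        (reprEquiv (k := k) b).apply_symm_apply c
      rw [h3]
      exact hc
    · rintro ⟨y, hy, rfl⟩
      exact (repr_mem_HS_iff b e he S hS D y).2 hy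
  have h4 : Module.finrank k (HS (frameMat b e S) D) = ell (conorm k M' D) := by
    rw [heq, LinearEquiv.finrank_map_eq]
    rfl
  rw [h4, h2] at h1
  linarith

end

/-- a global basis is an integral basis at almost all places -/
theorem finite_not_isIntBasis {ι : Type*} [Finite ι] (b : Module.Basis ι M M') :
    {P : Place k M | ¬ IsIntBasis P b}.Finite := by
  classical
  have := Fintype.ofFinite ι
  choose e he using fun P : Place k M => exists_isIntBasis' b P
  have hTfin : (⋃ i, {P : Place k M | ∃ Q : Place k M', Q.Over P ∧ 1 < Q.v (b i)}).Finite :=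
    Set.finite_iUnion fun i => finite_not_integral (b i)
  set T := hTfin.toFinset with hT
  have hTint : ∀ P ∉ T, ∀ i (Q : Place k M'), Q.Over P → Q.v (b i) ≤ 1 := by
    intro P hP i Q hQ
    by_contra h
    apply hP
    rw [hT, Set.Finite.mem_toFinset, Set.mem_iUnion]
    exact ⟨i, Q, hQ, not_le.1 h⟩
  set K : ℤ := chi k M' - Fintype.card ι * chi k M
    + ∑ P ∈ T, P.ord (b.toMatrix (e P)).det * (P.deg : ℤ) with hK
  have hbound : ∀ S' : Finset (Place k M), (∀ P ∈ S', ¬ IsIntBasis P b ∧ P ∉ T) →
      (S'.card : ℤ) ≤ K := by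
    intro S' hS'
    have hdisj : Disjoint T S' := Finset.disjoint_right.2 fun P hP => (hS' P hP).2
    have h1 := sum_le_chi_sub b e he (T ∪ S') (fun P hP =>
      hTint P fun h => hP (Finset.mem_union_left _ h))
    rw [Finset.sum_union hdisj] at h1
    have h2 : (S'.card : ℤ) ≤ - ∑ P ∈ S', P.ord (b.toMatrix (e P)).det * (P.deg : ℤ) := by
      rw [← Finset.sum_neg_distrib, Finset.card_eq_sum_ones]
      push_cast
      refine Finset.sum_le_sum fun P hP => ?_
      obtain ⟨h3, h4⟩ := IsIntBasis.of_v_det_toMatrix (he P) (hTint P (hS' P hP).2)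
      have h5 : 1 < P.v (b.toMatrix (e P)).det :=
        lt_of_le_of_ne h3 fun h => (hS' P hP).1 (h4 h.symm)
      have h0 : (b.toMatrix (e P)).det ≠ 0 := by
        intro h
        rw [h, map_zero] at h5
        exact absurd h5 (by simp)
      have h6 : P.ord (b.toMatrix (e P)).det < 0 := by
        by_contra h
        exact absurd ((P.v_le_one_iff h0).2 (not_lt.1 h)) (not_le.2 h5)
      have h7 : (1 : ℤ) ≤ P.deg := by exact_mod_cast P.deg_pos
      nlinarith
    rw [hK]
    linarith
  have hfin : {P : Place k M | ¬ IsIntBasis P b ∧ P ∉ T}.Finite := by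
    by_contra hinf
    obtain ⟨S', hS', hcard⟩ := Set.Infinite.exists_subset_card_eq hinf (K.toNat + 1)
    have h1 := hbound S' fun P hP => hS' hP
    rw [hcard] at h1
    push_cast at h1
    have := Int.self_le_toNat K
    omega
  refine (hfin.union T.finite_toSet).subset fun P hP => ?_
  by_cases hPT : P ∈ T
  · exact Or.inr hPT
  · exact Or.inl ⟨hP, hPT⟩

/-- `χ(M') = [M':M] χ(M) + deg(π_* O_{M'})`, the degree being computed with a global basis `b` and
local integral bases `e P`. -/
theorem chi_eq_of_frames {ι : Type*} [Fintype ι] [DecidableEq ι] (b : Module.Basis ι M M')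
    (e : Place k M → Module.Basis ι M M') (he : ∀ P, IsIntBasis P (e P)) :
    chi k M' = Fintype.card ι * chi k M
      - ∑ᶠ P : Place k M, P.ord (b.toMatrix (e P)).det * (P.deg : ℤ) := by
  classical
  have hfin := finite_not_isIntBasis (k := k) b
  have h := sum_eq_chi_sub b e he hfin.toFinset (fun P hP => by simpa using hP)
  have hsum : ∑ᶠ P : Place k M, P.ord (b.toMatrix (e P)).det * (P.deg : ℤ)
      = ∑ P ∈ hfin.toFinset, P.ord (b.toMatrix (e P)).det * (P.deg : ℤ) := by
    apply finsum_eq_sum_of_support_subset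
    intro P hP
    simp only [Set.Finite.coe_toFinset, Set.mem_ofPred_eq]
    intro hb
    apply hP
    have h1 := IsIntBasis.v_det_toMatrix hb (he P)
    have : P.ord (b.toMatrix (e P)).det = 0 := by
      simp [Place.ord, h1]
    simp [this]
  rw [hsum]
  linarith

end Claimed.Agent.R280
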