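import Claimed.Agent.R280.FF.Codiff
import Claimed.Agent.R280.FF.Frames

/-!
# Row 280, package FF, leaf FF6c (Disc): the discriminant criterion, finiteness of the different

* `det_traceMatrix_eq`: `traceMatrix e = Aᵀ * traceMatrix b * A` with `A = b.toMatrix e`
  (`Algebra.traceMatrix_of_basis_mulVec`-style lemmas / `Algebra.traceMatrix_of_matrix_vecMul`), so
  `det (traceMatrix e) = det A ^ 2 * det (traceMatrix b)`.
* `v_det_traceMatrix_le_one`: entries `Tr (b i * b j)` are integral by T0; `Place.v_det_le_one`.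
* `isIntBasis_of_disc`: `b` integral at `P`, `v (disc b) = 1`.  Let `e` be an integral basis (`exists_isIntBasis'`):
  `disc b = det (e.toMatrix b) ^ 2 disc e`, both factors integral, so both are units; `IsIntBasis.of_v_det_toMatrix`
  (`det (b.toMatrix e) = (det (e.toMatrix b))⁻¹`).
* `diffExp_eq_zero_of_disc`: `ord_det_traceMatrix` for `b`: `0 = ∑ d(Q) deg Q`, all terms `≥ 0`, `deg Q > 0`.
* `finite_diffExp_ne_zero`: take any basis `b` (`Module.finBasis`).  `disc b ≠ 0` (`Algebra.det_traceMatrix_ne_zero'`/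
  `traceForm_nondegenerate`).  Outside the finite set `{P | some b i not integral} ∪ {P | v (disc b) ≠ 1}` all `d(Q) = 0`; finitely many `Q` above
  each of the exceptional `P` (`Place.finite_over`, `Place.existsUnique_below`).
-/

set_option autoImplicit false

namespace Claimed.Agent.R280

open WithZero

variable {k M M' : Type*} [Field k] [Field M] [Field M'] [Algebra k M] [Algebra k M'] [Algebra M M']

theorem det_traceMatrix_eq {ι : Type*} [Fintype ι] [DecidableEq ι] (b e : Module.Basis ι M M') :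
    (Algebra.traceMatrix M e).det = (b.toMatrix e).det ^ 2 * (Algebra.traceMatrix M b).det := by
  have h := Algebra.discr_of_matrix_vecMul (A := M) (B := M') (b : ι → M') (b.toMatrix e)
  have h1 : Matrix.vecMul (b : ι → M') ((b.toMatrix e).map (algebraMap M M')) = e := by
    ext j
    rw [← Module.Basis.sum_toMatrix_smul_self b e j]
    simp only [Matrix.vecMul, dotProduct, Matrix.map_apply, Algebra.smul_def]
    exact Finset.sum_congr rfl fun i _ => mul_comm _ _
  rw [h1] at h
  exact h

variable [IsScalarTower k M M'] [IsFF k M] [Module.Finite M M']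

theorem v_det_traceMatrix_le_one {ι : Type*} [Fintype ι] [DecidableEq ι] (P : Place k M)
    (b : ι → M') (hb : ∀ i (Q : Place k M'), Q.Over P → Q.v (b i) ≤ 1) :
    P.v (Algebra.traceMatrix M b).det ≤ 1 := by
  refine P.v_det_le_one _ fun i j => ?_
  rw [Algebra.traceMatrix_apply, Algebra.traceForm_apply]
  refine P.v_trace_le_one fun Q hQ => ?_
  rw [map_mul]
  exact mul_le_one' (hb i Q hQ) (hb j Q hQ)

theorem isIntBasis_of_disc {ι : Type*} [Fintype ι] [DecidableEq ι] {P : Place k M}
    (b : Module.Basis ι M M') (hb : ∀ i (Q : Place k M'), Q.Over P → Q.v (b i) ≤ 1)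
    (hd : P.v (Algebra.traceMatrix M b).det = 1) : IsIntBasis P b := by
  obtain ⟨e, he⟩ := exists_isIntBasis' b P
  have h1 := det_traceMatrix_eq e b
  rw [h1, map_mul, map_pow] at hd
  have h2 : P.v (e.toMatrix b).det ≤ 1 := P.v_det_le_one _ fun i j => by
    rw [Module.Basis.toMatrix_apply]
    exact (he (b j)).1 (hb j) i
  have h3 : P.v (Algebra.traceMatrix M e).det ≤ 1 :=
    v_det_traceMatrix_le_one P e fun i Q hQ => he.v_le_one i Q hQ
  have h4 : P.v (e.toMatrix b).det = 1 := by
    refine le_antisymm h2 ?_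
    calc (1 : ℤᵐ⁰) = P.v (e.toMatrix b).det ^ 2 * P.v (Algebra.traceMatrix M e).det := hd.symm
      _ ≤ P.v (e.toMatrix b).det ^ 2 * 1 := by gcongr
      _ = P.v (e.toMatrix b).det * P.v (e.toMatrix b).det := by rw [mul_one, sq]
      _ ≤ P.v (e.toMatrix b).det * 1 := by gcongr
      _ = _ := mul_one _
  have h5 : P.v (b.toMatrix e).det * P.v (e.toMatrix b).det = 1 := by
    rw [← map_mul, ← Matrix.det_mul, Module.Basis.toMatrix_mul_toMatrix_flip, Matrix.det_one,
      map_one]
  rw [h4, mul_one] at h5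
  exact (IsIntBasis.of_v_det_toMatrix he hb).2 h5

variable [Algebra.IsSeparable M M']

theorem diffExp_eq_zero_of_disc {ι : Type*} [Fintype ι] [DecidableEq ι] {P : Place k M}
    (b : Module.Basis ι M M') (hb : ∀ i (Q : Place k M'), Q.Over P → Q.v (b i) ≤ 1)
    (hd : P.v (Algebra.traceMatrix M b).det = 1) {Q : Place k M'} (hQ : Q.Over P) :
    diffExp M Q = 0 := by
  have : IsFF k M' := isFF_of_finite k M M'
  have h1 := ord_det_traceMatrix (isIntBasis_of_disc b hb hd)
  have h2 : P.ord (Algebra.traceMatrix M b).det = 0 := by simp [Place.ord, hd]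
  rw [h2, zero_mul] at h1
  have h3 := (Finset.sum_eq_zero_iff_of_nonneg (fun Q' _ =>
    mul_nonneg (diffExp_nonneg (M := M) Q') (Int.natCast_nonneg _))).1 h1.symm Q
    ((Set.Finite.mem_toFinset _).2 hQ)
  have h4 : (Q.deg : ℤ) ≠ 0 := by exact_mod_cast Q.deg_pos.ne'
  exact (mul_eq_zero.1 h3).resolve_right h4

theorem det_traceMatrix_ne_zero_basis {ι : Type*} [Fintype ι] [DecidableEq ι]
    (b : Module.Basis ι M M') : (Algebra.traceMatrix M b).det ≠ 0 :=
  Algebra.discr_not_zero_of_basis M b

theorem finite_diffExp_ne_zero : {Q : Place k M' | diffExp M Q ≠ 0}.Finite := by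
  classical
  set b := Module.finBasis M M' with hb
  have hT1 : (⋃ i, {P : Place k M | ∃ Q : Place k M', Q.Over P ∧ 1 < Q.v (b i)}).Finite :=
    Set.finite_iUnion fun i => finite_not_integral (b i)
  have hT2 : {P : Place k M | P.v (Algebra.traceMatrix M b).det ≠ 1}.Finite :=
    finite_setOf_v_ne_one (det_traceMatrix_ne_zero_basis b)
  refine ((hT1.union hT2).biUnion fun P _ => Place.finite_over (M' := M') P).subset fun Q hQ => ?_
  obtain ⟨P, hP, -⟩ := Place.existsUnique_below (M := M) Q
  rw [Set.mem_iUnion₂]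
  refine ⟨P, ?_, hP⟩
  by_contra hcon
  rw [Set.mem_union, not_or] at hcon
  obtain ⟨h1, h2⟩ := hcon
  refine hQ (diffExp_eq_zero_of_disc b (fun i Q' hQ' => ?_) (not_not.1 h2) hP)
  by_contra h
  exact h1 (Set.mem_iUnion.2 ⟨i, Q', hQ', not_le.1 h⟩)

end Claimed.Agent.R280
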