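import Claimed.Agent.R280.FF.ConstA
import Claimed.Agent.R280.FF.Disc
import Claimed.Agent.R280.FF.Dedekind

/-!
# Row 280, package FF, leaf FF7b (ConstB): finite separable constant field extensions are unramified and preserve
`deg`, `ell`, `chi` (Stichtenoth 3.6.3)

PROVED (helper268): no sorry of its own.

`s = Module.finBasis F S`, `b` the corresponding basis of `MS / M` (`basis_constExt`).  View `MS` as a function field over `F`
(`isFF_of_finite`), finite separable over `M` (`finite_constExt`, `isSeparable_constExt`).
* `isIntBasis_constExt`: the `b i` are algebraic over `F`, so `R.v (b i) ≤ 1` at all places `R` of `MS / F`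
  (`Place.v_eq_one_of_isAlgebraic`); `disc b` = image of `disc s ∈ F ˣ` (`traceMatrix_constExt`, `RingHom.map_det`,
  `Algebra.det_traceMatrix_ne_zero'`), so `P.v (disc b) = 1` by `P.triv`.  `isIntBasis_of_disc`.
* `Place.ramIdx_constExt`: `diffExp_eq_zero_of_disc` and `ramIdx_sub_one_le_diffExp` give `e ≤ 1`; `e > 0`.
* `sum_deg_constExt`: `sum_ramIdx_mul_deg` over `F`, `finsum_restrictConst`, `Place.deg_restrictConst`, `finrank_constExt`; cancel `[S:F]`.
* `conorm_constExt_apply`, `deg_conorm_constExt`: as in leaf Above (finite support by `Place.finite_over` + `restrictConst_injective`).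
* `ell_conorm_constExt`: `y = ∑ c_i b_i ∈ L(conorm D)` iff all `c_i ∈ L(D)` (`IsIntBasis.v_repr_le_iff` with `e = 1`); so
  `dim_F L_F(conorm_F D) = [S:F] ell D`; `finrank_LSp_restrictConst`; cancel `[S:F]`.
* `chi_constExt`: `hasChi_chi` for both fields, a divisor `D` of large degree (`exists_le_deg`).
-/

set_option autoImplicit false
set_option linter.unusedSectionVars false

namespace Claimed.Agent.R280

open WithZero

variable {F S M MS : Type*} [Field F] [Field S] [Field M] [Field MS] [Algebra F S] [Algebra F M]
  [Algebra S MS] [Algebra M MS] [Algebra F MS] [IsScalarTower F S MS] [IsScalarTower F M MS]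
  [IsFF F M] [FiniteDimensional F S] [Algebra.IsSeparable F S]

omit [IsFF F M] [Algebra.IsSeparable F S] [Field M] [Algebra F M] [Algebra M MS]
  [IsScalarTower F M MS] in
theorem ff7b_v_const_le_one (R : Place F MS) (a : S) : R.v (algebraMap S MS a) ≤ 1 := by
  by_cases h0 : algebraMap S MS a = 0
  · rw [h0, map_zero]
    exact zero_le_one
  · have halg : IsAlgebraic F (algebraMap S MS a) :=
      (Algebra.IsAlgebraic.isAlgebraic (R := F) a).algebraMap
    exact (R.v_eq_one_of_isAlgebraic halg h0).le

theorem ff7b_disc (h : Algebra.IsPushout F S M MS) {ι : Type*} [Fintype ι] [DecidableEq ι]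
    (s : Module.Basis ι F S) (b : Module.Basis ι M MS) (hb : ∀ i, b i = algebraMap S MS (s i))
    (P : Place F M) : P.v (Algebra.traceMatrix M b).det = 1 := by
  rw [traceMatrix_constExt h s b hb]
  have e : ((Algebra.traceMatrix F s).map (algebraMap F M)).det
      = algebraMap F M (Algebra.traceMatrix F s).det := by
    rw [RingHom.map_det]
    rfl
  rw [e]
  apply P.triv
  rw [Algebra.traceMatrix_of_basis]
  exact det_traceForm_ne_zero s

/-- a basis of `S/F` is an integral basis of `MS/M` at every place -/
theorem isIntBasis_constExt (h : Algebra.IsPushout F S M MS) {ι : Type*} [Finite ι]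
    (s : Module.Basis ι F S) (b : Module.Basis ι M MS) (hb : ∀ i, b i = algebraMap S MS (s i))
    (P : Place F M) : IsIntBasis (k := F) P b := by
  classical
  have := Fintype.ofFinite ι
  have := finite_constExt h
  exact isIntBasis_of_disc b (fun i Q _ => by rw [hb]; exact ff7b_v_const_le_one Q _)
    (ff7b_disc h s b hb P)

/-- separable constant field extensions are unramified -/
theorem Place.ramIdx_constExt (h : Algebra.IsPushout F S M MS) {Q : Place S MS} {P : Place F M}
    (hQ : Q.Over P) : Q.ramIdx P = 1 := by
  classical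
  have := finite_constExt h
  have := isSeparable_constExt h
  obtain ⟨b, hb⟩ := basis_constExt h (Module.finBasis F S)
  have hR : (Q.restrictConst F).Over P := hQ
  have h1 : diffExp M (Q.restrictConst F) = 0 :=
    diffExp_eq_zero_of_disc b (fun i R _ => by rw [hb]; exact ff7b_v_const_le_one R _)
      (ff7b_disc h _ b hb P) hR
  have h2 := ramIdx_sub_one_le_diffExp hR
  rw [h1, Place.ramIdx_restrictConst] at h2
  have h3 := hQ.ramIdx_pos
  omega

theorem sum_deg_constExt (h : Algebra.IsPushout F S M MS) (P : Place F M) :
    ∑ᶠ Q : Place S MS, Q.ramIdx P * Q.deg = P.deg := by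
  have := finite_constExt h
  have h1 := sum_ramIdx_mul_deg (M' := MS) P
  rw [← finsum_restrictConst (S := S), finrank_constExt h] at h1
  have h2 : ∀ Q : Place S MS, (Q.restrictConst F).ramIdx P * (Q.restrictConst F).deg
      = Module.finrank F S * (Q.ramIdx P * Q.deg) := by
    intro Q
    rw [Place.ramIdx_restrictConst, Place.deg_restrictConst]
    ring
  rw [finsum_congr h2, ← mul_finsum] at h1
  exact Nat.eq_of_mul_eq_mul_left Module.finrank_pos h1

omit [Algebra.IsSeparable F S] in
theorem ff7b_finite_over (h : Algebra.IsPushout F S M MS) (P : Place F M) :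
    {Q : Place S MS | Q.Over P}.Finite := by
  have := finite_constExt h
  exact ((Place.finite_over (M' := MS) P).preimage
    (Place.restrictConst_injective (S := S) F).injOn).subset fun Q hQ => hQ

omit [Algebra.IsSeparable F S] in
theorem ff7b_conormPlace_apply (h : Algebra.IsPushout F S M MS) (P : Place F M) (Q : Place S MS) :
    conormPlace S MS P Q = Q.ramIdx P := by
  classical
  have hsub : (Function.support fun Q : Place S MS => Finsupp.single Q (Q.ramIdx P : ℤ))
      ⊆ ((ff7b_finite_over h P).toFinset : Set (Place S MS)) := by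
    intro Q' hQ'
    rw [Set.Finite.coe_toFinset]
    by_contra h
    exact hQ' (by simp [Place.ramIdx_eq_zero h])
  rw [conormPlace, finsum_eq_sum_of_support_subset _ hsub, Finsupp.finsetSum_apply]
  simp only [Finsupp.single_apply]
  rw [Finset.sum_ite_eq']
  split_ifs with h'
  · rfl
  · rw [Set.Finite.mem_toFinset] at h'
    rw [Place.ramIdx_eq_zero h']
    rfl

theorem conorm_constExt_apply (h : Algebra.IsPushout F S M MS) (D : Dvsr F M) {Q : Place S MS}
    {P : Place F M} (hQ : Q.Over P) : conorm S MS D Q = D P := by
  rw [conorm, Finsupp.sum, Finsupp.finsetSum_apply, Finset.sum_eq_single P]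
  · rw [Finsupp.smul_apply, ff7b_conormPlace_apply h, Place.ramIdx_constExt h hQ]
    simp
  · intro P' _ hP'
    have : ¬ Q.Over P' := fun h' => hP' (h'.unique hQ)
    rw [Finsupp.smul_apply, ff7b_conormPlace_apply h, Place.ramIdx_eq_zero this]
    simp
  · intro hP
    rw [Finsupp.notMem_support_iff.1 hP]
    simp

theorem ff7b_deg_conormPlace (h : Algebra.IsPushout F S M MS) (P : Place F M) :
    (conormPlace S MS P).deg = P.deg := by
  classical
  have hsub : (conormPlace S MS P).support ⊆ (ff7b_finite_over h P).toFinset := by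
    intro Q hQ
    rw [Set.Finite.mem_toFinset]
    by_contra h'
    rw [Finsupp.mem_support_iff, ff7b_conormPlace_apply h, Place.ramIdx_eq_zero h'] at hQ
    exact hQ rfl
  rw [Dvsr.deg_eq_sum _ _ hsub]
  have h1 := sum_deg_constExt h P
  rw [finsum_eq_sum_of_support_subset _ (s := (ff7b_finite_over h P).toFinset)
    (by
      rw [Set.Finite.coe_toFinset]
      intro Q hQ
      by_contra h'
      exact hQ (by simp [Place.ramIdx_eq_zero h']))] at h1
  have h' := congrArg (Nat.cast : ℕ → ℤ) h1
  push_cast at h'
  rw [← h']
  exact Finset.sum_congr rfl fun Q _ => by rw [ff7b_conormPlace_apply h]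

theorem deg_conorm_constExt (h : Algebra.IsPushout F S M MS) (D : Dvsr F M) :
    (conorm S MS D).deg = D.deg := by
  rw [conorm, Finsupp.sum, ffAb_deg_sum, Dvsr.deg, Finsupp.sum]
  refine Finset.sum_congr rfl fun P _ => ?_
  rw [Dvsr.deg_smul, ff7b_deg_conormPlace h]

/-- `L(conorm D)` over `F` in the coordinates of an everywhere integral basis -/
theorem ff7b_ell_conorm {ι : Type*} [Fintype ι] [Module.Finite M MS] (b : Module.Basis ι M MS)
    (hb : ∀ P : Place F M, IsIntBasis (k := F) P b) (D : Dvsr F M) :
    ell (conorm F MS D) = Fintype.card ι * ell D := by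
  have hmem : ∀ y : MS, y ∈ LSp (conorm F MS D) ↔ ∀ i, b.repr y i ∈ LSp D := by
    intro y
    rw [mem_LSp_conorm_iff]
    simp only [mem_LSp]
    rw [forall_comm (α := ι)]
    exact forall_congr' fun P => (hb P).v_repr_le_iff y (D P)
  set Φ : (ι → LSp D) →ₗ[F] MS :=
    ((b.equivFun.symm.restrictScalars F : (ι → M) ≃ₗ[F] MS) : (ι → M) →ₗ[F] MS) ∘ₗ
      ((LSp D).subtype.compLeft ι) with hΦ
  have hΦapp : ∀ c : ι → LSp D, Φ c = b.equivFun.symm fun i => (c i : M) := fun c => rfl
  have hinj : Function.Injective Φ := by
    intro c c' hcc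
    rw [hΦapp, hΦapp] at hcc
    have := b.equivFun.symm.injective hcc
    funext i
    exact Subtype.ext (congrFun this i)
  have hrange : LinearMap.range Φ = LSp (conorm F MS D) := by
    ext y
    rw [hmem, LinearMap.mem_range]
    constructor
    · rintro ⟨c, rfl⟩ i
      rw [hΦapp]
      have : b.repr (b.equivFun.symm fun i => (c i : M)) i = c i := by
        rw [← Module.Basis.equivFun_apply, LinearEquiv.apply_symm_apply]
      rw [this]
      exact (c i).2
    · intro hy
      refine ⟨fun i => ⟨b.repr y i, hy i⟩, ?_⟩
      rw [hΦapp]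
      exact b.equivFun.symm_apply_apply y
  have := finite_LSp D
  unfold ell
  rw [← hrange, LinearMap.finrank_range_of_inj hinj, Module.finrank_pi_fintype]
  simp

theorem ell_conorm_constExt (h : Algebra.IsPushout F S M MS) (D : Dvsr F M) :
    ell (conorm S MS D) = ell D := by
  have := finite_constExt h
  obtain ⟨b, hb⟩ := basis_constExt h (Module.finBasis F S)
  have h1 := ff7b_ell_conorm b (fun P => isIntBasis_constExt h _ b hb P) D
  rw [Fintype.card_fin] at h1
  have h2 := finrank_LSp_restrictConst (F := F) (conorm S MS D) (conorm F MS D) (by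
    intro Q
    obtain ⟨P, hP, -⟩ := Place.existsUnique_below_constExt h Q
    have hR : (Q.restrictConst F).Over P := hP
    rw [conorm_apply D hR, conorm_constExt_apply h D hP, Place.ramIdx_restrictConst,
      Place.ramIdx_constExt h hP]
    simp)
  rw [h1] at h2
  exact (Nat.eq_of_mul_eq_mul_left Module.finrank_pos h2).symm

theorem chi_constExt (h : Algebra.IsPushout F S M MS) : chi S MS = chi F M := by
  have : IsFF S MS := isFF_constExt h
  obtain ⟨c, hc⟩ := hasChi_chi (k := F) (M := M)
  obtain ⟨c', hc'⟩ := hasChi_chi (k := S) (M := MS)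
  obtain ⟨D, hD⟩ := exists_le_deg (k := F) (M := M) (max c c')
  have h1 := hc D ((le_max_left _ _).trans hD)
  have h2 := hc' (conorm S MS D) (by rw [deg_conorm_constExt h]; exact (le_max_right _ _).trans hD)
  rw [deg_conorm_constExt h, ell_conorm_constExt h] at h2
  linarith

end Claimed.Agent.R280
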