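import Mathlib

/-!
# Row 280, package FF (function fields of one variable): definitions

`k` is an ARBITRARY field, `M/k` a function field of one variable; `k` need not be algebraically
closed in `M`.  All degrees and dimensions are taken over the stated ground field `k`.

* `IsFF k M`      : `M` is finite over `k(x)` for some transcendental `x`.
* `Place k M`     : normalised discrete valuation `M → ℤᵐ⁰`, trivial on `k`.
* `Dvsr k M`      : divisors; `Dvsr.deg`, `LSp D` (Riemann-Roch space), `ell D`.
* `chi k M`       : the constant in Riemann's theorem `ell D = deg D + chi` (`deg D` large); `nu = -2 chi`.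
* `Place.ramIdx`  : ramification index for a tower `k ⊆ M ⊆ M'`.

FROZEN once landed (owner helper129).
-/

set_option autoImplicit false

namespace Claimed.Agent.R280

open WithZero

/-- `M/k` is a function field of one variable. -/
class IsFF (k M : Type*) [Field k] [Field M] [Algebra k M] : Prop where
  exists_finite : ∃ x : M, Transcendental k x ∧ Module.Finite (IntermediateField.adjoin k {x}) M

/-- A place of `M/k`: a normalised discrete valuation of `M` that is trivial on `k`. -/
@[ext] structure Place (k M : Type*) [Field k] [Field M] [Algebra k M] where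
  /-- the valuation, written multiplicatively: `v f = exp (- ord f)` -/
  v : Valuation M ℤᵐ⁰
  surj : Function.Surjective v
  triv : ∀ a : k, a ≠ 0 → v (algebraMap k M a) = 1

namespace Place

variable {k M : Type*} [Field k] [Field M] [Algebra k M] (P : Place k M)

/-- the valuation ring of a place -/
abbrev O : ValuationSubring M := P.v.valuationSubring

theorem algebraMap_mem (a : k) : algebraMap k M a ∈ P.O := by
  rw [Valuation.mem_valuationSubring_iff]
  by_cases h : a = 0
  · simp [h]
  · exact (P.triv a h).le

/-- `k → O_P` -/
def toO : k →+* P.O := (algebraMap k M).codRestrict P.O.toSubring P.algebraMap_mem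

instance algO : Algebra k P.O := P.toO.toAlgebra

instance towerO : IsScalarTower k P.O M := IsScalarTower.of_algebraMap_eq fun _ => rfl

/-- the residue field of a place -/
abbrev Res : Type _ := IsLocalRing.ResidueField P.O

/-- the degree of a place over the ground field `k` -/
noncomputable def deg : ℕ := Module.finrank k P.Res

/-- the order of `f` at `P` (junk value `0` at `f = 0`) -/
noncomputable def ord (f : M) : ℤ := - log (P.v f)

end Place

/-- divisors of `M/k` -/
abbrev Dvsr (k M : Type*) [Field k] [Field M] [Algebra k M] : Type _ := Place k M →₀ ℤ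

section Dvsr

variable {k M : Type*} [Field k] [Field M] [Algebra k M]

/-- degree of a divisor over `k` -/
noncomputable def Dvsr.deg (D : Dvsr k M) : ℤ := D.sum fun P n => n * (P.deg : ℤ)

/-- the Riemann-Roch space `L(D) = {f | ord_P f ≥ - D P for all P}` -/
def LSp (D : Dvsr k M) : Submodule k M where
  carrier := {f | ∀ P : Place k M, P.v f ≤ exp (D P)}
  zero_mem' := fun P => by simp
  add_mem' := fun {a b} ha hb P => (P.v.map_add a b).trans (max_le (ha P) (hb P))
  smul_mem' := fun c f hf P => by
    rw [Algebra.smul_def, map_mul]
    by_cases h : c = 0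
    · simp [h]
    · rw [P.triv c h, one_mul]; exact hf P

theorem mem_LSp {D : Dvsr k M} {f : M} : f ∈ LSp D ↔ ∀ P : Place k M, P.v f ≤ exp (D P) := Iff.rfl

/-- `ℓ(D) = dim_k L(D)` -/
noncomputable def ell (D : Dvsr k M) : ℕ := Module.finrank k (LSp D)

/-- the principal divisor of `f` -/
noncomputable def divf (f : M) : Dvsr k M := ∑ᶠ P : Place k M, Finsupp.single P (P.ord f)

variable (k M)

/-- `χ` is the constant of Riemann's theorem for `M/k` -/
def HasChi (χ : ℤ) : Prop := ∃ c : ℤ, ∀ D : Dvsr k M, c ≤ D.deg → (ell D : ℤ) = D.deg + χ

open Classical in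
/-- `χ(M/k) = dim H⁰(O) - dim H¹(O)`, defined through Riemann's theorem -/
noncomputable def chi : ℤ := if h : ∃ χ, HasChi k M χ then h.choose else 0

/-- `ν = -2χ = 2g - 2` (over the ground field `k`) -/
noncomputable def nu : ℤ := -2 * chi k M

end Dvsr

section Tower

/-! The ground fields `k` (of `M`) and `k'` (of `M'`) may differ (constant field extensions). -/

variable {k k' M M' : Type*} [Field k] [Field k'] [Field M] [Field M'] [Algebra k M] [Algebra k' M']
  [Algebra M M']

/-- `Q` lies over `P` with ramification index `e` -/
def Place.OverE (Q : Place k' M') (P : Place k M) (e : ℕ) : Prop :=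
  0 < e ∧ ∀ f : M, Q.v (algebraMap M M' f) = P.v f ^ e

/-- `Q` lies over `P` -/
def Place.Over (Q : Place k' M') (P : Place k M) : Prop := ∃ e, Q.OverE P e

/-- the ramification index `e(Q|P)`; `0` if `Q` does not lie over `P` -/
noncomputable def Place.ramIdx (Q : Place k' M') (P : Place k M) : ℕ := sInf {e | Q.OverE P e}

/-- the conorm (pull-back) of a place -/
noncomputable def conormPlace (k' M' : Type*) [Field k'] [Field M'] [Algebra k' M'] [Algebra M M']
    (P : Place k M) : Dvsr k' M' := ∑ᶠ Q : Place k' M', Finsupp.single Q (Q.ramIdx P : ℤ)

/-- the conorm (pull-back) of a divisor -/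
noncomputable def conorm (k' M' : Type*) [Field k'] [Field M'] [Algebra k' M'] [Algebra M M']
    (D : Dvsr k M) : Dvsr k' M' := D.sum fun P n => n • conormPlace k' M' P

end Tower

end Claimed.Agent.R280
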