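import Claimed.Agent.R280.FF.LSpace

/-!
# Row 280, package FF, leaf FF2c (DegPrincipal): `deg (x)₀ = deg (x)_∞ = [M : k(x)]`
(Stichtenoth 1.4.11, 1.4.12)

`poleDiv x = (x)_∞`.  `deg (x)_∞ ≤ n = [M : k(x)]` is `sum_ord_mul_deg_le` for `x⁻¹`
(`finrank_adjoin_inv`).  For `≥`: let `u₁, …, u_n` be a basis of `M / k(x)` and `C ≥ 0` a divisor with
`u_j ∈ L(C)`; the `x ^ i u_j`, `0 ≤ i ≤ l`, are `k`-independent elements of `L(l B + C)`, `B = (x)_∞`
(`exists_le_ell_smul_poleDiv`).  By `ell_le_of_le`, `n (l + 1) ≤ ℓ(l B + C) ≤ ℓ(0) + l deg B + deg C` for all `l`.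
-/

set_option autoImplicit false

namespace Claimed.Agent.R280

open WithZero

variable {k M : Type*} [Field k] [Field M] [Algebra k M] [IsFF k M]

/-- the pole divisor of `x` -/
noncomputable def poleDiv (k : Type*) {M : Type*} [Field k] [Field M] [Algebra k M] (x : M) :
    Dvsr k M := ∑ᶠ P : Place k M, Finsupp.single P (max (-(P.ord x)) 0)

omit [IsFF k M] in
theorem ffD_finsum_single_apply {g : Place k M → ℤ} (hg : (Function.support g).Finite)
    (Q : Place k M) : (∑ᶠ P : Place k M, Finsupp.single P (g P)) Q = g Q := by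
  classical
  have hfin : (Function.support fun P : Place k M => Finsupp.single P (g P)).Finite := by
    refine hg.subset fun P hP => ?_
    rw [Function.mem_support] at hP ⊢
    intro h0
    exact hP (by rw [h0, Finsupp.single_zero])
  have h1 := (Finsupp.applyAddHom Q).map_finsum hfin
  simp only [Finsupp.applyAddHom_apply] at h1
  rw [h1, finsum_eq_single _ Q (fun P hP => Finsupp.single_eq_of_ne (Ne.symm hP))]
  simp

theorem ffD_finite_support_pole (x : M) :
    (Function.support fun P : Place k M => max (-(P.ord x)) 0).Finite := by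
  by_cases hx : x = 0
  · simp [hx]
  · refine (finite_setOf_v_ne_one (k := k) hx).subset fun P hP => ?_
    rw [Function.mem_support] at hP
    intro h1
    apply hP
    simp [Place.ord, h1]

theorem poleDiv_apply (x : M) (P : Place k M) : poleDiv k x P = max (-(P.ord x)) 0 :=
  ffD_finsum_single_apply (ffD_finite_support_pole x) P

theorem poleDiv_nonneg (x : M) : 0 ≤ poleDiv k x := fun P => by
  rw [poleDiv_apply]; exact le_max_right _ _

/-- every element lies in `L(C)` for some `C ≥ 0` -/
theorem exists_mem_LSp {ι : Type*} [Finite ι] (u : ι → M) :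
    ∃ C : Dvsr k M, 0 ≤ C ∧ ∀ i, u i ∈ LSp C := by
  have := Fintype.ofFinite ι
  refine ⟨∑ i, poleDiv k (u i), Finset.sum_nonneg fun i _ => poleDiv_nonneg _, fun i => ?_⟩
  have h1 : poleDiv k (u i) ≤ ∑ i, poleDiv k (u i) :=
    Finset.single_le_sum (f := fun i => poleDiv k (u i)) (fun i _ => poleDiv_nonneg _)
      (Finset.mem_univ i)
  refine LSp_mono h1 fun P => ?_
  by_cases h0 : u i = 0
  · simp [h0]
  · rw [poleDiv_apply, P.v_eq_exp_neg_ord h0, exp_le_exp]
    exact le_max_left _ _

/-- the key lower bound, used again for Riemann's theorem -/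
theorem exists_le_ell_smul_poleDiv {x : M} (hx : Transcendental k x) :
    ∃ C : Dvsr k M, 0 ≤ C ∧ ∀ l : ℕ,
      (l + 1) * Module.finrank (IntermediateField.adjoin k {x}) M ≤
        ell ((l : ℤ) • poleDiv k x + C) := by
  have hfin := IsFF.finite_adjoin hx
  obtain ⟨C, hC0, hC⟩ := exists_mem_LSp (k := k)
    (Module.finBasis (IntermediateField.adjoin k {x}) M)
  refine ⟨C, hC0, fun l => ?_⟩
  -- the powers of the generator are independent over `k`
  have hpow : LinearIndependent k
      (fun i : Fin (l + 1) => (IntermediateField.AdjoinSimple.gen k x) ^ (i : ℕ)) := by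
    have h1 : LinearIndependent k (fun i : ℕ => (Polynomial.monomial i (1 : k))) := by
      have := (Polynomial.basisMonomials k).linearIndependent
      simpa [Polynomial.coe_basisMonomials] using this
    have hgen : Transcendental k (IntermediateField.AdjoinSimple.gen k x) := by
      intro halg
      apply hx
      have := halg.algebraMap (A := M)
      rwa [IntermediateField.AdjoinSimple.algebraMap_gen] at this
    have h2 := h1.map' (Polynomial.aeval (IntermediateField.AdjoinSimple.gen k x)).toLinearMap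
      (LinearMap.ker_eq_bot.2 (transcendental_iff_injective.1 hgen))
    have h3 := h2.comp (fun i : Fin (l + 1) => (i : ℕ)) Fin.val_injective
    have h4 : ((Polynomial.aeval (IntermediateField.AdjoinSimple.gen k x)).toLinearMap ∘
        fun i : ℕ => (Polynomial.monomial i (1 : k))) ∘ (fun i : Fin (l + 1) => (i : ℕ)) =
        fun i : Fin (l + 1) => (IntermediateField.AdjoinSimple.gen k x) ^ (i : ℕ) := by
      funext i
      simp [Polynomial.aeval_monomial]
    rwa [h4] at h3
  have hind := linearIndependent_smul hpow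
    (Module.finBasis (IntermediateField.adjoin k {x}) M).linearIndependent
  -- membership
  have hmem : ∀ p : Fin (l + 1) × Fin (Module.finrank (IntermediateField.adjoin k {x}) M),
      (IntermediateField.AdjoinSimple.gen k x) ^ (p.1 : ℕ) •
        Module.finBasis (IntermediateField.adjoin k {x}) M p.2 ∈
          LSp ((l : ℤ) • poleDiv k x + C) := by
    intro p P
    have hx0 : x ≠ 0 := fun h0 => hx (h0 ▸ isAlgebraic_zero)
    rw [Algebra.smul_def, map_pow, IntermediateField.AdjoinSimple.algebraMap_gen, map_mul,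
      map_pow, Finsupp.add_apply, Finsupp.smul_apply, exp_add, poleDiv_apply]
    refine mul_le_mul' ?_ (hC p.2 P)
    rw [P.v_eq_exp_neg_ord hx0, ← exp_nsmul, exp_le_exp, smul_eq_mul, nsmul_eq_mul]
    have h1 : ((p.1 : ℕ) : ℤ) ≤ l := by
      have := p.1.2
      omega
    have h2 : -(P.ord x) ≤ max (-(P.ord x)) 0 := le_max_left _ _
    have h3 : (0 : ℤ) ≤ max (-(P.ord x)) 0 := le_max_right _ _
    have h4 : (0 : ℤ) ≤ ((p.1 : ℕ) : ℤ) := Int.natCast_nonneg _
    nlinarith
  have hind' : LinearIndependent k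
      (fun p : Fin (l + 1) × Fin (Module.finrank (IntermediateField.adjoin k {x}) M) =>
        (⟨_, hmem p⟩ : LSp ((l : ℤ) • poleDiv k x + C))) :=
    LinearIndependent.of_comp (LSp ((l : ℤ) • poleDiv k x + C)).subtype hind
  have := finite_LSp ((l : ℤ) • poleDiv k x + C)
  have h5 := hind'.fintype_card_le_finrank
  rw [Fintype.card_prod, Fintype.card_fin, Fintype.card_fin] at h5
  exact h5

theorem deg_poleDiv {x : M} (hx : Transcendental k x) :
    (poleDiv k x).deg = Module.finrank (IntermediateField.adjoin k {x}) M := by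
  have hx0 : x ≠ 0 := fun h0 => hx (h0 ▸ isAlgebraic_zero)
  apply le_antisymm
  · have h1 := sum_ord_mul_deg_le (k := k) (poleDiv k x).support (x := x⁻¹) (inv_ne_zero hx0)
      (fun P hP => by
        rw [Finsupp.mem_support_iff, poleDiv_apply] at hP
        rw [P.v_lt_one_iff (inv_ne_zero hx0), P.ord_inv]
        by_contra hcon
        exact hP (max_eq_right (by omega)))
    rw [finrank_adjoin_inv] at h1
    refine le_trans (le_of_eq ?_) h1
    rw [Dvsr.deg_eq_sum _ _ subset_rfl]
    refine Finset.sum_congr rfl fun P hP => ?_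
    rw [Finsupp.mem_support_iff, poleDiv_apply] at hP
    rw [poleDiv_apply, P.ord_inv]
    congr 1
    apply max_eq_left
    by_contra hcon
    exact hP (max_eq_right (by omega))
  · obtain ⟨C, hC0, hC⟩ := exists_le_ell_smul_poleDiv hx
    by_contra hcon
    rw [not_le] at hcon
    obtain ⟨n, hn⟩ : ∃ n : ℕ, n = Module.finrank (IntermediateField.adjoin k {x}) M := ⟨_, rfl⟩
    rw [← hn] at hcon
    obtain ⟨l, hl⟩ : ∃ l : ℕ, (ell (0 : Dvsr k M) : ℤ) + C.deg < l :=
      ⟨((ell (0 : Dvsr k M) : ℤ) + C.deg).toNat + 1, by push_cast; omega⟩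
    have h1 := hC l
    rw [← hn] at h1
    have h2 : (0 : Dvsr k M) ≤ (l : ℤ) • poleDiv k x + C :=
      add_nonneg (smul_nonneg (Int.natCast_nonneg _) (poleDiv_nonneg x)) hC0
    have h3 := ell_le_of_le h2
    rw [Dvsr.deg_add, Dvsr.deg_smul, Dvsr.deg_zero] at h3
    have h4 : ((l : ℤ) + 1) * n ≤ ell ((l : ℤ) • poleDiv k x + C) := by exact_mod_cast h1
    have h5 : (l : ℤ) * ((poleDiv k x).deg + 1) ≤ l * n :=
      mul_le_mul_of_nonneg_left (by omega) (Int.natCast_nonneg _)
    have h6 : (0 : ℤ) ≤ n := Int.natCast_nonneg _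
    nlinarith

/-- the degree of the zero divisor of `f` is `[M : k(f)]` -/
theorem sum_zeros {f : M} (hf : Transcendental k f) :
    ∑ᶠ P : Place k M, max (P.ord f) 0 * (P.deg : ℤ)
      = Module.finrank (IntermediateField.adjoin k {f}) M := by
  have hinv : Transcendental k f⁻¹ := fun h => hf (IsAlgebraic.inv_iff.1 h)
  rw [← finrank_adjoin_inv, ← deg_poleDiv hinv, Dvsr.deg_eq_sum _ _ subset_rfl]
  rw [finsum_eq_sum_of_support_subset]
  · refine Finset.sum_congr rfl fun P _ => ?_
    rw [poleDiv_apply, P.ord_inv, neg_neg]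
  · intro P hP
    rw [Function.mem_support] at hP
    rw [Finset.mem_coe, Finsupp.mem_support_iff, poleDiv_apply, P.ord_inv, neg_neg]
    exact left_ne_zero_of_mul hP

theorem divf_eq_poleDiv_sub (f : M) : divf (k := k) f = poleDiv k f⁻¹ - poleDiv k f := by
  by_cases hf : f = 0
  · simp [hf]
  · ext P
    rw [divf_apply hf, Finsupp.sub_apply, poleDiv_apply, poleDiv_apply, P.ord_inv, neg_neg]
    omega

/-- product formula -/
theorem deg_divf (f : M) : (divf (k := k) f).deg = 0 := by
  by_cases hf : Transcendental k f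
  · have hinv : Transcendental k f⁻¹ := fun h => hf (IsAlgebraic.inv_iff.1 h)
    rw [divf_eq_poleDiv_sub, Dvsr.deg_sub, deg_poleDiv hf, deg_poleDiv hinv, finrank_adjoin_inv,
      sub_self]
  · rw [Transcendental, not_not] at hf
    by_cases h0 : f = 0
    · simp [h0]
    · have h1 : divf (k := k) f = 0 := by
        ext P
        rw [divf_apply h0, Finsupp.zero_apply, Place.ord, P.v_eq_one_of_isAlgebraic hf h0]
        simp
      rw [h1, Dvsr.deg_zero]

theorem LSp_eq_bot_of_deg_neg {D : Dvsr k M} (h : D.deg < 0) : LSp D = ⊥ := by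
  rw [Submodule.eq_bot_iff]
  intro f hf
  by_contra h0
  have h1 := Dvsr.deg_mono ((mem_LSp_iff_divf h0).1 hf)
  rw [Dvsr.deg_zero, Dvsr.deg_add, deg_divf] at h1
  omega

end Claimed.Agent.R280
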