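import Claimed.Agent.R280.FF.Ord

/-!
# Row 280, package FF, leaf FF1b (ValIndep): linear independence over `k(x)` from valuations

One lemma that contains Stichtenoth 1.1.7, 1.1.15 and the independence part of 1.3.3.

Plan.  Suppose `∑ φ i • z i = 0`, `φ i ∈ k(x)` not all zero.  Elements of `k(x)` are quotients of
polynomials in `x` (`IntermediateField.mem_adjoin_simple_iff`); multiply by a common denominator and
divide by the largest common power of `X`: `φ i = aeval x (q i)`, `q i ∈ k[X]`, `c i = (q i).coeff 0`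
not all zero (if `x` is algebraic over `k` the argument still works: only `∑ aeval x (q i) * z i = 0`
and `c ≠ 0` are used; note that one must divide by powers of `X` in `k[X]`, which needs `x ≠ 0`; for
`x = 0` the statement is linear independence over `k(0) = k` and follows from `0 < v (∑ c i • z i)`).
Write `q i = C (c i) + X * r i`.  Take `v, γ` for `c`.  `v (aeval x (r i)) ≤ 1` because `v x < 1` and `v`
is trivial on `k`.  Then `v (∑ c i • z i) = v (x * ∑ aeval x (r i) * z i) ≤ v x * γ`: contradiction.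
-/

set_option autoImplicit false

namespace Claimed.Agent.R280

variable {k M : Type*} [Field k] [Field M] [Algebra k M]

theorem v_aeval_le_one {Γ₀ : Type*} [LinearOrderedCommGroupWithZero Γ₀] (v : Valuation M Γ₀)
    (hv : ∀ a : k, a ≠ 0 → v (algebraMap k M a) = 1) {x : M} (hx : v x ≤ 1) (q : Polynomial k) :
    v (Polynomial.aeval x q) ≤ 1 := by
  rw [Polynomial.aeval_eq_sum_range]
  refine Valuation.map_sum_le v fun i _ => ?_
  rw [Algebra.smul_def, map_mul, map_pow]
  have h1 : v (algebraMap k M (q.coeff i)) ≤ 1 := by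
    by_cases h0 : q.coeff i = 0
    · simp [h0]
    · exact (hv _ h0).le
  exact mul_le_one' h1 (pow_le_one' hx i)

/-- the constant coefficients of a relation vanish -/
theorem ffV_coeff_zero {Γ₀ : Type*} [LinearOrderedCommGroupWithZero Γ₀]
    {x : M} {ι : Type*} [Fintype ι] (z : ι → M)
    (h : ∀ c : ι → k, c ≠ 0 → ∃ (v : Valuation M Γ₀) (γ : Γ₀),
      (∀ a : k, a ≠ 0 → v (algebraMap k M a) = 1) ∧ v x < 1 ∧ (∀ i, v (z i) ≤ γ) ∧
        v x * γ < v (∑ i, c i • z i))
    (p : ι → Polynomial k) (hp : ∑ i, Polynomial.aeval x (p i) * z i = 0) (i : ι) : (p i).coeff 0 = 0 := by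
  by_contra hi
  have hc : (fun j => (p j).coeff 0) ≠ 0 := fun h0 => hi (congrFun h0 i)
  obtain ⟨v, γ, hv, hx, hz, hlt⟩ := h _ hc
  have e : ∀ j, Polynomial.aeval x (p j) = Polynomial.aeval x (p j).divX * x + algebraMap k M ((p j).coeff 0) := by
    intro j
    conv_lhs => rw [← Polynomial.divX_mul_X_add (p j)]
    simp
  have e2 : ∑ j, (p j).coeff 0 • z j = -(x * ∑ j, Polynomial.aeval x (p j).divX * z j) := by
    rw [eq_neg_iff_add_eq_zero, Finset.mul_sum, ← Finset.sum_add_distrib, ← hp]
    refine Finset.sum_congr rfl fun j _ => ?_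
    rw [e j, Algebra.smul_def]
    ring
  rw [e2, Valuation.map_neg, map_mul] at hlt
  have h3 : v (∑ j, Polynomial.aeval x (p j).divX * z j) ≤ γ := by
    refine Valuation.map_sum_le v fun j _ => ?_
    rw [map_mul]
    calc v (Polynomial.aeval x (p j).divX) * v (z j) ≤ 1 * γ :=
          mul_le_mul' (v_aeval_le_one v hv hx.le _) (hz j)
      _ = γ := one_mul _
  exact absurd (mul_le_mul_right h3 (v x)) (not_le.2 hlt)

theorem ffV_aeval_zero {Γ₀ : Type*} [LinearOrderedCommGroupWithZero Γ₀]
    {x : M} {ι : Type*} [Fintype ι] (z : ι → M)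
    (h : ∀ c : ι → k, c ≠ 0 → ∃ (v : Valuation M Γ₀) (γ : Γ₀),
      (∀ a : k, a ≠ 0 → v (algebraMap k M a) = 1) ∧ v x < 1 ∧ (∀ i, v (z i) ≤ γ) ∧
        v x * γ < v (∑ i, c i • z i)) (N : ℕ) :
    ∀ p : ι → Polynomial k, (∀ i, (p i).natDegree ≤ N) → ∑ i, Polynomial.aeval x (p i) * z i = 0 →
      ∀ i, Polynomial.aeval x (p i) = 0 := by
  induction N with
  | zero =>
    intro p hN hp i
    have h0 := ffV_coeff_zero z h p hp i
    rw [Polynomial.eq_C_of_natDegree_le_zero (hN i), h0]
    simp
  | succ N ih =>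
    intro p hN hp i
    have h0 := ffV_coeff_zero z h p hp
    have e : ∀ j, Polynomial.aeval x (p j) = x * Polynomial.aeval x (p j).divX := by
      intro j
      conv_lhs => rw [← Polynomial.divX_mul_X_add (p j), h0 j]
      simp [mul_comm]
    by_cases hx : x = 0
    · rw [e i, hx, zero_mul]
    · have hp' : ∑ j, Polynomial.aeval x (p j).divX * z j = 0 := by
        have : x * ∑ j, Polynomial.aeval x (p j).divX * z j = 0 := by
          rw [← hp, Finset.mul_sum]
          refine Finset.sum_congr rfl fun j _ => ?_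
          rw [e j]
          ring
        exact (mul_eq_zero.1 this).resolve_left hx
      rw [e i, ih (fun j => (p j).divX) (fun j => ?_) hp' i, mul_zero]
      rw [Polynomial.natDegree_divX_eq_natDegree_tsub_one]
      have := hN j
      omega

theorem linearIndependent_adjoin_of_valuation {Γ₀ : Type*} [LinearOrderedCommGroupWithZero Γ₀]
    {x : M} {ι : Type*} [Fintype ι] (z : ι → M)
    (h : ∀ c : ι → k, c ≠ 0 → ∃ (v : Valuation M Γ₀) (γ : Γ₀),
      (∀ a : k, a ≠ 0 → v (algebraMap k M a) = 1) ∧ v x < 1 ∧ (∀ i, v (z i) ≤ γ) ∧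
        v x * γ < v (∑ i, c i • z i)) :
    LinearIndependent (IntermediateField.adjoin k {x}) z := by
  classical
  rw [Fintype.linearIndependent_iff]
  intro g hg i
  have hrs : ∀ j, ∃ r s : Polynomial k, Polynomial.aeval x s ≠ 0 ∧
      (g j : M) * Polynomial.aeval x s = Polynomial.aeval x r := by
    intro j
    obtain ⟨r, s, hrs⟩ := (IntermediateField.mem_adjoin_simple_iff k (g j : M)).1 (g j).2
    by_cases hs : Polynomial.aeval x s = 0
    · refine ⟨0, 1, by simp, ?_⟩
      rw [hrs, hs]
      simp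
    · exact ⟨r, s, hs, by rw [hrs, div_mul_cancel₀ _ hs]⟩
  choose r s hs hr using hrs
  set D : M := ∏ j, Polynomial.aeval x (s j) with hD
  have hD0 : D ≠ 0 := Finset.prod_ne_zero_iff.2 fun j _ => hs j
  set p : ι → Polynomial k := fun j => r j * ∏ l ∈ Finset.univ.erase j, s l with hpdef
  have hpj : ∀ j, Polynomial.aeval x (p j) = (g j : M) * D := by
    intro j
    rw [hpdef]
    simp only [map_mul, map_prod]
    rw [← hr j, mul_assoc, Finset.mul_prod_erase Finset.univ (fun l => Polynomial.aeval x (s l)) (Finset.mem_univ j)]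
  have hsum : ∑ j, Polynomial.aeval x (p j) * z j = 0 := by
    have : ∑ j, Polynomial.aeval x (p j) * z j = D * ∑ j, g j • z j := by
      rw [Finset.mul_sum]
      refine Finset.sum_congr rfl fun j _ => ?_
      rw [hpj j, Algebra.smul_def]
      show _ = D * ((g j : M) * z j)
      ring
    rw [this, hg, mul_zero]
  have hfin := ffV_aeval_zero z h (Finset.univ.sup fun j => (p j).natDegree) p
    (fun j => Finset.le_sup (f := fun j => (p j).natDegree) (Finset.mem_univ j)) hsum i
  rw [hpj i] at hfin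
  have := (mul_eq_zero.1 hfin).resolve_right hD0
  exact_mod_cast this

theorem card_le_finrank_adjoin_of_valuation {Γ₀ : Type*} [LinearOrderedCommGroupWithZero Γ₀]
    {x : M} [Module.Finite (IntermediateField.adjoin k {x}) M] {ι : Type*} [Fintype ι] (z : ι → M)
    (h : ∀ c : ι → k, c ≠ 0 → ∃ (v : Valuation M Γ₀) (γ : Γ₀),
      (∀ a : k, a ≠ 0 → v (algebraMap k M a) = 1) ∧ v x < 1 ∧ (∀ i, v (z i) ≤ γ) ∧
        v x * γ < v (∑ i, c i • z i)) :
    Fintype.card ι ≤ Module.finrank (IntermediateField.adjoin k {x}) M :=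
  (linearIndependent_adjoin_of_valuation z h).fintype_card_le_finrank

end Claimed.Agent.R280
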