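import Claimed.Agent.R280.FF.Trans
import Claimed.Agent.R280.FF.ValIndep

/-!
# Row 280, package FF, leaf FF1c (Discrete): valuation rings of a function field are discrete
(Stichtenoth 1.1.6, 1.1.13)

* `Place.isDVR`, `Place.eq_of_O_eq`, `Place.eq_of_O_le` need no `IsFF`.
  `P.O` is a valuation ring whose maximal ideal is generated by a uniformiser `t` (`P.v t = exp (-1)`)
  and every nonzero element is `t ^ n * unit`.  If `P.O ≤ Q.O` and `f ∈ Q.O \ P.O` then `f⁻¹ = t ^ n u`,
  `n > 0`, so `t⁻¹ = t ^ (n - 1) * u * f ∈ Q.O`, so `Q.O = ⊤`, which contradicts surjectivity of `Q.v`.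
  Equal valuation rings: the valuations are equivalent
  (`Valuation.isEquiv_iff_valuationSubring`), an order isomorphism of `ℤᵐ⁰` is the identity; or
  directly: `Q.v t = exp (-1)` for a uniformiser `t` of `P` (it generates the maximal ideal and `Q.v` is
  onto), then `f = t ^ n u`.
* `exists_place_of_valuationSubring`: `A ≠ ⊤` contains `k`.  Choose `x ≠ 0` in the maximal ideal; `x` is
  transcendental (`transcendental_of_mem_nonunits`), `n = [M : k(x)] < ∞`.  A chain
  `x = x₁, …, x_m` of nonunits with `x_i ∈ x_{i+1} 𝔪` has `m ≤ n`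
  (`card_le_finrank_adjoin_of_valuation` with `v = A.valuation`, `γ = 1` after noting
  `v (∑ c i x i) = max` of distinct values `> v x * 1`; more precisely use `z i = x i` for `i ≥ 2` and
  `z 1 = x`, all values lie in `[v x, 1)`, so `v x * γ < v x ≤ v (∑ …)` with `γ = max v (z i) < 1`).
  Hence the ideals of `A` satisfy the ascending chain condition, `A` is a Noetherian valuation ring
  that is not a field: a DVR (`IsDiscreteValuationRing.TFAE`).  The place is
  `(IsDiscreteValuationRing.maximalIdeal A).valuation M`.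
-/

set_option autoImplicit false

namespace Claimed.Agent.R280

open WithZero

variable {k M : Type*} [Field k] [Field M] [Algebra k M]

theorem Place.isDVR (P : Place k M) : IsDiscreteValuationRing P.O := by
  have : Nontrivial (MonoidWithZeroHom.valueGroup (.ofClass P.v)) := by
    obtain ⟨t, ht⟩ := P.exists_unif
    rw [Subgroup.nontrivial_iff_exists_ne_one]
    refine ⟨Units.mk0 (P.v t) (by rw [ht]; exact exp_ne_zero),
      MonoidWithZeroHom.mem_valueGroup _ ⟨t, rfl⟩, ?_⟩
    intro h
    have h2 : P.v t = 1 := by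
      have := congrArg Units.val h
      simpa using this
    rw [ht, ← exp_zero, exp_inj] at h2
    omega
  exact Valuation.valuationSubring_isDiscreteValuationRing P.v

theorem Place.ffd_ord_zpow (P : Place k M) (f : M) (n : ℤ) : P.ord (f ^ n) = n * P.ord f := by
  rw [Place.ord, Place.ord, map_zpow₀, log_zpow]
  simp

theorem Place.ffd_mem_O_iff (P : Place k M) {f : M} (hf : f ≠ 0) : f ∈ P.O ↔ 0 ≤ P.ord f := by
  rw [Valuation.mem_valuationSubring_iff, P.v_le_one_iff hf]

theorem Place.ffd_eq_of_ord_eq {P Q : Place k M} (h : ∀ f : M, f ≠ 0 → P.ord f = Q.ord f) : P = Q := by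
  apply Place.ext
  ext f
  by_cases hf : f = 0
  · simp [hf]
  · rw [P.v_eq_exp_neg_ord hf, Q.v_eq_exp_neg_ord hf, h f hf]

theorem Place.eq_of_O_eq {P Q : Place k M} (h : P.O = Q.O) : P = Q := by
  have h0 : ∀ f : M, f ≠ 0 → (0 ≤ P.ord f ↔ 0 ≤ Q.ord f) := by
    intro f hf
    rw [← P.ffd_mem_O_iff hf, ← Q.ffd_mem_O_iff hf, h]
  obtain ⟨t, ht0, ht⟩ := P.exists_ord_eq 1
  obtain ⟨s, hs0, hs⟩ := Q.exists_ord_eq 1
  have key : ∀ f : M, f ≠ 0 → Q.ord f = P.ord f * Q.ord t := by
    intro f hf
    set n := P.ord f with hn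
    have hg0 : f * t ^ (-n) ≠ 0 := mul_ne_zero hf (zpow_ne_zero _ ht0)
    have h1 : P.ord (f * t ^ (-n)) = 0 := by
      rw [P.ord_mul hf (zpow_ne_zero _ ht0), P.ffd_ord_zpow, ht]
      omega
    have h2 : 0 ≤ Q.ord (f * t ^ (-n)) := (h0 _ hg0).1 h1.ge
    have h3 : 0 ≤ Q.ord (f * t ^ (-n))⁻¹ :=
      (h0 _ (inv_ne_zero hg0)).1 (by rw [P.ord_inv, h1]; simp)
    rw [Q.ord_inv] at h3
    have h4 : Q.ord (f * t ^ (-n)) = 0 := by omega
    rw [Q.ord_mul hf (zpow_ne_zero _ ht0), Q.ffd_ord_zpow] at h4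
    linarith
  have ha : 0 ≤ Q.ord t := (h0 t ht0).1 (by omega)
  have hb := key s hs0
  rw [hs] at hb
  have ha1 : Q.ord t = 1 := by
    rcases Int.eq_one_or_neg_one_of_mul_eq_one' hb.symm with h | h
    · exact h.2
    · omega
  refine Place.ffd_eq_of_ord_eq fun f hf => ?_
  rw [key f hf, ha1, mul_one]

/-- a place is determined by its valuation ring; there are no inclusions between them -/
theorem Place.eq_of_O_le {P Q : Place k M} (h : P.O ≤ Q.O) : P = Q := by
  refine Place.eq_of_O_eq (le_antisymm h ?_)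
  intro f hfQ
  by_contra hfP
  have hf0 : f ≠ 0 := by
    rintro rfl
    exact hfP (zero_mem _)
  have hn : P.ord f < 0 := by
    rw [P.ffd_mem_O_iff hf0] at hfP
    omega
  obtain ⟨g, hg0, hg⟩ := Q.exists_ord_eq (-1)
  have hgQ : g ∉ Q.O := by
    rw [Q.ffd_mem_O_iff hg0, hg]
    omega
  apply hgQ
  set m : ℕ := (-(P.ord g)).toNat with hm
  have h1 : g * (f⁻¹) ^ m ∈ P.O := by
    rw [P.ffd_mem_O_iff (mul_ne_zero hg0 (pow_ne_zero _ (inv_ne_zero hf0))),
      P.ord_mul hg0 (pow_ne_zero _ (inv_ne_zero hf0)), P.ord_pow, P.ord_inv]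
    have : -(P.ord g) ≤ (m : ℤ) := Int.self_le_toNat _
    nlinarith
  have h2 : g = g * (f⁻¹) ^ m * f ^ m := by
    rw [mul_assoc, ← mul_pow, inv_mul_cancel₀ hf0, one_pow, mul_one]
  rw [h2]
  exact mul_mem (h h1) (pow_mem hfQ m)

/-- for distinct places there is an element that is integral at `P` and has a pole at `Q` -/
theorem Place.exists_le_one_lt {P Q : Place k M} (h : P ≠ Q) : ∃ u : M, P.v u ≤ 1 ∧ 1 < Q.v u := by
  by_contra hcon
  push Not at hcon
  exact h (Place.eq_of_O_le fun u hu => hcon u hu)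

/-- a nonzero nonunit of a valuation ring containing `k` is transcendental -/
theorem transcendental_of_mem_nonunits (A : ValuationSubring M)
    (hk : ∀ a : k, algebraMap k M a ∈ A) {x : M} (hx : x ∈ A.nonunits) (hx0 : x ≠ 0) :
    Transcendental k x := by
  intro halg
  let i1 : Algebra k A := ((algebraMap k M).codRestrict A.toSubring hk).toAlgebra
  have i2 : IsScalarTower k A M := IsScalarTower.of_algebraMap_eq fun _ => rfl
  have h1 : IsIntegral k x⁻¹ := halg.inv.isIntegral
  have h2 : IsIntegral A x⁻¹ := h1.tower_top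
  obtain ⟨y, hy⟩ := (IsIntegrallyClosed.isIntegral_iff (R := A) (K := M)).1 h2
  have h3 : x⁻¹ ∈ A := by
    rw [← hy]
    exact y.2
  rw [ValuationSubring.mem_nonunits_iff] at hx
  rw [← A.valuation_le_one_iff, map_inv₀] at h3
  have h4 : A.valuation x ≠ 0 := (A.valuation.ne_zero_iff).2 hx0
  have h5 : 1 ≤ A.valuation x := (inv_le_one₀ (zero_lt_iff.2 h4)).1 h3
  exact absurd hx (not_lt.2 h5)

theorem ffd_val_algebraMap (A : ValuationSubring M) (hk : ∀ a : k, algebraMap k M a ∈ A) (a : k)
    (ha : a ≠ 0) : A.valuation (algebraMap k M a) = 1 := by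
  have h1 : A.valuation (algebraMap k M a) ≤ 1 := (A.valuation_le_one_iff _).2 (hk a)
  have h2 : A.valuation (algebraMap k M a⁻¹) ≤ 1 := (A.valuation_le_one_iff _).2 (hk a⁻¹)
  rw [map_inv₀, map_inv₀] at h2
  have h4 : A.valuation (algebraMap k M a) ≠ 0 :=
    (A.valuation.ne_zero_iff).2 ((map_ne_zero _).2 ha)
  exact le_antisymm h1 ((inv_le_one₀ (zero_lt_iff.2 h4)).1 h2)

/-- a DVR with fraction field `M` containing `k` is the ring of a place -/
theorem exists_place_of_isDVR (A : ValuationSubring M) (hk : ∀ a : k, algebraMap k M a ∈ A)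
    (hA : IsDiscreteValuationRing A) : ∃ P : Place k M, P.O = A := by
  set v : Valuation M ℤᵐ⁰ := (IsDiscreteValuationRing.maximalIdeal A).valuation M with hv
  have hO : v.valuationSubring = A := by
    have h := IsDiscreteValuationRing.map_algebraMap_eq_valuationSubring (A := A) (K := M)
    ext f
    have h' : f ∈ Subring.map (algebraMap A M) ⊤ ↔ f ∈ v.valuationSubring.toSubring := by rw [h]
    constructor
    · intro hf
      obtain ⟨y, -, rfl⟩ := Subring.mem_map.1 (h'.2 hf)
      exact y.2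
    · intro hf
      exact h'.1 (Subring.mem_map.2 ⟨⟨f, hf⟩, Subring.mem_top _, rfl⟩)
  have hsurj : Function.Surjective v := by
    obtain ⟨π, hπ⟩ := IsDedekindDomain.HeightOneSpectrum.valuation_exists_uniformizer M
      (IsDiscreteValuationRing.maximalIdeal A)
    intro γ
    by_cases hγ : γ = 0
    · exact ⟨0, by rw [hγ, map_zero]⟩
    · refine ⟨π ^ (-(log γ)), ?_⟩
      rw [map_zpow₀, hv, hπ, ← exp_zsmul]
      simp [exp_log hγ]
  have htriv : ∀ a : k, a ≠ 0 → v (algebraMap k M a) = 1 := by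
    intro a ha
    have h1 : v (algebraMap k M a) ≤ 1 := by
      rw [← Valuation.mem_valuationSubring_iff, hO]; exact hk a
    have h2 : v (algebraMap k M a⁻¹) ≤ 1 := by
      rw [← Valuation.mem_valuationSubring_iff, hO]; exact hk a⁻¹
    rw [map_inv₀, map_inv₀] at h2
    have h4 : v (algebraMap k M a) ≠ 0 := (v.ne_zero_iff).2 ((map_ne_zero _).2 ha)
    exact le_antisymm h1 ((inv_le_one₀ (zero_lt_iff.2 h4)).1 h2)
  exact ⟨⟨v, hsurj, htriv⟩, hO⟩

theorem ffd_Ioo_finite [IsFF k M] (A : ValuationSubring M) (hk : ∀ a : k, algebraMap k M a ∈ A)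
    {y : M} (hy0 : y ≠ 0) (hy : A.valuation y < 1) : (Set.Ioo (A.valuation y) 1).Finite := by
  classical
  have htr : Transcendental k y :=
    transcendental_of_mem_nonunits A hk ((A.mem_nonunits_iff).2 hy) hy0
  have := IsFF.finite_adjoin htr
  by_contra hinf
  obtain ⟨T, hTS, hTc⟩ := (show (Set.Ioo (A.valuation y) 1).Infinite from hinf).exists_subset_card_eq
    (Module.finrank (IntermediateField.adjoin k {y}) M + 1)
  choose zz hzz using A.valuation_surjective
  suffices hmain : ∀ c : T → k, c ≠ 0 → ∃ (v : Valuation M A.ValueGroup) (γ : A.ValueGroup),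
      (∀ a : k, a ≠ 0 → v (algebraMap k M a) = 1) ∧ v y < 1 ∧ (∀ i : T, v (zz i.1) ≤ γ) ∧
        v y * γ < v (∑ i, c i • zz i.1) by
    have key := card_le_finrank_adjoin_of_valuation (k := k) (x := y) (fun γ : T => zz γ.1) hmain
    rw [Fintype.card_coe, hTc] at key
    omega
  intro c hc
  refine ⟨A.valuation, 1, ffd_val_algebraMap A hk, hy, fun i => ?_, ?_⟩
  · rw [hzz]
    exact (hTS i.2).2.le
  · rw [mul_one]
    obtain ⟨i0, hi0⟩ : ∃ i, c i ≠ 0 := Function.ne_iff.1 hc
    set S : Finset T := Finset.univ.filter fun i => c i ≠ 0 with hS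
    obtain ⟨j, hjS, hjmax⟩ := S.exists_max_image (fun i => i.1) ⟨i0, by simp [hS, hi0]⟩
    have hcj : c j ≠ 0 := by simpa [hS] using hjS
    have hval : ∀ i, c i ≠ 0 → A.valuation (c i • zz i.1) = i.1 := by
      intro i hi
      rw [Algebra.smul_def, map_mul, ffd_val_algebraMap A hk _ hi, one_mul, hzz]
    have hsum : A.valuation (∑ i, c i • zz i.1) = A.valuation (c j • zz j.1) := by
      apply Valuation.map_sum_eq_of_lt _ (Finset.mem_univ j)
      intro i hi
      have hij : i ≠ j := by simpa using hi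
      rw [hval j hcj]
      by_cases hci : c i = 0
      · rw [hci, zero_smul, map_zero]
        exact lt_of_le_of_lt zero_le (hTS j.2).1
      · rw [hval i hci]
        exact lt_of_le_of_ne (hjmax i (by simp [hS, hci])) (fun h => hij (Subtype.ext h))
    rw [hsum, hval j hcj]
    exact (hTS j.2).1

theorem isDVR_of_valuationSubring [IsFF k M] (A : ValuationSubring M)
    (hk : ∀ a : k, algebraMap k M a ∈ A) (hA : A ≠ ⊤) : IsDiscreteValuationRing A := by
  classical
  set v := A.valuation with hv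
  have hfinIco : ∀ y : M, y ≠ 0 → v y < 1 → (Set.Ico (v y) 1).Finite := by
    intro y hy0 hy
    rw [← Set.Ioo_insert_left hy]
    exact (ffd_Ioo_finite A hk hy0 hy).insert _
  obtain ⟨x, hx0, hx⟩ : ∃ x : M, x ≠ 0 ∧ v x < 1 := by
    obtain ⟨g, hg⟩ : ∃ g : M, g ∉ A := by
      by_contra h
      push Not at h
      exact hA (eq_top_iff.2 fun g _ => h g)
    have hg1 : 1 < v g := by
      rw [← not_le, A.valuation_le_one_iff]
      exact hg
    have hg0 : g ≠ 0 := by
      rintro rfl
      exact hg (zero_mem _)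
    refine ⟨g⁻¹, inv_ne_zero hg0, ?_⟩
    rw [map_inv₀]
    exact inv_lt_one_of_one_lt₀ hg1
  obtain ⟨γ, hγ, hγmax⟩ := Set.exists_max_image (Set.Ico (v x) 1) id (hfinIco x hx0 hx)
    ⟨v x, le_rfl, hx⟩
  obtain ⟨t, ht⟩ := A.valuation_surjective γ
  have ht1 : v t < 1 := by rw [hv, ht]; exact hγ.2
  have hxt : v x ≤ v t := by rw [hv, ht]; exact hγ.1
  have hvx0 : 0 < v x := zero_lt_iff.2 ((v.ne_zero_iff).2 hx0)
  have hvt0 : 0 < v t := lt_of_lt_of_le hvx0 hxt
  have ht0 : t ≠ 0 := (v.ne_zero_iff).1 hvt0.ne'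
  have hmax : ∀ y, v y < 1 → v y ≤ v t := by
    intro y hy
    by_cases h : v x ≤ v y
    · have := hγmax (v y) ⟨h, hy⟩
      rw [hv, ht]
      exact this
    · exact (not_le.1 h).le.trans hxt
  have hpow : ∀ y, y ≠ 0 → v y ≤ 1 → ∃ n : ℕ, v y = v t ^ n := by
    intro y hy0 hy1
    rcases hy1.eq_or_lt with h | h
    · exact ⟨0, by simpa using h⟩
    have hex : ∃ j : ℕ, v t ^ j < v y := by
      by_contra hcon
      push Not at hcon
      have hinj : Function.Injective fun j : ℕ => v t ^ (j + 1) := by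
        intro a b hab
        have := pow_right_injective₀ hvt0 ht1.ne hab
        omega
      exact Set.infinite_of_injective_forall_mem hinj
        (fun j => (⟨hcon (j + 1), pow_lt_one₀ zero_le ht1 (by omega)⟩ :
          v t ^ (j + 1) ∈ Set.Ico (v y) 1)) (hfinIco y hy0 h)
    have hj := Nat.find_spec hex
    have hj0 : Nat.find hex ≠ 0 := by
      intro h0
      rw [h0, pow_zero] at hj
      exact absurd hj (not_lt.2 hy1)
    obtain ⟨m, hm⟩ := Nat.exists_eq_succ_of_ne_zero hj0
    have hm' : v y ≤ v t ^ m := not_lt.1 (Nat.find_min hex (by omega))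
    refine ⟨m, le_antisymm hm' ?_⟩
    by_contra hlt
    push Not at hlt
    have hpos : 0 < v t ^ m := pow_pos hvt0 m
    have h1 : v (y / t ^ m) < 1 := by
      rw [map_div₀, map_pow]
      exact (div_lt_one₀ hpos).2 hlt
    have h2 := hmax _ h1
    rw [map_div₀, map_pow, div_le_iff₀ hpos] at h2
    rw [hm, Nat.succ_eq_add_one, pow_succ'] at hj
    exact absurd h2 (not_le.2 hj)
  apply IsDiscreteValuationRing.ofHasUnitMulPowIrreducibleFactorization
  have htA : t ∈ A := (A.valuation_le_one_iff t).1 ht1.le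
  refine ⟨⟨t, htA⟩, ?_, ?_⟩
  · rw [irreducible_iff]
    refine ⟨fun hu => ?_, fun a b hab => ?_⟩
    · have := (A.valuation_eq_one_iff ⟨t, htA⟩).1 hu
      exact ht1.ne this
    · by_contra hcon
      push Not at hcon
      have ha : v a < 1 := lt_of_le_of_ne ((A.valuation_le_one_iff _).2 a.2)
        (fun h => hcon.1 ((A.valuation_eq_one_iff a).2 h))
      have hb : v b < 1 := lt_of_le_of_ne ((A.valuation_le_one_iff _).2 b.2)
        (fun h => hcon.2 ((A.valuation_eq_one_iff b).2 h))
      have h1 : v t = v a * v b := by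
        have := congrArg (fun z : A => v (z : M)) hab
        simpa using this
      have h2 : v a * v b ≤ v t * v b := mul_le_mul_left (hmax _ ha) _
      have h3 : v t * v b < v t * 1 := mul_lt_mul_of_pos_left hb hvt0
      rw [mul_one] at h3
      exact absurd (h1 ▸ h2.trans_lt h3) (lt_irrefl _)
  · intro y hy
    have hy0 : (y : M) ≠ 0 := by simpa using hy
    obtain ⟨n, hn⟩ := hpow y hy0 ((A.valuation_le_one_iff _).2 y.2)
    refine ⟨n, ?_⟩
    have hw : v ((y : M) / t ^ n) = 1 := by
      rw [map_div₀, map_pow, hn]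
      exact div_self (pow_pos hvt0 n).ne'
    have hwA : (y : M) / t ^ n ∈ A := (A.valuation_le_one_iff _).1 hw.le
    have hu : IsUnit (⟨(y : M) / t ^ n, hwA⟩ : A) := (A.valuation_eq_one_iff _).2 hw
    refine ⟨hu.unit, ?_⟩
    apply Subtype.ext
    simp only [IsUnit.unit_spec]
    show t ^ n * ((y : M) / t ^ n) = y
    field_simp

/-- every nontrivial valuation ring of `M` containing `k` is the ring of a place -/
theorem exists_place_of_valuationSubring [IsFF k M] (A : ValuationSubring M)
    (hk : ∀ a : k, algebraMap k M a ∈ A) (hA : A ≠ ⊤) : ∃ P : Place k M, P.O = A :=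
  exists_place_of_isDVR A hk (isDVR_of_valuationSubring A hk hA)

end Claimed.Agent.R280
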