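import Claimed.Agent.R280.FF.Above
import Claimed.Agent.R280.FF.Approx

/-!
# Row 280, package FF, leaf FF4g (Galois): transport of places, transitivity of the Galois group
(Stichtenoth 3.7.1)

* `Place.deg_transport`: `g` restricts to a ring isomorphism `P.O ≃ (gP).O`, hence `P.Res ≃+* (gP).Res`
  (`IsLocalRing.ResidueField.mapEquiv`); `hg`, `hg'` give a ring isomorphism `k ≃+* k'` compatible with the
  algebra maps; `Algebra.finrank_eq_of_equiv_equiv`.
* `Place.smulAut_over`: `(gQ).v (algebraMap f) = Q.v (g⁻¹ (algebraMap f)) = Q.v (algebraMap f)`; so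
  `(gQ).OverE P e ↔ Q.OverE P e`; degree by `deg_transport`.
* `Place.exists_smulAut_eq`: suppose `gQ ≠ Q'` for all `g`.  Then the finite sets `{gQ}` and `{gQ'}` are disjoint.
  `weak_approx`: there is `z` with `(gQ').v z < 1` and `(gQ).v (z - 1) < 1` for all `g`.  With
  `N = Algebra.norm M z`, `algebraMap N = ∏ g, g z` (`Algebra.norm_eq_prod_automorphisms`):
  `Q'.v (∏ g z) = ∏ (g⁻¹ Q').v z < 1` and `Q.v (∏ g z) = ∏ (g⁻¹ Q).v z = 1`, contradicting
  `Place.Over.v_lt_one_iff` for `Q` and `Q'`.
-/

set_option autoImplicit false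

namespace Claimed.Agent.R280

open WithZero

/-! ### transport of places along (semilinear) isomorphisms -/
section Transport

variable {k M k' M' : Type*} [Field k] [Field M] [Algebra k M] [Field k'] [Field M'] [Algebra k' M']

/-- transport of a place along a ring isomorphism `g : M ≃ M'` that maps `k` onto `k'` -/
def Place.transport (g : M ≃+* M')
    (hg : ∀ a' : k', ∃ a : k, g.symm (algebraMap k' M' a') = algebraMap k M a) (P : Place k M) :
    Place k' M' where
  v := P.v.comap g.symm.toRingHom
  surj := fun γ => by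
    obtain ⟨x, hx⟩ := P.surj γ
    exact ⟨g x, by simpa using hx⟩
  triv := fun a' ha' => by
    obtain ⟨a, ha⟩ := hg a'
    have h0 : a ≠ 0 := by
      rintro rfl
      rw [map_zero] at ha
      have : algebraMap k' M' a' = 0 := by simpa using ha
      exact ha' (by simpa using this)
    show P.v (g.symm (algebraMap k' M' a')) = 1
    rw [ha]; exact P.triv a h0

@[simp] theorem Place.transport_v_apply (g : M ≃+* M')
    (hg : ∀ a' : k', ∃ a : k, g.symm (algebraMap k' M' a') = algebraMap k M a) (P : Place k M)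
    (y : M') : (P.transport g hg).v y = P.v (g.symm y) := rfl

/-- the homomorphism of the ground fields induced by `g` -/
noncomputable def ffGHom (g : M ≃+* M')
    (hg' : ∀ a : k, ∃ a' : k', g (algebraMap k M a) = algebraMap k' M' a') : k →+* k' :=
  have spec : ∀ a, algebraMap k' M' (hg' a).choose = g (algebraMap k M a) := fun a => (hg' a).choose_spec.symm
  { toFun := fun a => (hg' a).choose
    map_one' := (algebraMap k' M').injective (by rw [spec, map_one, map_one, map_one])
    map_mul' := fun a b => (algebraMap k' M').injective (by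
      rw [spec, map_mul, map_mul, map_mul, spec, spec])
    map_zero' := (algebraMap k' M').injective (by rw [spec, map_zero, map_zero, map_zero])
    map_add' := fun a b => (algebraMap k' M').injective (by
      rw [spec, map_add, map_add, map_add, spec, spec]) }

theorem ffGHom_spec (g : M ≃+* M')
    (hg' : ∀ a : k, ∃ a' : k', g (algebraMap k M a) = algebraMap k' M' a') (a : k) :
    algebraMap k' M' (ffGHom g hg' a) = g (algebraMap k M a) := (hg' a).choose_spec.symm

/-- the isomorphism of the ground fields induced by `g` -/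
noncomputable def ffGBase (g : M ≃+* M')
    (hg : ∀ a' : k', ∃ a : k, g.symm (algebraMap k' M' a') = algebraMap k M a)
    (hg' : ∀ a : k, ∃ a' : k', g (algebraMap k M a) = algebraMap k' M' a') : k ≃+* k' :=
  RingEquiv.ofBijective (ffGHom g hg')
    ⟨(ffGHom g hg').injective,
    fun a' => by
      obtain ⟨a, ha⟩ := hg a'
      refine ⟨a, (algebraMap k' M').injective ?_⟩
      rw [ffGHom_spec, ← ha, RingEquiv.apply_symm_apply]⟩

theorem ffGBase_spec (g : M ≃+* M')
    (hg : ∀ a' : k', ∃ a : k, g.symm (algebraMap k' M' a') = algebraMap k M a)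
    (hg' : ∀ a : k, ∃ a' : k', g (algebraMap k M a) = algebraMap k' M' a') (a : k) :
    algebraMap k' M' (ffGBase g hg hg' a) = g (algebraMap k M a) := ffGHom_spec g hg' a

/-- `P.O ≃ (gP).O` -/
def ffGO (g : M ≃+* M')
    (hg : ∀ a' : k', ∃ a : k, g.symm (algebraMap k' M' a') = algebraMap k M a) (P : Place k M) :
    P.O ≃+* (P.transport g hg).O where
  toFun a := ⟨g a, by
    show P.v (g.symm (g a)) ≤ 1
    rw [RingEquiv.symm_apply_apply]
    exact a.2⟩
  invFun b := ⟨g.symm b, b.2⟩
  left_inv a := by ext; simp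
  right_inv b := by ext; simp
  map_mul' a b := by ext; simp
  map_add' a b := by ext; simp

theorem Place.deg_transport (g : M ≃+* M')
    (hg : ∀ a' : k', ∃ a : k, g.symm (algebraMap k' M' a') = algebraMap k M a)
    (hg' : ∀ a : k, ∃ a' : k', g (algebraMap k M a) = algebraMap k' M' a') (P : Place k M) :
    (P.transport g hg).deg = P.deg := by
  unfold Place.deg
  symm
  refine Algebra.finrank_eq_of_equiv_equiv (ffGBase g hg hg')
    (IsLocalRing.ResidueField.mapEquiv (ffGO g hg P)) ?_
  ext a
  show IsLocalRing.residue (P.transport g hg).O (algebraMap k' (P.transport g hg).O (ffGBase g hg hg' a)) =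
    IsLocalRing.residue (P.transport g hg).O (ffGO g hg P (algebraMap k P.O a))
  congr 1
  ext
  exact ffGBase_spec g hg hg' a

end Transport

section Galois

variable {k M M' : Type*} [Field k] [Field M] [Field M'] [Algebra k M] [Algebra k M'] [Algebra M M']
  [IsScalarTower k M M']

/-- the action of `Aut(M'/M)` on places -/
def Place.smulAut (g : M' ≃ₐ[M] M') (Q : Place k M') : Place k M' :=
  Q.transport g.toRingEquiv fun a => ⟨a, by
    rw [IsScalarTower.algebraMap_apply k M M']
    exact g.symm.commutes _⟩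

@[simp] theorem Place.smulAut_v_apply (g : M' ≃ₐ[M] M') (Q : Place k M') (y : M') :
    (Q.smulAut g).v y = Q.v (g.symm y) := rfl

theorem Place.smulAut_overE_iff (g : M' ≃ₐ[M] M') (Q : Place k M') (P : Place k M) (e : ℕ) :
    (Q.smulAut g).OverE P e ↔ Q.OverE P e := by
  simp [Place.OverE]

theorem Place.deg_smulAut (g : M' ≃ₐ[M] M') (Q : Place k M') : (Q.smulAut g).deg = Q.deg :=
  Place.deg_transport _ _ (fun a => ⟨a, by
    rw [IsScalarTower.algebraMap_apply k M M']
    exact g.commutes _⟩) Q

theorem Place.smulAut_over (g : M' ≃ₐ[M] M') {Q : Place k M'} {P : Place k M} (h : Q.Over P) :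
    (Q.smulAut g).Over P ∧ (Q.smulAut g).ramIdx P = Q.ramIdx P ∧ (Q.smulAut g).deg = Q.deg := by
  refine ⟨?_, ?_, Place.deg_smulAut g Q⟩
  · obtain ⟨e, he⟩ := h
    exact ⟨e, (Place.smulAut_overE_iff g Q P e).2 he⟩
  · unfold Place.ramIdx
    simp only [Place.smulAut_overE_iff]

/-- the Galois group is transitive on the places above `P` -/
theorem Place.exists_smulAut_eq [Module.Finite M M'] [IsGalois M M'] {Q Q' : Place k M'}
    {P : Place k M} (h : Q.Over P) (h' : Q'.Over P) : ∃ g : M' ≃ₐ[M] M', Q.smulAut g = Q' := by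
  classical
  by_contra hcon
  push Not at hcon
  -- the orbits are disjoint
  have hdisj : ∀ g g' : M' ≃ₐ[M] M', Q.smulAut g ≠ Q'.smulAut g' := by
    intro g g' heq
    apply hcon (g'.trans g.symm).symm
    ext w
    have h1 := congrArg (fun R : Place k M' => R.v (g' w)) heq
    simp only [Place.smulAut_v_apply, AlgEquiv.symm_apply_apply] at h1
    rw [Place.smulAut_v_apply, AlgEquiv.symm_symm, AlgEquiv.trans_apply, h1]
  set S : Finset (Place k M') := (Finset.univ.image fun g : M' ≃ₐ[M] M' => Q.smulAut g) ∪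
    (Finset.univ.image fun g : M' ≃ₐ[M] M' => Q'.smulAut g) with hS
  obtain ⟨z, hz⟩ := weak_approx S
    (fun R => if R ∈ (Finset.univ.image fun g : M' ≃ₐ[M] M' => Q'.smulAut g) then 0 else 1) 1
  have hlt : (exp (-1 : ℤ) : ℤᵐ⁰) < 1 := by
    rw [← exp_zero]
    exact exp_lt_exp.2 (by norm_num)
  have hz' : ∀ g : M' ≃ₐ[M] M', Q'.v (g z) < 1 := by
    intro g
    have hm : Q'.smulAut g.symm ∈ (Finset.univ.image fun g : M' ≃ₐ[M] M' => Q'.smulAut g) :=
      Finset.mem_image_of_mem _ (Finset.mem_univ _)
    have h1 := hz _ (Finset.mem_union_right _ hm)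
    rw [if_pos hm, sub_zero, Place.smulAut_v_apply, AlgEquiv.symm_symm] at h1
    exact h1.trans_lt hlt
  have hzQ : ∀ g : M' ≃ₐ[M] M', Q.v (g z) = 1 := by
    intro g
    have hm : Q.smulAut g.symm ∈ (Finset.univ.image fun g : M' ≃ₐ[M] M' => Q.smulAut g) :=
      Finset.mem_image_of_mem _ (Finset.mem_univ _)
    have hm' : Q.smulAut g.symm ∉ (Finset.univ.image fun g : M' ≃ₐ[M] M' => Q'.smulAut g) := by
      intro hmem
      obtain ⟨g', _, hg'⟩ := Finset.mem_image.1 hmem
      exact hdisj _ _ hg'.symm
    have h1 := hz _ (Finset.mem_union_left _ hm)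
    rw [if_neg hm', Place.smulAut_v_apply, AlgEquiv.symm_symm, map_sub, map_one] at h1
    have h2 := Valuation.map_one_add_of_lt Q.v (h1.trans_lt hlt)
    rwa [add_sub_cancel] at h2
  have hN := Algebra.norm_eq_prod_automorphisms M z
  have h1 : Q.v (algebraMap M M' (Algebra.norm M z)) = 1 := by
    rw [hN, map_prod]
    exact Finset.prod_eq_one fun g _ => hzQ g
  have h2 : Q'.v (algebraMap M M' (Algebra.norm M z)) < 1 := by
    rw [hN, map_prod, ← Finset.mul_prod_erase Finset.univ _ (Finset.mem_univ (1 : M' ≃ₐ[M] M'))]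
    exact (mul_le_of_le_one_right' (Finset.prod_le_one' fun g _ => (hz' g).le)).trans_lt (hz' 1)
  rw [h'.v_lt_one_iff, ← h.v_lt_one_iff, h1] at h2
  exact lt_irrefl _ h2

end Galois

end Claimed.Agent.R280
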