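import Claimed.Agent.R280.FF.Disc
import Claimed.Agent.R280.FF.Frames

/-!
# Row 280, package FF, leaf FF6d (Hurwitz): `ν(M') = n ν(M) + deg Diff`

`b = Module.finBasis M M'`, `e P` integral bases (`exists_isIntBasis`, choice), `G_b`, `G_P` the trace matrices.
`chi_eq_of_frames`: `χ' = n χ - ∑ᶠ_P ord_P det (b.toMatrix (e P)) deg P`.
`det_traceMatrix_eq`: `2 ord_P det (b.toMatrix (e P)) = ord_P det G_P - ord_P det G_b` (all three are nonzero).
* `finsum_ord_disc`: `∑ᶠ_P ord_P (det G_b) deg P = deg (divf (det G_b)) = 0` (`deg_divf`, `divf_apply`, `finite_support_ord`).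
* `finsum_fiber`: `∑ᶠ_P ∑_{Q | P} d(Q) deg Q = ∑ᶠ_Q d(Q) deg Q` (`finite_diffExp_ne_zero`, every `Q` lies over exactly one `P`:
  `Place.existsUnique_below`; use `finsum_eq_sum_of_support_subset` on both sides and `Finset.sum_fiberwise`-type lemmas).
* `ord_det_traceMatrix`: `ord_P (det G_P) deg P = ∑_{Q | P} d(Q) deg Q`.
All supports are finite: `{P | ord_P det G_P ≠ 0}` is contained in the image of `{Q | d(Q) ≠ 0}`.
-/

set_option autoImplicit false

namespace Claimed.Agent.R280

open WithZero

variable {k M M' : Type*} [Field k] [Field M] [Field M'] [Algebra k M] [Algebra k M'] [Algebra M M']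
  [IsScalarTower k M M'] [IsFF k M] [Module.Finite M M']

omit [Field M'] [Algebra k M'] [Algebra M M'] [IsScalarTower k M M'] [Module.Finite M M'] in
/-- the product formula as a `finsum` -/
theorem finsum_ord_mul_deg {f : M} (hf : f ≠ 0) :
    ∑ᶠ P : Place k M, P.ord f * (P.deg : ℤ) = 0 := by
  have h := deg_divf (k := k) f
  rw [Dvsr.deg, Finsupp.sum] at h
  rw [finsum_eq_sum_of_support_subset _ (s := (divf (k := k) f).support), ← h]
  · exact Finset.sum_congr rfl fun P _ => by rw [divf_apply hf]
  · intro P hP
    rw [Finset.mem_coe, Finsupp.mem_support_iff, divf_apply hf]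
    intro h0
    exact hP (by simp [h0])

open Classical in
/-- the inner sum over a fibre only sees the support of `g` -/
theorem ffHu_fiber_eq (below : Place k M' → Place k M) (hbelow : ∀ Q : Place k M', Q.Over (below Q))
    (g : Place k M' → ℤ) (hg : (Function.support g).Finite) (P : Place k M) :
    ∑ Q ∈ (Place.finite_over (M' := M') P).toFinset, g Q
      = ∑ Q ∈ hg.toFinset with below Q = P, g Q := by
  classical
  symm
  refine Finset.sum_subset ?_ ?_
  · intro Q hQ
    rw [Finset.mem_filter] at hQ
    rw [Set.Finite.mem_toFinset]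
    show Q.Over P
    rw [← hQ.2]
    exact hbelow Q
  · intro Q hQ hQ'
    rw [Set.Finite.mem_toFinset] at hQ
    by_contra h0
    refine hQ' (Finset.mem_filter.2 ⟨(Set.Finite.mem_toFinset _).2 h0, ?_⟩)
    exact (hbelow Q).unique hQ

open Classical in
theorem ffHu_support_fiber (below : Place k M' → Place k M) (hbelow : ∀ Q : Place k M', Q.Over (below Q))
    (g : Place k M' → ℤ) (hg : (Function.support g).Finite) :
    (Function.support fun P : Place k M =>
      ∑ Q ∈ (Place.finite_over (M' := M') P).toFinset, g Q)
      ⊆ ((hg.toFinset.image below : Finset (Place k M)) : Set (Place k M)) := by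
  classical
  intro P hP
  rw [Function.mem_support, ffHu_fiber_eq below hbelow g hg P] at hP
  obtain ⟨Q, hQ, -⟩ := Finset.exists_ne_zero_of_sum_ne_zero hP
  rw [Finset.mem_filter] at hQ
  rw [Finset.mem_coe, Finset.mem_image]
  exact ⟨Q, hQ.1, hQ.2⟩

/-- summation along the fibres of `Q ↦ Q ∩ M` -/
theorem finsum_fiber (g : Place k M' → ℤ) (hg : (Function.support g).Finite) :
    ∑ᶠ P : Place k M, ∑ Q ∈ (Place.finite_over (M' := M') P).toFinset, g Q
      = ∑ᶠ Q : Place k M', g Q := by
  classical
  choose below hbelow _ using fun Q : Place k M' => Place.existsUnique_below (M := M) Q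
  rw [finsum_eq_sum_of_support_subset _ (ffHu_support_fiber below hbelow g hg),
    finsum_eq_sum_of_support_subset g (s := hg.toFinset) (by rw [Set.Finite.coe_toFinset])]
  rw [← Finset.sum_fiberwise_of_maps_to (s := hg.toFinset) (t := hg.toFinset.image below)
    (g := below) (fun Q hQ => Finset.mem_image_of_mem _ hQ)]
  exact Finset.sum_congr rfl fun P _ => ffHu_fiber_eq below hbelow g hg P

theorem finite_support_fiber (g : Place k M' → ℤ) (hg : (Function.support g).Finite) :
    (Function.support fun P : Place k M =>
      ∑ Q ∈ (Place.finite_over (M' := M') P).toFinset, g Q).Finite := by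
  classical
  choose below hbelow _ using fun Q : Place k M' => Place.existsUnique_below (M := M) Q
  exact (Finset.finite_toSet _).subset (ffHu_support_fiber below hbelow g hg)

variable [Algebra.IsSeparable M M']

/-- **Hurwitz formula** in the form `ν(M') = [M':M] ν(M) + deg Diff`, all degrees over `k`. -/
theorem nu_eq_of_separable :
    nu k M' = Module.finrank M M' * nu k M + ∑ᶠ Q : Place k M', diffExp M Q * (Q.deg : ℤ) := by
  classical
  set b := Module.finBasis M M' with hb
  choose e he using fun P : Place k M => exists_isIntBasis (M' := M') P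
  have hchi := chi_eq_of_frames b e he
  rw [Fintype.card_fin] at hchi
  have hGb : (Algebra.traceMatrix M b).det ≠ 0 := det_traceMatrix_ne_zero_basis b
  -- the local identity
  have hloc : ∀ P : Place k M, 2 * (P.ord (b.toMatrix (e P)).det * (P.deg : ℤ))
      = (∑ Q ∈ (Place.finite_over (M' := M') P).toFinset, diffExp M Q * (Q.deg : ℤ))
        - P.ord (Algebra.traceMatrix M b).det * (P.deg : ℤ) := by
    intro P
    rw [← ord_det_traceMatrix (he P), det_traceMatrix_eq b (e P)]
    have h0 : (b.toMatrix (e P)).det ≠ 0 := by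
      intro h
      have := det_traceMatrix_ne_zero_basis (e P)
      rw [det_traceMatrix_eq b (e P), h] at this
      simp at this
    rw [P.ord_mul (pow_ne_zero 2 h0) hGb, P.ord_pow]
    push_cast
    ring
  have hg : (Function.support fun Q : Place k M' => diffExp M Q * (Q.deg : ℤ)).Finite := by
    refine (finite_diffExp_ne_zero (k := k) (M := M) (M' := M')).subset fun Q hQ h0 => hQ ?_
    simp [h0]
  have hs2 : (Function.support fun P : Place k M =>
      P.ord (Algebra.traceMatrix M b).det * (P.deg : ℤ)).Finite := by
    refine (finite_setOf_v_ne_one (k := k) hGb).subset fun P hP h1 => hP ?_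
    simp [Place.ord, h1]
  have hsum : 2 * ∑ᶠ P : Place k M, P.ord (b.toMatrix (e P)).det * (P.deg : ℤ)
      = ∑ᶠ Q : Place k M', diffExp M Q * (Q.deg : ℤ) := by
    rw [mul_finsum, finsum_congr hloc, finsum_sub_distrib (finite_support_fiber _ hg) hs2,
      finsum_fiber _ hg, finsum_ord_mul_deg hGb, sub_zero]
  rw [nu, nu, hchi, ← hsum]
  ring

end Claimed.Agent.R280
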