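import Claimed.Agent.R280.FF.Below

/-!
# Row 280, package FF, leaf FF4f (Insep): purely inseparable extensions have exactly one place above (PROVED)
-/

set_option autoImplicit false

namespace Claimed.Agent.R280

open WithZero

variable {k M M' : Type*} [Field k] [Field M] [Field M'] [Algebra k M] [Algebra k M'] [Algebra M M']

/-- purely inseparable extensions: exactly one place above -/
theorem Place.over_unique_of_purelyInseparable [IsPurelyInseparable M M'] {Q Q' : Place k M'}
    {P : Place k M} (h : Q.Over P) (h' : Q'.Over P) : Q = Q' := by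
  have key : ∀ {R : Place k M'}, R.Over P → ∀ y : M', R.v y ≤ 1 ↔
      ∃ (n : ℕ) (f : M), algebraMap M M' f = y ^ (ringExpChar M) ^ n ∧ P.v f ≤ 1 := by
    intro R hR y
    have hq : 0 < ringExpChar M := expChar_pos M (ringExpChar M)
    constructor
    · intro hy
      obtain ⟨n, f, hf⟩ := IsPurelyInseparable.pow_mem M (ringExpChar M) y
      refine ⟨n, f, hf, ?_⟩
      rw [← hR.v_le_one_iff, hf, map_pow]
      exact pow_le_one' hy _
    · rintro ⟨n, f, hf, hf'⟩
      rw [← hR.v_le_one_iff, hf, map_pow] at hf'
      exact (pow_le_one_iff (pow_pos hq n).ne').1 hf'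
  apply Place.eq_of_O_eq
  ext y
  rw [Valuation.mem_valuationSubring_iff, Valuation.mem_valuationSubring_iff, key h, key h']

end Claimed.Agent.R280
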