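import Claimed.Agent.R280.FF.ZeroBound
import Claimed.Agent.R280.FF.ResMap

/-!
# Row 280, package FF, leaf FF3a (LSpace): Riemann-Roch spaces, dimension bounds
(Stichtenoth 1.4.6 - 1.4.9)

* `LSp_add_single_ker`: choose `t` with `P.ord t = D P + 1`; `f ↦ residue (t f)` is a `k`-linear map
  `L(D + P) → P.Res` with kernel `L(D)`.  This gives `finite_LSp_add_single` and `ell_add_single_le`.
* `LSp 0` is the field of constants (`isAlgebraic_of_forall_le_one`,
  `Place.v_eq_one_of_isAlgebraic`), finite by `finite_algebraicClosure`.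
* `finite_LSp`: `L(D) ≤ L(D⁺)`, induction on `D⁺` (`Finsupp.induction` / on `∑ D⁺ P`).
* `ell_le_of_le`: induction on `D' - D ≥ 0`.
-/

set_option autoImplicit false

namespace Claimed.Agent.R280

open WithZero

variable {k M : Type*} [Field k] [Field M] [Algebra k M]

theorem LSp_mono {D D' : Dvsr k M} (h : D ≤ D') : LSp D ≤ LSp D' :=
  fun _ hf P => (hf P).trans (exp_le_exp.2 (h P))

/-- induction: adding an effective divisor one place at a time -/
theorem ffL_induction_add {p : Dvsr k M → Prop}
    (hs : ∀ (D' : Dvsr k M) (P : Place k M), p D' → p (D' + Finsupp.single P 1))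
    (E : Place k M →₀ ℕ) :
    ∀ D : Dvsr k M, p D → p (D + E.mapRange (Nat.cast : ℕ → ℤ) Nat.cast_zero) := by
  induction E using Finsupp.induction_linear with
  | zero => intro D hD; simpa using hD
  | add f g hf hg =>
    intro D hD
    rw [Finsupp.mapRange_add (fun a b => Nat.cast_add a b), ← add_assoc]
    exact hg _ (hf _ hD)
  | single P n =>
    intro D hD
    rw [Finsupp.mapRange_single]
    induction n with
    | zero => simpa using hD
    | succ n ih =>
      rw [Nat.cast_succ, Finsupp.single_add, ← add_assoc]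
      exact hs _ _ ih

theorem ffL_induction_le {p : Dvsr k M → Prop}
    (hs : ∀ (D' : Dvsr k M) (P : Place k M), p D' → p (D' + Finsupp.single P 1))
    {D D' : Dvsr k M} (h : D ≤ D') (h0 : p D) : p D' := by
  have h1 := ffL_induction_add hs ((D' - D).mapRange Int.toNat rfl) D h0
  have h2 : D + ((D' - D).mapRange Int.toNat rfl).mapRange (Nat.cast : ℕ → ℤ) Nat.cast_zero
      = D' := by
    ext P
    have := h P
    simp only [Finsupp.add_apply, Finsupp.mapRange_apply, Finsupp.sub_apply]
    omega
  rwa [h2] at h1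

variable [IsFF k M]

/-- the map `L(D + P) → P.Res` with kernel `L(D)` -/
theorem exists_LSp_add_single_map (D : Dvsr k M) (P : Place k M) :
    ∃ φ : LSp (D + Finsupp.single P 1) →ₗ[k] P.Res,
      ∀ f, φ f = 0 ↔ (f : M) ∈ LSp D := by
  classical
  obtain ⟨t, ht0, ht⟩ := P.exists_ord_eq (D P + 1)
  have hX : ∀ f ∈ LSp (D + Finsupp.single P 1), P.v (t * f) ≤ 1 := by
    intro f hf
    have h1 := hf P
    rw [← exp_zero, P.v_mul_le_exp_iff ht0, ht, zero_add]
    simpa using h1
  refine ⟨P.resMap t _ hX, fun f => ?_⟩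
  rw [P.resMap_eq_zero_iff, ← exp_zero, P.v_mul_lt_exp_iff ht0, ht, zero_add,
    P.v_lt_exp_add_one_iff, mem_LSp]
  constructor
  · intro h1 Q
    by_cases hQ : Q = P
    · rw [hQ]; exact h1
    · have h2 := f.2 Q
      rwa [Finsupp.add_apply, Finsupp.single_apply, if_neg (Ne.symm hQ), add_zero] at h2
  · intro h1
    exact h1 P

theorem mem_LSp_zero_iff {f : M} : f ∈ LSp (0 : Dvsr k M) ↔ IsAlgebraic k f := by
  rw [mem_LSp]
  simp only [Finsupp.zero_apply, exp_zero]
  constructor
  · exact isAlgebraic_of_forall_le_one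
  · intro hf P
    by_cases h0 : f = 0
    · simp [h0]
    · exact (P.v_eq_one_of_isAlgebraic hf h0).le

/-- the kernel of the residue map is `L(D)` -/
theorem ffL_ker_equiv (D : Dvsr k M) (P : Place k M)
    (φ : LSp (D + Finsupp.single P 1) →ₗ[k] P.Res) (hφ : ∀ f, φ f = 0 ↔ (f : M) ∈ LSp D) :
    Nonempty (LinearMap.ker φ ≃ₗ[k] LSp D) := by
  classical
  have hle : LSp D ≤ LSp (D + Finsupp.single P 1) := LSp_mono (by
    intro Q
    rw [Finsupp.add_apply]
    have : (0 : ℤ) ≤ Finsupp.single P (1 : ℤ) Q := by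
      rw [Finsupp.single_apply]; split_ifs <;> norm_num
    omega)
  have hker : LinearMap.ker φ = (LSp D).comap (LSp (D + Finsupp.single P 1)).subtype := by
    ext f
    rw [LinearMap.mem_ker, hφ]
    rfl
  rw [hker]
  exact ⟨Submodule.comapSubtypeEquivOfLe hle⟩

theorem ffL_finite_zero : Module.Finite k (LSp (0 : Dvsr k M)) := by
  have h1 := finite_algebraicClosure (k := k) (M := M)
  have h2 : LSp (0 : Dvsr k M) = Subalgebra.toSubmodule (algebraicClosure k M).toSubalgebra := by
    ext f
    rw [mem_LSp_zero_iff]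
    exact mem_algebraicClosure_iff.symm
  rw [h2]
  exact h1

theorem ffL_finite_add_single (D : Dvsr k M) (P : Place k M) (h : Module.Finite k (LSp D)) :
    Module.Finite k (LSp (D + Finsupp.single P 1)) := by
  obtain ⟨φ, hφ⟩ := exists_LSp_add_single_map D P
  obtain ⟨e⟩ := ffL_ker_equiv D P φ hφ
  have := P.finite_res
  have h1 : Module.Finite k (LinearMap.ker φ) := Module.Finite.equiv e.symm
  have h2 : Module.Finite k (LSp (D + Finsupp.single P 1) ⧸ LinearMap.ker φ) :=
    Module.Finite.equiv φ.quotKerEquivRange.symm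
  exact Module.Finite.of_submodule_quotient (LinearMap.ker φ)

theorem finite_LSp (D : Dvsr k M) : Module.Finite k (LSp D) := by
  have h0 : (0 : Dvsr k M) ≤ D.mapRange (fun n => max n 0) (by simp) := fun P => by simp
  have h1 : D ≤ D.mapRange (fun n => max n 0) (by simp) := fun P => by simp
  have h2 : Module.Finite k (LSp (D.mapRange (fun n => max n 0) (by simp))) :=
    ffL_induction_le (p := fun D' => Module.Finite k (LSp D')) ffL_finite_add_single h0
      ffL_finite_zero
  exact Module.Finite.of_injective (Submodule.inclusion (LSp_mono h1))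
    (Submodule.inclusion_injective _)

theorem ell_mono {D D' : Dvsr k M} (h : D ≤ D') : ell D ≤ ell D' :=
  have := finite_LSp D'
  Submodule.finrank_mono (LSp_mono h)

theorem ell_add_single_le (D : Dvsr k M) (P : Place k M) :
    ell (D + Finsupp.single P 1) ≤ ell D + P.deg := by
  obtain ⟨φ, hφ⟩ := exists_LSp_add_single_map D P
  obtain ⟨e⟩ := ffL_ker_equiv D P φ hφ
  have := P.finite_res
  have := finite_LSp (D + Finsupp.single P 1)
  have h1 := LinearMap.finrank_range_add_finrank_ker φ
  have h2 : Module.finrank k (LinearMap.range φ) ≤ P.deg := Submodule.finrank_le _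
  have h3 : Module.finrank k (LinearMap.ker φ) = ell D := e.finrank_eq
  unfold ell at *
  omega

/-- `ℓ(D') - ℓ(D) ≤ deg D' - deg D` for `D ≤ D'` -/
theorem ell_le_of_le {D D' : Dvsr k M} (h : D ≤ D') :
    (ell D' : ℤ) ≤ ell D + (D'.deg - D.deg) := by
  refine ffL_induction_le (p := fun D' => (ell D' : ℤ) ≤ ell D + (D'.deg - D.deg)) ?_ h (by simp)
  intro D' P ih
  have h1 := ell_add_single_le D' P
  rw [Dvsr.deg_add, Dvsr.deg_single]
  omega

theorem ell_zero_pos : 0 < ell (0 : Dvsr k M) := by
  have := finite_LSp (0 : Dvsr k M)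
  have h1 : (1 : M) ∈ LSp (0 : Dvsr k M) := mem_LSp_zero_iff.2 isAlgebraic_one
  have : Nontrivial (LSp (0 : Dvsr k M)) :=
    ⟨⟨⟨1, h1⟩, 0, fun h => one_ne_zero (congrArg Subtype.val h)⟩⟩
  exact Module.finrank_pos

theorem ell_add_divf (D : Dvsr k M) {f : M} (hf : f ≠ 0) : ell (D + divf f) = ell D := by
  have hinj : Function.Injective (LinearMap.mulLeft k f) := fun a b hab =>
    mul_left_cancel₀ hf hab
  have hmap : (LSp (D + divf f)).map (LinearMap.mulLeft k f) = LSp D := by
    ext g
    rw [Submodule.mem_map]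
    constructor
    · rintro ⟨g', hg', rfl⟩ P
      have h1 := hg' P
      rw [Finsupp.add_apply, divf_apply hf] at h1
      rw [LinearMap.mulLeft_apply, P.v_mul_le_exp_iff hf]
      exact h1
    · intro hg
      refine ⟨f⁻¹ * g, fun P => ?_, by simp [hf]⟩
      rw [Finsupp.add_apply, divf_apply hf, ← P.v_mul_le_exp_iff hf, mul_inv_cancel_left₀ hf]
      exact hg P
  unfold ell
  rw [← hmap]
  exact (Submodule.equivMapOfInjective _ hinj _).finrank_eq

/-- `f ∈ L(D)`, `f ≠ 0` iff `div f + D ≥ 0` -/
theorem mem_LSp_iff_divf {D : Dvsr k M} {f : M} (hf : f ≠ 0) : f ∈ LSp D ↔ 0 ≤ divf f + D := by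
  rw [mem_LSp]
  refine forall_congr' fun P => ?_
  rw [P.v_le_exp_iff hf, Finsupp.add_apply, divf_apply hf, Finsupp.zero_apply]
  constructor <;> intro h <;> omega

end Claimed.Agent.R280
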