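import Claimed.Agent.R280.FF.DegPrincipal

/-!
# Row 280, package FF, leaf FF3b (Riemann): Riemann's theorem (Stichtenoth 1.4.14 - 1.4.17)

`k` need not be the full field of constants; this plays no role in the proofs.
* `deg_sub_ell_mono`: `D ≤ D' → deg D - ℓ(D) ≤ deg D' - ℓ(D')` (`ell_le_of_le`).
* `exists_deg_sub_ell_le`: fix a transcendental `x`, `B = (x)_∞`.  By `exists_le_ell_smul_poleDiv`,
  `deg_poleDiv`, `ell_le_of_le`: `deg (l B) - ℓ(l B) ≤ γ` for all `l`.  For arbitrary `D` put `D₁ = D⁺`;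
  `ℓ(l B - D₁) ≥ ℓ(l B) - deg D₁ > 0` for large `l`; `0 ≠ z ∈ L(l B - D₁)`; `D₁ - div z ≤ l B`;
  `deg D - ℓ(D) ≤ deg D₁ - ℓ(D₁) = deg (D₁ - div z) - ℓ(D₁ - div z) ≤ γ`
  (`ell_add_divf`, `deg_divf`).
* `hasChi_chi`: let `γ₀` be the maximum of `deg D - ℓ(D)`, attained at `D₀`; `χ = -γ₀`, `c = deg D₀ + γ₀ + 1`.
  If `deg D ≥ c` then `ℓ(D - D₀) ≥ deg (D - D₀) - γ₀ ≥ 1`; `z`; `D + div z ≥ D₀`, so
  `deg D - ℓ(D) ≥ deg D₀ - ℓ(D₀) = γ₀`.
-/

set_option autoImplicit false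

namespace Claimed.Agent.R280

open WithZero

variable {k M : Type*} [Field k] [Field M] [Algebra k M] [IsFF k M]

theorem deg_sub_ell_mono {D D' : Dvsr k M} (h : D ≤ D') :
    D.deg - ell D ≤ D'.deg - ell D' := by
  have := ell_le_of_le h
  omega

omit [IsFF k M] in
theorem ffR_exists_ne_zero {D : Dvsr k M} (h : 0 < ell D) : ∃ z ∈ LSp D, z ≠ 0 := by
  have hne : LSp D ≠ ⊥ := by
    intro h0
    unfold ell at h
    rw [h0, finrank_bot] at h
    exact lt_irrefl _ h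
  exact Submodule.exists_mem_ne_zero_of_ne_bot hne

/-- `deg - ℓ` is invariant under linear equivalence -/
theorem ffR_deg_sub_ell_add_divf (D : Dvsr k M) {z : M} (hz : z ≠ 0) :
    (D + divf z).deg - ell (D + divf z) = D.deg - ell D := by
  rw [Dvsr.deg_add, deg_divf, ell_add_divf D hz, add_zero]

theorem exists_deg_sub_ell_le : ∃ γ : ℤ, ∀ D : Dvsr k M, D.deg - ell D ≤ γ := by
  obtain ⟨x, hx⟩ := IsFF.exists_transcendental k M
  obtain ⟨C, hC0, hC⟩ := exists_le_ell_smul_poleDiv hx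
  have hn := finrank_adjoin_pos hx
  have hdeg := deg_poleDiv hx
  obtain ⟨n, hn'⟩ : ∃ n : ℕ, n = Module.finrank (IntermediateField.adjoin k {x}) M := ⟨_, rfl⟩
  rw [← hn'] at hn hdeg
  -- the bound for the multiples of `B`
  have hB : ∀ l : ℕ, ((l : ℤ) • poleDiv k x).deg - ell ((l : ℤ) • poleDiv k x) ≤ C.deg - n := by
    intro l
    have h1 := hC l
    rw [← hn'] at h1
    have h2 : (l : ℤ) • poleDiv k x ≤ (l : ℤ) • poleDiv k x + C := le_add_of_nonneg_right hC0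
    have h3 := ell_le_of_le h2
    rw [Dvsr.deg_add] at h3
    rw [Dvsr.deg_smul, hdeg]
    have h4 : ((l : ℤ) + 1) * n ≤ ell ((l : ℤ) • poleDiv k x + C) := by exact_mod_cast h1
    linarith
  refine ⟨C.deg - n, fun D => ?_⟩
  obtain ⟨D₁, hD₁, hD₁0⟩ : ∃ D₁ : Dvsr k M, D ≤ D₁ ∧ 0 ≤ D₁ :=
    ⟨D.mapRange (fun n => max n 0) (by simp), fun P => by simp, fun P => by simp⟩
  obtain ⟨l, hl⟩ : ∃ l : ℕ, C.deg - n + D₁.deg < l :=
    ⟨(C.deg - n + D₁.deg).toNat + 1, by push_cast; omega⟩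
  -- `ℓ(l B - D₁) > 0`
  have h1 : 0 < ell ((l : ℤ) • poleDiv k x - D₁) := by
    have h2 : (l : ℤ) • poleDiv k x - D₁ ≤ (l : ℤ) • poleDiv k x := sub_le_self _ hD₁0
    have h3 := ell_le_of_le h2
    have h4 := hB l
    rw [Dvsr.deg_sub] at h3
    rw [Dvsr.deg_smul, hdeg] at h3 h4
    have h5 : (l : ℤ) * 1 ≤ l * n :=
      mul_le_mul_of_nonneg_left (by exact_mod_cast hn) (Int.natCast_nonneg _)
    have h6 : (0 : ℤ) < ell ((l : ℤ) • poleDiv k x - D₁) := by linarith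
    exact_mod_cast h6
  obtain ⟨z, hz, hz0⟩ := ffR_exists_ne_zero h1
  have h2 : D₁ + divf z⁻¹ ≤ (l : ℤ) • poleDiv k x := by
    have h3 := (mem_LSp_iff_divf hz0).1 hz
    rw [divf_inv]
    intro P
    have h4 := h3 P
    simp only [Finsupp.add_apply, Finsupp.sub_apply, Finsupp.neg_apply, Finsupp.zero_apply] at h4 ⊢
    omega
  calc D.deg - ell D ≤ D₁.deg - ell D₁ := deg_sub_ell_mono hD₁
    _ = (D₁ + divf z⁻¹).deg - ell (D₁ + divf z⁻¹) :=
        (ffR_deg_sub_ell_add_divf D₁ (inv_ne_zero hz0)).symm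
    _ ≤ ((l : ℤ) • poleDiv k x).deg - ell ((l : ℤ) • poleDiv k x) := deg_sub_ell_mono h2
    _ ≤ C.deg - n := hB l

theorem exists_hasChi : ∃ χ : ℤ, HasChi k M χ ∧ ∀ D : Dvsr k M, D.deg + χ ≤ ell D := by
  obtain ⟨γ, hγ⟩ := exists_deg_sub_ell_le (k := k) (M := M)
  obtain ⟨γ₀, ⟨D₀, hD₀⟩, hmax⟩ := Int.exists_greatest_of_bdd
    (P := fun z => ∃ D : Dvsr k M, D.deg - ell D = z)
    ⟨γ, by rintro z ⟨D, rfl⟩; exact hγ D⟩ ⟨_, 0, rfl⟩
  have hle : ∀ D : Dvsr k M, D.deg - ell D ≤ γ₀ := fun D => hmax _ ⟨D, rfl⟩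
  refine ⟨-γ₀, ⟨D₀.deg + γ₀ + 1, fun D hD => ?_⟩, fun D => by have := hle D; omega⟩
  have h1 : 0 < ell (D - D₀) := by
    have h2 := hle (D - D₀)
    rw [Dvsr.deg_sub] at h2
    omega
  obtain ⟨z, hz, hz0⟩ := ffR_exists_ne_zero h1
  have h2 : D₀ ≤ D + divf z := by
    have h3 := (mem_LSp_iff_divf hz0).1 hz
    intro P
    have h4 := h3 P
    simp only [Finsupp.add_apply, Finsupp.sub_apply, Finsupp.zero_apply] at h4 ⊢
    omega
  have h3 := deg_sub_ell_mono h2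
  rw [ffR_deg_sub_ell_add_divf D hz0, hD₀] at h3
  have h4 := hle D
  omega

/-- there are divisors of arbitrarily large degree -/
theorem exists_le_deg (c : ℤ) : ∃ D : Dvsr k M, c ≤ D.deg := by
  obtain ⟨P⟩ := exists_place k M
  refine ⟨Finsupp.single P (c.toNat : ℤ), ?_⟩
  rw [Dvsr.deg_single]
  have h1 := P.deg_pos
  have h2 : (c.toNat : ℤ) * 1 ≤ c.toNat * P.deg :=
    mul_le_mul_of_nonneg_left (by exact_mod_cast h1) (Int.natCast_nonneg _)
  have h3 := Int.self_le_toNat c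
  omega

theorem HasChi.unique {χ χ' : ℤ} (h : HasChi k M χ) (h' : HasChi k M χ') : χ = χ' := by
  obtain ⟨c, hc⟩ := h
  obtain ⟨c', hc'⟩ := h'
  obtain ⟨D, hD⟩ := exists_le_deg (k := k) (M := M) (max c c')
  have h1 := hc D (le_trans (le_max_left _ _) hD)
  have h2 := hc' D (le_trans (le_max_right _ _) hD)
  omega

/-- **Riemann's theorem** -/
theorem hasChi_chi : HasChi k M (chi k M) := by
  have h : ∃ χ, HasChi k M χ := let ⟨χ, h, _⟩ := exists_hasChi (k := k) (M := M); ⟨χ, h⟩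
  unfold chi
  rw [dif_pos h]
  exact h.choose_spec

/-- Riemann's inequality -/
theorem riemann_ineq (D : Dvsr k M) : D.deg + chi k M ≤ ell D := by
  obtain ⟨χ, h, h'⟩ := exists_hasChi (k := k) (M := M)
  rw [HasChi.unique hasChi_chi h]
  exact h' D

/-- a function whose only pole is `P` -/
theorem exists_pole_only_at (P : Place k M) :
    ∃ x : M, Transcendental k x ∧ 1 < P.v x ∧ ∀ Q : Place k M, Q ≠ P → Q.v x ≤ 1 := by
  classical
  obtain ⟨l, hl⟩ : ∃ l : ℕ, (ell (0 : Dvsr k M) : ℤ) - chi k M < l :=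
    ⟨((ell (0 : Dvsr k M) : ℤ) - chi k M).toNat + 1, by push_cast; omega⟩
  have h1 : ell (0 : Dvsr k M) < ell (Finsupp.single P (l : ℤ)) := by
    have h2 := riemann_ineq (Finsupp.single P (l : ℤ))
    rw [Dvsr.deg_single] at h2
    have h3 := P.deg_pos
    have h4 : (l : ℤ) * 1 ≤ l * P.deg :=
      mul_le_mul_of_nonneg_left (by exact_mod_cast h3) (Int.natCast_nonneg _)
    omega
  have h2 : ∃ x ∈ LSp (Finsupp.single P (l : ℤ)), x ∉ LSp (0 : Dvsr k M) := by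
    by_contra hcon
    push Not at hcon
    have := finite_LSp (0 : Dvsr k M)
    have h3 : ell (Finsupp.single P (l : ℤ)) ≤ ell (0 : Dvsr k M) :=
      Submodule.finrank_mono hcon
    omega
  obtain ⟨x, hx, hx0⟩ := h2
  have hQ : ∀ Q : Place k M, Q ≠ P → Q.v x ≤ 1 := by
    intro Q hQ
    have h3 := hx Q
    rwa [Finsupp.single_apply, if_neg (Ne.symm hQ), exp_zero] at h3
  refine ⟨x, fun halg => hx0 (mem_LSp_zero_iff.2 halg), ?_, hQ⟩
  by_contra hcon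
  rw [not_lt] at hcon
  apply hx0
  intro Q
  rw [Finsupp.zero_apply, exp_zero]
  by_cases hQP : Q = P
  · rw [hQP]; exact hcon
  · exact hQ Q hQP

/-- a function whose only zero is `P` -/
theorem exists_zero_only_at (P : Place k M) :
    ∃ x : M, Transcendental k x ∧ P.v x < 1 ∧ ∀ Q : Place k M, Q ≠ P → 1 ≤ Q.v x := by
  obtain ⟨x, hx, hP, hQ⟩ := exists_pole_only_at P
  have hx0 : x ≠ 0 := fun h0 => hx (h0 ▸ isAlgebraic_zero)
  refine ⟨x⁻¹, fun h => hx (IsAlgebraic.inv_iff.1 h), ?_, fun Q hQP => ?_⟩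
  · rw [map_inv₀]
    exact inv_lt_one_of_one_lt₀ hP
  · rw [map_inv₀]
    exact (one_le_inv₀ (zero_lt_iff.2 (Q.v_ne_zero hx0))).2 (hQ Q hQP)

end Claimed.Agent.R280
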