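import Claimed.Agent.R280.FF.LocalIndex
import Claimed.Agent.R280.FF.Riemann

/-!
# Row 280, package FF, leaf FF5e (Lattice): Riemann's theorem for vector bundles given by local frames (PROVED)

`B P ∈ GL_ι(M)` for every place `P`, `B P = 1` for almost all `P`.
`HS B D = {c ∈ M ^ ι | (B P)⁻¹ c ∈ π_P ^ (- D P) O_P ^ ι for all P}`.

`exists_finrank_HS`: for `deg D` large, `dim_k HS B D = n (deg D + χ) - ∑_P ord_P (det (B P)) deg P`.

Plan.  `S = {P | B P ≠ 1}` (finite).  `exists_lat_sandwich`: one `r` for all `P ∈ S`.  `E = ∑_{P ∈ S} r P`.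
`HS 1 D' = (LSp D') ^ ι` has dimension `n ell D'` (`finrank_HS_one`).  With `c` from `hasChi_chi` take `c₀ = c + deg E`.
For `c₀ ≤ deg D` apply `finrank_inf_iInf_of_sandwich` to `W = ⨅ P ∉ S, lat P 1 (D P)`,
`A P = lat P 1 (D P - r)`, `Λ P = lat P (B P) (D P)`, `C P = lat P 1 (D P + r)`:
`X(A) = HS 1 (D - E)`, `X(C) = HS 1 (D + E)`, `X(Λ) = HS B D`; `hcount`:
`n (deg D + deg E + χ) = n (deg D - deg E + χ) + ∑_{P ∈ S} 2 n r deg P` by `relDim_lat`.  Result:
`dim HS B D = n (deg D - deg E + χ) + ∑_{P ∈ S} (n r - ord det (B P)) deg P`.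
-/

set_option autoImplicit false

namespace Claimed.Agent.R280

open WithZero

variable {k M : Type*} [Field k] [Field M] [Algebra k M] {ι : Type*} [Fintype ι] [DecidableEq ι]

/-- global sections of the lattice family `B`, twisted by `D` -/
def HS (B : Place k M → Matrix ι ι M) (D : Dvsr k M) : Submodule k (ι → M) :=
  ⨅ P : Place k M, lat P (B P) (D P)

theorem mem_HS {B : Place k M → Matrix ι ι M} {D : Dvsr k M} {c : ι → M} :
    c ∈ HS B D ↔ ∀ (P : Place k M) (i : ι), P.v (((B P)⁻¹.mulVec c) i) ≤ exp (D P) := by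
  simp [HS, Submodule.mem_iInf, mem_lat]

theorem mem_HS_one {D : Dvsr k M} {c : ι → M} :
    c ∈ HS (fun _ => (1 : Matrix ι ι M)) D ↔ ∀ i, c i ∈ LSp D := by
  simp only [mem_HS, inv_one, Matrix.one_mulVec, mem_LSp]
  exact forall_comm

variable [IsFF k M]

/-- `HS 1 D = (LSp D) ^ ι` -/
def HSOneEquiv (D : Dvsr k M) : HS (fun _ => (1 : Matrix ι ι M)) D ≃ₗ[k] (ι → LSp D) where
  toFun c := fun i => ⟨c.1 i, (mem_HS_one.1 c.2) i⟩
  invFun f := ⟨fun i => f i, mem_HS_one.2 fun i => (f i).2⟩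
  map_add' _ _ := rfl
  map_smul' _ _ := rfl
  left_inv _ := rfl
  right_inv _ := rfl

theorem finrank_HS_one (D : Dvsr k M) :
    Module.Finite k (HS (fun _ => (1 : Matrix ι ι M)) D) ∧
      Module.finrank k (HS (fun _ => (1 : Matrix ι ι M)) D) = Fintype.card ι * ell D := by
  have := finite_LSp D
  refine ⟨Module.Finite.equiv (HSOneEquiv (ι := ι) D).symm, ?_⟩
  rw [(HSOneEquiv (ι := ι) D).finrank_eq, Module.finrank_pi_fintype]
  simp [ell]

omit [IsFF k M] [Fintype ι] [DecidableEq ι] in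
/-- splitting the conditions into those on `S` and those outside `S` -/
theorem inf_iInf_eq_iInf (S : Finset (Place k M)) (Y Y' : Place k M → Submodule k (ι → M))
    (h : ∀ P ∉ S, Y' P = Y P) :
    ((⨅ (P : Place k M) (_ : P ∉ S), Y P) ⊓ ⨅ P ∈ S, Y' P : Submodule k (ι → M)) = ⨅ P, Y' P := by
  ext c
  simp only [Submodule.mem_inf, Submodule.mem_iInf]
  constructor
  · rintro ⟨h1, h2⟩ P
    by_cases hP : P ∈ S
    · exact h2 P hP
    · rw [h P hP]; exact h1 P hP
  · intro h1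
    exact ⟨fun P hP => by rw [← h P hP]; exact h1 P, fun P _ => h1 P⟩

/-- **Riemann's theorem for lattice families** -/
theorem exists_finrank_HS (B : Place k M → Matrix ι ι M) (hB : ∀ P, IsUnit (B P).det)
    (hS : {P | B P ≠ 1}.Finite) :
    ∃ c₀ : ℤ, ∀ D : Dvsr k M, c₀ ≤ D.deg →
      (Module.finrank k (HS B D) : ℤ) = Fintype.card ι * (D.deg + chi k M)
        - ∑ᶠ P : Place k M, P.ord (B P).det * (P.deg : ℤ) := by
  classical
  set S := hS.toFinset with hSdef
  have hBS : ∀ P ∉ S, B P = 1 := by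
    intro P hP
    by_contra h
    exact hP (by rw [hSdef, Set.Finite.mem_toFinset]; exact h)
  choose r₀ hr₀ using fun P => exists_lat_sandwich P (B P) (hB P)
  set r : ℕ := ∑ P ∈ S, r₀ P with hr
  have hrP : ∀ P ∈ S, r₀ P ≤ r := fun P hP =>
    Finset.single_le_sum (f := r₀) (fun _ _ => Nat.zero_le _) hP
  set E : Dvsr k M := ∑ P ∈ S, Finsupp.single P (r : ℤ) with hE
  have hEapp : ∀ Q, E Q = if Q ∈ S then (r : ℤ) else 0 := by
    intro Q
    rw [hE, Finsupp.finsetSum_apply]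
    simp only [Finsupp.single_apply]
    rw [Finset.sum_ite_eq' S Q]
  have hEdeg : E.deg = ∑ P ∈ S, (r : ℤ) * (P.deg : ℤ) := by
    rw [Dvsr.deg_eq_sum E S]
    · exact Finset.sum_congr rfl fun P hP => by rw [hEapp, if_pos hP]
    · intro Q hQ
      by_contra h
      rw [Finsupp.mem_support_iff, hEapp, if_neg h] at hQ
      exact hQ rfl
  obtain ⟨c, hc⟩ := hasChi_chi (k := k) (M := M)
  refine ⟨c + E.deg, fun D hD => ?_⟩
  have hEnn : 0 ≤ E.deg := by
    rw [hEdeg]
    exact Finset.sum_nonneg fun P _ => by positivity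
  -- the three families
  set W : Submodule k (ι → M) := ⨅ (P : Place k M) (_ : P ∉ S), lat P (1 : Matrix ι ι M) (D P) with hW
  set A : Place k M → Submodule k (ι → M) := fun P => lat P (1 : Matrix ι ι M) ((D - E) P) with hA
  set C : Place k M → Submodule k (ι → M) := fun P => lat P (1 : Matrix ι ι M) ((D + E) P) with hC
  set Λ : Place k M → Submodule k (ι → M) := fun P => lat P (B P) (D P) with hΛ
  have hXA : (W ⊓ ⨅ P ∈ S, A P : Submodule k (ι → M)) = HS (fun _ => (1 : Matrix ι ι M)) (D - E) :=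
    inf_iInf_eq_iInf S _ A fun P hP => by
      simp only [hA, Finsupp.sub_apply, hEapp, if_neg hP, sub_zero]
  have hXC : (W ⊓ ⨅ P ∈ S, C P : Submodule k (ι → M)) = HS (fun _ => (1 : Matrix ι ι M)) (D + E) :=
    inf_iInf_eq_iInf S _ C fun P hP => by
      simp only [hC, Finsupp.add_apply, hEapp, if_neg hP, add_zero]
  have hXΛ : (W ⊓ ⨅ P ∈ S, Λ P : Submodule k (ι → M)) = HS B D :=
    inf_iInf_eq_iInf S _ Λ fun P hP => by
      simp only [hΛ, hBS P hP]
  have hAΛ : ∀ P ∈ S, A P ≤ Λ P := by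
    intro P hP
    simp only [hA, hΛ, Finsupp.sub_apply, hEapp, if_pos hP]
    exact (lat_mono P 1 (by have := hrP P hP; omega)).trans (hr₀ P (D P)).1
  have hΛC : ∀ P ∈ S, Λ P ≤ C P := by
    intro P hP
    simp only [hC, hΛ, Finsupp.add_apply, hEapp, if_pos hP]
    exact (hr₀ P (D P)).2.trans (lat_mono P 1 (by have := hrP P hP; omega))
  have hone : IsUnit (1 : Matrix ι ι M).det := by simp
  have hAC := fun P (hP : P ∈ S) =>
    relDim_lat P 1 1 hone hone ((D - E) P) ((D + E) P) ((hAΛ P hP).trans (hΛC P hP))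
  have hAΛ' := fun P (hP : P ∈ S) =>
    relDim_lat P 1 (B P) hone (hB P) ((D - E) P) (D P) (hAΛ P hP)
  have hellA : (ell (D - E) : ℤ) = D.deg - E.deg + chi k M := by
    rw [hc (D - E) (by rw [Dvsr.deg_sub]; omega), Dvsr.deg_sub]
  have hellC : (ell (D + E) : ℤ) = D.deg + E.deg + chi k M := by
    rw [hc (D + E) (by rw [Dvsr.deg_add]; omega), Dvsr.deg_add]
  have hsumAC : ((∑ P ∈ S, relDim (A P) (C P) : ℕ) : ℤ) = 2 * Fintype.card ι * E.deg := by
    push_cast
    rw [Finset.sum_congr rfl fun P hP => (hAC P hP).2, hEdeg, Finset.mul_sum]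
    refine Finset.sum_congr rfl fun P hP => ?_
    simp only [Finsupp.sub_apply, Finsupp.add_apply, hEapp, if_pos hP, Matrix.det_one,
      Place.ord_one]
    ring
  have hsumAΛ : ((∑ P ∈ S, relDim (A P) (Λ P) : ℕ) : ℤ)
      = Fintype.card ι * E.deg - ∑ P ∈ S, P.ord (B P).det * (P.deg : ℤ) := by
    push_cast
    rw [Finset.sum_congr rfl fun P hP => (hAΛ' P hP).2, hEdeg, Finset.mul_sum,
      ← Finset.sum_sub_distrib]
    refine Finset.sum_congr rfl fun P hP => ?_
    simp only [Finsupp.sub_apply, hEapp, if_pos hP, Matrix.det_one, Place.ord_one]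
    ring
  have hmain := finrank_inf_iInf_of_sandwich W S A Λ C hAΛ hΛC (fun P hP => (hAC P hP).1)
    (by rw [hXC]; exact (finrank_HS_one (D + E)).1)
    (by
      rw [hXC, hXA, (finrank_HS_one (D + E)).2, (finrank_HS_one (D - E)).2]
      have : ((Fintype.card ι * ell (D + E) : ℕ) : ℤ)
          = ((Fintype.card ι * ell (D - E) + ∑ P ∈ S, relDim (A P) (C P) : ℕ) : ℤ) := by
        rw [Nat.cast_add, hsumAC]
        push_cast
        rw [hellA, hellC]
        ring
      exact_mod_cast this)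
  rw [hXΛ, hXA, (finrank_HS_one (D - E)).2] at hmain
  have hfs : ∑ᶠ P : Place k M, P.ord (B P).det * (P.deg : ℤ)
      = ∑ P ∈ S, P.ord (B P).det * (P.deg : ℤ) := by
    apply finsum_eq_sum_of_support_subset
    intro P hP
    by_contra h
    apply hP
    have h1 : P ∉ S := h
    simp [hBS P h1]
  rw [hmain, Nat.cast_add, hsumAΛ, hfs]
  push_cast
  rw [hellA]
  ring

end Claimed.Agent.R280
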