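import Claimed.Agent.R280.FF.Defs

/-!
# Row 280, package FF, file Ord: elementary API for `Place.ord`, uniformisers and `Dvsr.deg`
(no hypothesis `IsFF`)
-/

set_option autoImplicit false

namespace Claimed.Agent.R280

open WithZero

variable {k M : Type*} [Field k] [Field M] [Algebra k M]

namespace Place

variable (P : Place k M)

theorem v_ne_zero {f : M} (hf : f ≠ 0) : P.v f ≠ 0 := (P.v.ne_zero_iff).2 hf

theorem v_eq_exp_neg_ord {f : M} (hf : f ≠ 0) : P.v f = exp (-(P.ord f)) := by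
  rw [ord, neg_neg, exp_log (P.v_ne_zero hf)]

theorem ord_eq_iff {f : M} (hf : f ≠ 0) (n : ℤ) : P.ord f = n ↔ P.v f = exp (-n) := by
  rw [P.v_eq_exp_neg_ord hf, exp_inj, neg_inj]

theorem v_le_exp_iff {f : M} (hf : f ≠ 0) (n : ℤ) : P.v f ≤ exp n ↔ -n ≤ P.ord f := by
  rw [P.v_eq_exp_neg_ord hf, exp_le_exp]
  constructor <;> intro h <;> omega

theorem v_lt_exp_iff {f : M} (hf : f ≠ 0) (n : ℤ) : P.v f < exp n ↔ -n < P.ord f := by
  rw [P.v_eq_exp_neg_ord hf, exp_lt_exp]
  constructor <;> intro h <;> omega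

theorem v_le_one_iff {f : M} (hf : f ≠ 0) : P.v f ≤ 1 ↔ 0 ≤ P.ord f := by
  have := P.v_le_exp_iff hf 0
  simpa using this

theorem v_lt_one_iff {f : M} (hf : f ≠ 0) : P.v f < 1 ↔ 0 < P.ord f := by
  have := P.v_lt_exp_iff hf 0
  simpa using this

@[simp] theorem ord_zero : P.ord 0 = 0 := by simp [ord]

@[simp] theorem ord_one : P.ord 1 = 0 := by simp [ord]

theorem ord_mul {f g : M} (hf : f ≠ 0) (hg : g ≠ 0) : P.ord (f * g) = P.ord f + P.ord g := by
  rw [ord, ord, ord, map_mul, log_mul (P.v_ne_zero hf) (P.v_ne_zero hg)]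
  ring

theorem ord_inv (f : M) : P.ord f⁻¹ = -P.ord f := by
  by_cases hf : f = 0
  · simp [hf]
  · have h := P.ord_mul hf (inv_ne_zero hf)
    rw [mul_inv_cancel₀ hf, ord_one] at h
    omega

theorem ord_pow (f : M) (n : ℕ) : P.ord (f ^ n) = n * P.ord f := by
  by_cases hf : f = 0
  · subst hf
    cases n <;> simp
  · induction n with
    | zero => simp
    | succ n ih =>
      rw [pow_succ, P.ord_mul (pow_ne_zero n hf) hf, ih]
      push_cast; ring

theorem ord_algebraMap (a : k) : P.ord (algebraMap k M a) = 0 := by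
  by_cases ha : a = 0
  · simp [ha]
  · simp [ord, P.triv a ha]

theorem exists_unif : ∃ t : M, P.v t = exp (-1) := P.surj _

theorem exists_ord_eq (n : ℤ) : ∃ t : M, t ≠ 0 ∧ P.ord t = n := by
  obtain ⟨t, ht⟩ := P.surj (exp (-n))
  have h0 : t ≠ 0 := by
    rintro rfl
    rw [map_zero] at ht
    exact exp_ne_zero ht.symm
  exact ⟨t, h0, (P.ord_eq_iff h0 n).2 ht⟩

theorem min_le_ord_add {f g : M} (hf : f ≠ 0) (hg : g ≠ 0) (hfg : f + g ≠ 0) :
    min (P.ord f) (P.ord g) ≤ P.ord (f + g) := by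
  have h := P.v.map_add f g
  rw [P.v_eq_exp_neg_ord hf, P.v_eq_exp_neg_ord hg, P.v_eq_exp_neg_ord hfg] at h
  rcases le_max_iff.1 h with h | h <;> rw [exp_le_exp] at h <;> omega

end Place

namespace Dvsr

@[simp] theorem deg_zero : (0 : Dvsr k M).deg = 0 := by simp [deg]

theorem deg_add (D D' : Dvsr k M) : (D + D').deg = D.deg + D'.deg := by
  unfold deg
  rw [Finsupp.sum_add_index'] <;> intros <;> simp [add_mul]

theorem deg_single (P : Place k M) (n : ℤ) :
    Dvsr.deg (Finsupp.single P n : Dvsr k M) = n * P.deg := by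
  simp [deg]

theorem deg_neg (D : Dvsr k M) : (-D).deg = -D.deg := by
  have h := deg_add D (-D)
  rw [add_neg_cancel, deg_zero] at h
  omega

theorem deg_sub (D D' : Dvsr k M) : (D - D').deg = D.deg - D'.deg := by
  rw [sub_eq_add_neg, deg_add, deg_neg, sub_eq_add_neg]

theorem deg_smul (n : ℤ) (D : Dvsr k M) : (n • D).deg = n * D.deg := by
  unfold deg
  rw [Finsupp.sum_smul_index (by simp), Finsupp.mul_sum]
  simp [mul_assoc]

theorem deg_eq_sum (D : Dvsr k M) (S : Finset (Place k M)) (hS : D.support ⊆ S) :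
    D.deg = ∑ P ∈ S, D P * (P.deg : ℤ) :=
  Finsupp.sum_of_support_subset D hS _ (by simp)

theorem deg_mono {D D' : Dvsr k M} (h : D ≤ D') : D.deg ≤ D'.deg := by
  classical
  rw [deg_eq_sum D (D.support ∪ D'.support) Finset.subset_union_left,
    deg_eq_sum D' (D.support ∪ D'.support) Finset.subset_union_right]
  apply Finset.sum_le_sum
  intro P _
  exact mul_le_mul_of_nonneg_right (h P) (by positivity)

end Dvsr

end Claimed.Agent.R280
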