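import Claimed.Agent.R280.FF.Ord

/-!
# Row 280, FF/OverH: the place below, for an arbitrary integral ring homomorphism of fields (no `IsFF`, no `Algebra` instances)
`Q.OverH j P` : `Q` (place of `M'/k'`) lies over `P` (place of `M/k`) along `j : M →+* M'`.   `Q.Over P` is `Q.OverH (algebraMap M M') P` by `Iff.rfl`.
Leaf FF-OVERH (~150 lines): `Place.exists_overH`.  Plan: the restriction `Q.v ∘ j` is not trivial (an element integral over a trivially valued subfield has value `≤ 1`, the same for its inverse);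
its value group is a non-zero subgroup `e ℤ` of `ℤ` (`Int.subgroup_cyclic` / `AddSubgroup.zmultiples`); `P.v f := exp (log (Q.v (j f)) / e)`.
-/

set_option autoImplicit false

namespace Claimed.Agent.R280

open WithZero

variable {k k' k'' M M' M'' : Type*} [Field k] [Field k'] [Field k''] [Field M] [Field M'] [Field M'']
  [Algebra k M] [Algebra k' M'] [Algebra k'' M'']

/-- `Q` lies over `P` along `j` -/
def Place.OverH (j : M →+* M') (Q : Place k' M') (P : Place k M) : Prop :=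
  ∃ e : ℕ, 0 < e ∧ ∀ f : M, Q.v (j f) = P.v f ^ e

theorem Place.over_iff_overH [Algebra M M'] {Q : Place k' M'} {P : Place k M} :
    Q.Over P ↔ Q.OverH (algebraMap M M') P := Iff.rfl

theorem Place.OverH.trans {j : M →+* M'} {j' : M' →+* M''} {R : Place k'' M''} {Q : Place k' M'}
    {P : Place k M} (h' : R.OverH j' Q) (h : Q.OverH j P) : R.OverH (j'.comp j) P := by
  obtain ⟨e', he', h'⟩ := h'
  obtain ⟨e, he, h⟩ := h
  exact ⟨e * e', Nat.mul_pos he he', fun f => by
    rw [RingHom.comp_apply, h', h, pow_mul]⟩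

theorem Place.OverH.lt_one_iff {j : M →+* M'} {Q : Place k' M'} {P : Place k M} (h : Q.OverH j P)
    (f : M) : Q.v (j f) < 1 ↔ P.v f < 1 := by
  obtain ⟨e, he, h⟩ := h
  rw [h]
  exact pow_lt_one_iff_of_nonneg zero_le' he.ne'

theorem Place.OverH.le_one_iff {j : M →+* M'} {Q : Place k' M'} {P : Place k M} (h : Q.OverH j P)
    (f : M) : Q.v (j f) ≤ 1 ↔ P.v f ≤ 1 := by
  obtain ⟨e, he, h⟩ := h
  rw [h]
  exact pow_le_one_iff_of_nonneg zero_le' he.ne'

theorem ffH_pow_inj {a b : ℤᵐ⁰} {e : ℕ} (he : 0 < e) (h : a ^ e = b ^ e) : a = b :=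
  (pow_left_inj₀ zero_le zero_le he.ne').1 h

theorem ffH_eq_one_iff {P P' : Place k M} (h : ∀ f, P.v f ≤ 1 ↔ P'.v f ≤ 1) (f : M) :
    P.v f = 1 → P'.v f = 1 := by
  intro hf
  have hf0 : f ≠ 0 := by
    rintro rfl
    simp at hf
  apply le_antisymm ((h f).1 hf.le)
  have h2 := (h f⁻¹).1 (by rw [map_inv₀, hf, inv_one])
  rw [map_inv₀] at h2
  exact (inv_le_one₀ (zero_lt_iff.2 (P'.v_ne_zero hf0))).1 h2

/-- every element is a power of a fixed uniformiser of `P` times a unit; transfer to `P'` -/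
theorem ffH_dec {P P' : Place k M} (h : ∀ f, P.v f ≤ 1 ↔ P'.v f ≤ 1) {t : M} (ht : P.v t = exp (-1))
    {f : M} (hf : f ≠ 0) : P'.v f = P'.v t ^ (P.ord f) := by
  have ht0 : t ≠ 0 := by
    rintro rfl
    rw [map_zero] at ht
    exact exp_ne_zero ht.symm
  have hu : P.v (f * (t ^ (P.ord f))⁻¹) = 1 := by
    rw [map_mul, map_inv₀, map_zpow₀, ht, P.v_eq_exp_neg_ord hf, ← exp_zsmul]
    simp
  have h1 := ffH_eq_one_iff h _ hu
  rw [map_mul, map_inv₀, map_zpow₀] at h1
  exact (mul_inv_eq_one₀ (zpow_ne_zero _ (P'.v_ne_zero ht0))).1 h1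

/-- a place is determined by its valuation ring -/
theorem Place.ext_of_le_one_iff {P P' : Place k M} (h : ∀ f, P.v f ≤ 1 ↔ P'.v f ≤ 1) : P = P' := by
  obtain ⟨t, ht⟩ := P.exists_unif
  obtain ⟨t', ht'⟩ := P'.exists_unif
  have ht0 : t ≠ 0 := by
    rintro rfl
    rw [map_zero] at ht
    exact exp_ne_zero ht.symm
  have ht0' : t' ≠ 0 := by
    rintro rfl
    rw [map_zero] at ht'
    exact exp_ne_zero ht'.symm
  -- `P'.v t = exp (-1)`
  have h1 := ffH_dec h ht ht0'
  rw [ht', P'.v_eq_exp_neg_ord ht0, ← exp_zsmul, exp_inj, smul_eq_mul] at h1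
  have hpos : 0 ≤ P'.ord t := by
    rw [← P'.v_le_one_iff ht0, ← h, ht, ← exp_zero]
    exact exp_le_exp.2 (by norm_num)
  have hone : P'.ord t = 1 := by
    have hd : P'.ord t ∣ 1 := ⟨P.ord t', by linarith⟩
    exact Int.eq_one_of_dvd_one hpos hd
  have htP' : P'.v t = exp (-1) := by rw [P'.v_eq_exp_neg_ord ht0, hone]
  ext f
  by_cases hf : f = 0
  · simp [hf]
  · rw [ffH_dec h ht hf, htP', P.v_eq_exp_neg_ord hf, ← exp_zsmul]
    simp

theorem Place.OverH.unique {j : M →+* M'} {Q : Place k' M'} {P P' : Place k M} (h : Q.OverH j P)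
    (h' : Q.OverH j P') : P = P' :=
  Place.ext_of_le_one_iff fun f => (h.le_one_iff f).symm.trans (h'.le_one_iff f)

/-- cancellation -/
theorem Place.OverH.of_comp {j : M →+* M'} {j' : M' →+* M''} {R : Place k'' M''} {Q : Place k' M'}
    {P : Place k M} (h' : R.OverH j' Q) (h : R.OverH (j'.comp j) P) : Q.OverH j P := by
  obtain ⟨e', he', h'⟩ := h'
  obtain ⟨e, he, h⟩ := h
  obtain ⟨t, ht⟩ := P.exists_unif
  have ht0 : t ≠ 0 := by
    rintro rfl
    rw [map_zero] at ht
    exact exp_ne_zero ht.symm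
  have hjt0 : j t ≠ 0 := by simpa using ht0
  have h1 := h t
  rw [RingHom.comp_apply, h', ht, Q.v_eq_exp_neg_ord hjt0, ← exp_nsmul, ← exp_nsmul, exp_inj] at h1
  simp only [nsmul_eq_mul] at h1
  have hapos : 0 < Q.ord (j t) := by
    by_contra hcon
    push Not at hcon
    have : (e' : ℤ) * Q.ord (j t) ≤ 0 := mul_nonpos_of_nonneg_of_nonpos (by positivity) hcon
    have he0 : (0 : ℤ) < e := by exact_mod_cast he
    linarith
  refine ⟨(Q.ord (j t)).toNat, by omega, fun f => ffH_pow_inj he' ?_⟩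
  rw [← h', ← RingHom.comp_apply, h, ← pow_mul]
  congr 1
  have h2 : ((Q.ord (j t)).toNat : ℤ) = Q.ord (j t) := Int.toNat_of_nonneg hapos.le
  have h3 : ((e : ℕ) : ℤ) = (((Q.ord (j t)).toNat * e' : ℕ) : ℤ) := by
    push_cast
    rw [h2]
    linarith
  exact_mod_cast h3

theorem Place.OverH.congr {j j' : M →+* M'} (hj : ∀ f, j f = j' f) {Q : Place k' M'} {P : Place k M}
    (h : Q.OverH j P) : Q.OverH j' P := by
  obtain ⟨e, he, h⟩ := h
  exact ⟨e, he, fun f => by rw [← hj, h]⟩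

/-- an integral extension of a trivially valued field is trivially valued -/
theorem ffH_nontrivial (j : M →+* M') (hj : j.IsIntegral) (Q : Place k' M') :
    ∃ f : M, f ≠ 0 ∧ Q.v (j f) ≠ 1 := by
  by_contra hcon
  push Not at hcon
  have hle : ∀ f : M, j f ∈ Q.v.integer := by
    intro f
    rw [Valuation.mem_integer_iff]
    by_cases hf : f = 0
    · simp [hf]
    · exact (hcon f hf).le
  obtain ⟨y, hy⟩ := Q.surj (exp 1)
  obtain ⟨p, hp, hpy⟩ := hj y
  have hint : IsIntegral Q.v.integer y := by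
    refine ⟨p.map (j.codRestrict Q.v.integer hle), hp.map _, ?_⟩
    rw [Polynomial.eval₂_map]
    exact hpy
  have := (Valuation.integer.integers Q.v).mem_of_integral hint
  rw [Valuation.mem_integer_iff, hy, ← exp_zero, exp_le_exp] at this
  omega

/-- the value group of the restriction -/
theorem ffH_index (j : M →+* M') (hj : j.IsIntegral) (Q : Place k' M') :
    ∃ e : ℕ, 0 < e ∧ (∃ t : M, t ≠ 0 ∧ Q.v (j t) = exp (-(e : ℤ))) ∧
      ∀ f : M, ∃ γ : ℤᵐ⁰, γ ^ e = Q.v (j f) := by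
  classical
  have hne : ∀ f : M, f ≠ 0 → j f ≠ 0 := fun f hf => by simpa using hf
  have hex : ∃ n : ℕ, 0 < n ∧ ∃ f : M, f ≠ 0 ∧ Q.v (j f) = exp (-(n : ℤ)) := by
    obtain ⟨f, hf0, hf⟩ := ffH_nontrivial j hj Q
    have hord : Q.ord (j f) ≠ 0 := by
      intro h0
      apply hf
      rw [Q.v_eq_exp_neg_ord (hne f hf0), h0]
      simp
    rcases lt_or_gt_of_ne hord with hlt | hgt
    · refine ⟨(-Q.ord (j f)).toNat, by omega, f⁻¹, inv_ne_zero hf0, ?_⟩
      rw [map_inv₀, map_inv₀, Q.v_eq_exp_neg_ord (hne f hf0), ← exp_neg, exp_inj]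
      omega
    · refine ⟨(Q.ord (j f)).toNat, by omega, f, hf0, ?_⟩
      rw [Q.v_eq_exp_neg_ord (hne f hf0), exp_inj]
      omega
  obtain ⟨he, t, ht0, ht⟩ := Nat.find_spec hex
  set e := Nat.find hex with hedef
  refine ⟨e, he, ⟨t, ht0, ht⟩, fun f => ?_⟩
  by_cases hf0 : f = 0
  · exact ⟨0, by rw [hf0, map_zero, map_zero, zero_pow he.ne']⟩
  have heZ : (0 : ℤ) < (e : ℤ) := by exact_mod_cast he
  set m := Q.ord (j f) with hm
  -- `g = f * t ^ (-(m / e))` has order `m % e`
  have hg0 : f * t ^ (-(m / e)) ≠ 0 := mul_ne_zero hf0 (zpow_ne_zero _ ht0)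
  have hg : Q.v (j (f * t ^ (-(m / e)))) = exp (-(m % e)) := by
    rw [map_mul, map_mul, map_zpow₀, map_zpow₀, ht, Q.v_eq_exp_neg_ord (hne f hf0), ← exp_zsmul, ← exp_add,
      exp_inj, smul_eq_mul, ← hm]
    have := Int.emod_add_mul_ediv m e
    linarith
  have hr : m % e = 0 := by
    by_contra hr0
    have h1 : 0 ≤ m % e := Int.emod_nonneg _ heZ.ne'
    have h2 : m % e < e := Int.emod_lt_of_pos _ heZ
    have hmin := Nat.find_min hex (m := (m % e).toNat) (by omega)
    apply hmin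
    refine ⟨by omega, _, hg0, ?_⟩
    rw [hg, exp_inj]
    omega
  refine ⟨exp (-(m / e)), ?_⟩
  rw [Q.v_eq_exp_neg_ord (hne f hf0), ← exp_nsmul, exp_inj, nsmul_eq_mul, ← hm]
  have := Int.emod_add_mul_ediv m e
  rw [hr] at this
  linarith

/-- **the place below** -/
theorem Place.exists_overH (j : M →+* M') (hj : j.IsIntegral)
    (hk : ∀ a : k, ∃ a' : k', j (algebraMap k M a) = algebraMap k' M' a') (Q : Place k' M') :
    ∃ P : Place k M, Q.OverH j P := by
  obtain ⟨e, he, ⟨t, ht0, ht⟩, hroot⟩ := ffH_index j hj Q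
  choose w hw using hroot
  have hmul : ∀ f g, w (f * g) = w f * w g := fun f g =>
    ffH_pow_inj he (by rw [hw, mul_pow, hw, hw, map_mul, map_mul])
  have hone : w 1 = 1 := ffH_pow_inj he (by rw [hw, one_pow, map_one, map_one])
  have hzero : w 0 = 0 := ffH_pow_inj he (by rw [hw, zero_pow he.ne', map_zero, map_zero])
  have hadd : ∀ f g, w (f + g) ≤ max (w f) (w g) := by
    intro f g
    have h1 : Q.v (j (f + g)) ≤ max (Q.v (j f)) (Q.v (j g)) := by
      rw [map_add]
      exact Q.v.map_add _ _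
    rw [← hw, ← hw, ← hw] at h1
    rcases le_max_iff.1 h1 with h2 | h2
    · exact le_max_of_le_left ((pow_le_pow_iff_left₀ zero_le zero_le he.ne').1 h2)
    · exact le_max_of_le_right ((pow_le_pow_iff_left₀ zero_le zero_le he.ne').1 h2)
  let v0 : Valuation M ℤᵐ⁰ :=
    { toFun := w
      map_zero' := hzero
      map_one' := hone
      map_mul' := hmul
      map_add_le_max' := hadd }
  have hv0 : ∀ f, v0 f = w f := fun _ => rfl
  have hwt : v0 t = exp (-1) := by
    rw [hv0]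
    apply ffH_pow_inj he
    rw [hw, ht, ← exp_nsmul]
    simp
  refine ⟨⟨v0, fun γ => ?_, fun a ha => ?_⟩, e, he, fun f => (hw f).symm⟩
  · by_cases hγ : γ = 0
    · exact ⟨0, by rw [hγ, map_zero]⟩
    · refine ⟨t ^ (-(log γ)), ?_⟩
      rw [map_zpow₀, hwt, ← exp_zsmul]
      simp [exp_log hγ]
  · rw [hv0]
    apply ffH_pow_inj he
    obtain ⟨a', ha'⟩ := hk a
    have ha0 : a' ≠ 0 := by
      rintro rfl
      rw [map_zero] at ha'
      have : algebraMap k M a = 0 := by simpa using ha'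
      exact ha (by simpa using this)
    rw [hw, ha', Q.triv a' ha0, one_pow]

end Claimed.Agent.R280
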