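import Mathlib

/-!
# Row 280, package FF, leaf FF5a (RelDim): relative dimension of subspaces (PURE MATHLIB linear algebra; PROVED)

`relDim A C = dim_k C / (A ∩ C)` for subspaces of a (big) `k`-vector space `V`; `RelFin A C`: this quotient is finite
dimensional.  All statements are elementary (`Submodule.finrank_quotient_add_finrank`, the isomorphism theorems).

MAIN LEMMA `finrank_inf_iInf_of_sandwich`.  `X(Y) = W ⊓ ⨅ s ∈ S, Y s`.  The map `X(C) → ∏ s ∈ S, C s / A s` has kernel `X(A)`;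
the hypothesis `hcount` says that it is onto (dimension count).  The preimage of `∏ Λ s / A s` is `X(Λ)`, so
`X(Λ) / X(A) ≅ ∏ Λ s / A s`.
-/

set_option autoImplicit false

namespace Claimed.Agent.R280

variable {k V V' : Type*} [Field k] [AddCommGroup V] [Module k V] [AddCommGroup V'] [Module k V']

/-- `dim_k C / (A ∩ C)` -/
noncomputable def relDim (A C : Submodule k V) : ℕ := Module.finrank k (C ⧸ A.submoduleOf C)

/-- `C / (A ∩ C)` is finite dimensional -/
def RelFin (A C : Submodule k V) : Prop := Module.Finite k (C ⧸ A.submoduleOf C)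

theorem mem_submoduleOf_iff {A C : Submodule k V} (x : C) : x ∈ A.submoduleOf C ↔ (x : V) ∈ A :=
  Iff.rfl

/-- a surjective `k`-linear map `C → U` with kernel `A` computes `relDim A C` -/
theorem relDim_eq_finrank_of_surjective {U : Type*} [AddCommGroup U] [Module k U]
    {A C : Submodule k V} (φ : C →ₗ[k] U) (hφ : Function.Surjective φ)
    (hker : ∀ x : C, φ x = 0 ↔ (x : V) ∈ A) : relDim A C = Module.finrank k U := by
  have h : A.submoduleOf C = LinearMap.ker φ := by
    ext x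
    rw [LinearMap.mem_ker, hker, mem_submoduleOf_iff]
  unfold relDim
  rw [h]
  exact (φ.quotKerEquivOfSurjective hφ).finrank_eq

theorem relFin_of_surjective {U : Type*} [AddCommGroup U] [Module k U] [Module.Finite k U]
    {A C : Submodule k V} (φ : C →ₗ[k] U)
    (hker : ∀ x : C, φ x = 0 → (x : V) ∈ A) : RelFin A C := by
  have h : LinearMap.ker φ ≤ A.submoduleOf C := fun x hx => hker x hx
  have : Module.Finite k (C ⧸ LinearMap.ker φ) :=
    Module.Finite.equiv φ.quotKerEquivRange.symm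
  exact Module.Finite.of_surjective _ (Submodule.factor_surjective h)

theorem relFin_iff_of_surjective {U : Type*} [AddCommGroup U] [Module k U]
    {A C : Submodule k V} (φ : C →ₗ[k] U) (hφ : Function.Surjective φ)
    (hker : ∀ x : C, φ x = 0 ↔ (x : V) ∈ A) : RelFin A C ↔ Module.Finite k U := by
  have h : A.submoduleOf C = LinearMap.ker φ := by
    ext x
    rw [LinearMap.mem_ker, hker, mem_submoduleOf_iff]
  unfold RelFin
  rw [h]
  exact ⟨fun _ => Module.Finite.equiv (φ.quotKerEquivOfSurjective hφ),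
    fun _ => Module.Finite.equiv (φ.quotKerEquivOfSurjective hφ).symm⟩

theorem relDim_self (A : Submodule k V) : relDim A A = 0 := by
  rw [relDim_eq_finrank_of_surjective (U := PUnit) (0 : A →ₗ[k] PUnit)
    (fun _ => ⟨0, Subsingleton.elim _ _⟩) (fun x => by simp)]
  exact Module.finrank_zero_of_subsingleton

theorem RelFin.refl (A : Submodule k V) : RelFin A A :=
  relFin_of_surjective (U := PUnit) (0 : A →ₗ[k] PUnit) (fun x _ => x.2)

/-- the map `C.map φ → C / A` -/
private noncomputable def mapAux (φ : V ≃ₗ[k] V') (A C : Submodule k V) :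
    C.map (φ : V →ₗ[k] V') →ₗ[k] (C ⧸ A.submoduleOf C) :=
  (A.submoduleOf C).mkQ.comp (φ.submoduleMap C).symm.toLinearMap

private theorem mapAux_surjective (φ : V ≃ₗ[k] V') (A C : Submodule k V) :
    Function.Surjective (mapAux φ A C) :=
  (Submodule.mkQ_surjective _).comp (φ.submoduleMap C).symm.surjective

private theorem mapAux_ker (φ : V ≃ₗ[k] V') (A C : Submodule k V)
    (x : C.map (φ : V →ₗ[k] V')) :
    mapAux φ A C x = 0 ↔ (x : V') ∈ A.map (φ : V →ₗ[k] V') := by
  unfold mapAux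
  rw [LinearMap.comp_apply, Submodule.mkQ_apply, Submodule.Quotient.mk_eq_zero,
    mem_submoduleOf_iff]
  have h1 : (((φ.submoduleMap C).symm x : C) : V) = φ.symm (x : V') := by
    obtain ⟨y, rfl⟩ := (φ.submoduleMap C).surjective x
    simp
  show (((φ.submoduleMap C).symm x : C) : V) ∈ A ↔ _
  rw [h1]
  constructor
  · intro h
    exact ⟨_, h, by simp⟩
  · rintro ⟨a, ha, hax⟩
    rw [← hax]
    simpa using ha

theorem relDim_map (φ : V ≃ₗ[k] V') (A C : Submodule k V) :
    relDim (A.map (φ : V →ₗ[k] V')) (C.map (φ : V →ₗ[k] V')) = relDim A C :=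
  relDim_eq_finrank_of_surjective _ (mapAux_surjective φ A C) (mapAux_ker φ A C)

theorem relFin_map_iff (φ : V ≃ₗ[k] V') (A C : Submodule k V) :
    RelFin (A.map (φ : V →ₗ[k] V')) (C.map (φ : V →ₗ[k] V')) ↔ RelFin A C :=
  relFin_iff_of_surjective _ (mapAux_surjective φ A C) (mapAux_ker φ A C)

section Three

variable {A B C : Submodule k V}

/-- `B → C / A` -/
private noncomputable def inclAux (A : Submodule k V) (hBC : B ≤ C) :
    B →ₗ[k] (C ⧸ A.submoduleOf C) :=
  (A.submoduleOf C).mkQ.comp (Submodule.inclusion hBC)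

private theorem inclAux_ker (A : Submodule k V) (hBC : B ≤ C) (x : B) :
    inclAux A hBC x = 0 ↔ (x : V) ∈ A := by
  unfold inclAux
  rw [LinearMap.comp_apply, Submodule.mkQ_apply, Submodule.Quotient.mk_eq_zero,
    mem_submoduleOf_iff]
  rfl

private theorem submoduleOf_mono (hAB : A ≤ B) : A.submoduleOf C ≤ B.submoduleOf C :=
  fun _ hx => hAB hx

private theorem range_inclAux (hAB : A ≤ B) (hBC : B ≤ C) :
    LinearMap.range (inclAux A hBC)
      = LinearMap.ker (Submodule.factor (submoduleOf_mono (C := C) hAB)) := by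
  ext y
  obtain ⟨c, rfl⟩ := Submodule.mkQ_surjective _ y
  rw [LinearMap.mem_ker, Submodule.factor_mk, Submodule.mkQ_apply (B.submoduleOf C),
    Submodule.Quotient.mk_eq_zero, mem_submoduleOf_iff]
  constructor
  · rintro ⟨b, hb⟩
    unfold inclAux at hb
    rw [LinearMap.comp_apply, Submodule.mkQ_apply, Submodule.mkQ_apply,
      Submodule.Quotient.eq, mem_submoduleOf_iff] at hb
    have h1 : (c : V) = (b : V) - ((b : V) - (c : V)) := by abel
    rw [h1]
    exact B.sub_mem b.2 (hAB hb)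
  · intro hc
    exact ⟨⟨c, hc⟩, rfl⟩

/-- `B / A ≃ ker (C / A → C / B)` -/
private noncomputable def kerEquiv (hAB : A ≤ B) (hBC : B ≤ C) :
    (B ⧸ A.submoduleOf B) ≃ₗ[k]
      LinearMap.ker (Submodule.factor (submoduleOf_mono (C := C) hAB)) :=
  have h : A.submoduleOf B = LinearMap.ker (inclAux A hBC) := by
    ext x
    rw [LinearMap.mem_ker, inclAux_ker, mem_submoduleOf_iff]
  (Submodule.quotEquivOfEq _ _ h).trans
    ((inclAux A hBC).quotKerEquivRange.trans (LinearEquiv.ofEq _ _ (range_inclAux hAB hBC)))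

theorem RelFin.trans (hAB : A ≤ B) (hBC : B ≤ C) (h : RelFin A B)
    (h' : RelFin B C) : RelFin A C := by
  unfold RelFin at *
  have h1 : Module.Finite k (LinearMap.ker (Submodule.factor (submoduleOf_mono (C := C) hAB))) :=
    Module.Finite.equiv (kerEquiv hAB hBC)
  have h2 : Module.Finite k ((C ⧸ A.submoduleOf C) ⧸
      LinearMap.ker (Submodule.factor (submoduleOf_mono (C := C) hAB))) :=
    Module.Finite.equiv (LinearMap.quotKerEquivOfSurjective _
      (Submodule.factor_surjective (submoduleOf_mono (C := C) hAB))).symm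
  exact Module.Finite.of_submodule_quotient
    (LinearMap.ker (Submodule.factor (submoduleOf_mono (C := C) hAB)))

theorem RelFin.left (hAB : A ≤ B) (hBC : B ≤ C) (h : RelFin A C) :
    RelFin A B := by
  unfold RelFin at *
  exact Module.Finite.equiv (kerEquiv hAB hBC).symm

theorem RelFin.right (hAB : A ≤ B) (_hBC : B ≤ C) (h : RelFin A C) :
    RelFin B C := by
  unfold RelFin at *
  exact Module.Finite.of_surjective _ (Submodule.factor_surjective (submoduleOf_mono (C := C) hAB))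

theorem relDim_add (hAB : A ≤ B) (hBC : B ≤ C) (h : RelFin A C) :
    relDim A C = relDim A B + relDim B C := by
  unfold RelFin at h
  have h1 := LinearMap.finrank_range_add_finrank_ker
    (Submodule.factor (submoduleOf_mono (C := C) hAB))
  rw [LinearMap.range_eq_top.2 (Submodule.factor_surjective _), finrank_top,
    ← (kerEquiv hAB hBC).finrank_eq] at h1
  unfold relDim
  omega

end Three

theorem finrank_eq_add_relDim {A C : Submodule k V} (hAC : A ≤ C) [Module.Finite k C] :
    Module.finrank k C = Module.finrank k A + relDim A C := by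
  have h := Submodule.finrank_quotient_add_finrank (A.submoduleOf C)
  rw [(Submodule.submoduleOfEquivOfLe hAC).finrank_eq] at h
  unfold relDim
  omega

section Prod

variable {ι V₀ : Type*} [AddCommGroup V₀] [Module k V₀]

/-- `X → ∏ i, C i / A i` -/
private noncomputable def prodMap (X : Submodule k V₀) (p : ι → V₀ →ₗ[k] V)
    (A C : ι → Submodule k V) (hX : ∀ x ∈ X, ∀ i, p i x ∈ C i) :
    X →ₗ[k] (∀ i, (C i ⧸ (A i).submoduleOf (C i))) :=
  LinearMap.pi fun i => ((A i).submoduleOf (C i)).mkQ.comp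
    (((p i).comp X.subtype).codRestrict (C i) (fun x => hX x x.2 i))

private theorem prodMap_apply (X : Submodule k V₀) (p : ι → V₀ →ₗ[k] V)
    (A C : ι → Submodule k V) (hX : ∀ x ∈ X, ∀ i, p i x ∈ C i) (x : X) (i : ι) :
    prodMap X p A C hX x i
      = Submodule.Quotient.mk (p := (A i).submoduleOf (C i)) ⟨p i x, hX x x.2 i⟩ := rfl

private theorem prodMap_eq_zero_iff (X : Submodule k V₀) (p : ι → V₀ →ₗ[k] V)
    (A C : ι → Submodule k V) (hX : ∀ x ∈ X, ∀ i, p i x ∈ C i) (x : X) :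
    prodMap X p A C hX x = 0 ↔ ∀ i, p i x ∈ A i := by
  rw [funext_iff]
  refine forall_congr' fun i => ?_
  rw [prodMap_apply, Pi.zero_apply, Submodule.Quotient.mk_eq_zero, mem_submoduleOf_iff]

end Prod

/-- products -/
theorem relDim_pi {ι : Type*} [Fintype ι] (A C : ι → Submodule k V)
    (h : ∀ i, RelFin (A i) (C i)) :
    RelFin (Submodule.pi Set.univ A) (Submodule.pi Set.univ C) ∧
      relDim (Submodule.pi Set.univ A) (Submodule.pi Set.univ C) = ∑ i, relDim (A i) (C i) := by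
  have hX : ∀ x ∈ Submodule.pi Set.univ C, ∀ i, (LinearMap.proj i : (ι → V) →ₗ[k] V) x ∈ C i :=
    fun x hx i => hx i trivial
  have hfin : ∀ i, Module.Finite k (C i ⧸ (A i).submoduleOf (C i)) := h
  have hker : ∀ x : Submodule.pi Set.univ C,
      prodMap _ (fun i => (LinearMap.proj i : (ι → V) →ₗ[k] V)) A C hX x = 0
        ↔ (x : ι → V) ∈ Submodule.pi Set.univ A := by
    intro x
    rw [prodMap_eq_zero_iff, Submodule.mem_pi]
    simp
  have hsurj : Function.Surjective
      (prodMap _ (fun i => (LinearMap.proj i : (ι → V) →ₗ[k] V)) A C hX) := by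
    intro y
    choose c hc using fun i => Submodule.mkQ_surjective _ (y i)
    refine ⟨⟨fun i => c i, fun i _ => (c i).2⟩, ?_⟩
    funext i
    rw [prodMap_apply, ← hc i]
    rfl
  refine ⟨(relFin_iff_of_surjective _ hsurj hker).2 inferInstance, ?_⟩
  rw [relDim_eq_finrank_of_surjective _ hsurj hker, Module.finrank_pi_fintype]
  rfl

/-- **sandwich lemma** -/
theorem finrank_inf_iInf_of_sandwich {σ : Type*} (W : Submodule k V) (S : Finset σ)
    (A Λ C : σ → Submodule k V) (hA : ∀ s ∈ S, A s ≤ Λ s) (hC : ∀ s ∈ S, Λ s ≤ C s)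
    (hfin : ∀ s ∈ S, RelFin (A s) (C s))
    (hWC : Module.Finite k (W ⊓ ⨅ s ∈ S, C s : Submodule k V))
    (hcount : Module.finrank k (W ⊓ ⨅ s ∈ S, C s : Submodule k V)
      = Module.finrank k (W ⊓ ⨅ s ∈ S, A s : Submodule k V) + ∑ s ∈ S, relDim (A s) (C s)) :
    Module.finrank k (W ⊓ ⨅ s ∈ S, Λ s : Submodule k V)
      = Module.finrank k (W ⊓ ⨅ s ∈ S, A s : Submodule k V) + ∑ s ∈ S, relDim (A s) (Λ s) := by
  have hmem : ∀ (Y : σ → Submodule k V) (x : V),
      x ∈ (W ⊓ ⨅ s ∈ S, Y s : Submodule k V) ↔ x ∈ W ∧ ∀ s ∈ S, x ∈ Y s := by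
    intro Y x
    simp [Submodule.mem_inf, Submodule.mem_iInf]
  have hAC : (W ⊓ ⨅ s ∈ S, A s : Submodule k V) ≤ W ⊓ ⨅ s ∈ S, C s := by
    intro x hx
    rw [hmem] at hx ⊢
    exact ⟨hx.1, fun s hs => hC s hs (hA s hs (hx.2 s hs))⟩
  have hAΛ : (W ⊓ ⨅ s ∈ S, A s : Submodule k V) ≤ W ⊓ ⨅ s ∈ S, Λ s := by
    intro x hx
    rw [hmem] at hx ⊢
    exact ⟨hx.1, fun s hs => hA s hs (hx.2 s hs)⟩
  have hΛC : (W ⊓ ⨅ s ∈ S, Λ s : Submodule k V) ≤ W ⊓ ⨅ s ∈ S, C s := by
    intro x hx
    rw [hmem] at hx ⊢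
    exact ⟨hx.1, fun s hs => hC s hs (hx.2 s hs)⟩
  have hWΛ : Module.Finite k (W ⊓ ⨅ s ∈ S, Λ s : Submodule k V) :=
    Module.Finite.of_injective (Submodule.inclusion hΛC) (Submodule.inclusion_injective hΛC)
  -- the two maps
  have hXC : ∀ x ∈ (W ⊓ ⨅ s ∈ S, C s : Submodule k V), ∀ s : S,
      (LinearMap.id : V →ₗ[k] V) x ∈ C s := fun x hx s => ((hmem C x).1 hx).2 s s.2
  have hXΛ : ∀ x ∈ (W ⊓ ⨅ s ∈ S, Λ s : Submodule k V), ∀ s : S,
      (LinearMap.id : V →ₗ[k] V) x ∈ Λ s := fun x hx s => ((hmem Λ x).1 hx).2 s s.2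
  have hfinC : ∀ s : S, Module.Finite k (C s ⧸ (A s).submoduleOf (C s)) := fun s => hfin s s.2
  have hfinΛ : ∀ s : S, Module.Finite k (Λ s ⧸ (A s).submoduleOf (Λ s)) :=
    fun s => RelFin.left (hA s s.2) (hC s s.2) (hfin s s.2)
  set Φ := prodMap (W ⊓ ⨅ s ∈ S, C s : Submodule k V) (fun _ : S => (LinearMap.id : V →ₗ[k] V))
    (fun s : S => A s) (fun s : S => C s) hXC with hΦ
  set Ψ := prodMap (W ⊓ ⨅ s ∈ S, Λ s : Submodule k V) (fun _ : S => (LinearMap.id : V →ₗ[k] V))
    (fun s : S => A s) (fun s : S => Λ s) hXΛ with hΨ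
  have hkerΦ : ∀ x, Φ x = 0 ↔ (x : V) ∈ (W ⊓ ⨅ s ∈ S, A s : Submodule k V) := by
    intro x
    rw [hΦ, prodMap_eq_zero_iff, hmem]
    constructor
    · intro h
      exact ⟨((hmem C x).1 x.2).1, fun s hs => h ⟨s, hs⟩⟩
    · intro h s
      exact h.2 s s.2
  have hkerΨ : ∀ x, Ψ x = 0 ↔ (x : V) ∈ (W ⊓ ⨅ s ∈ S, A s : Submodule k V) := by
    intro x
    rw [hΨ, prodMap_eq_zero_iff, hmem]
    constructor
    · intro h
      exact ⟨((hmem Λ x).1 x.2).1, fun s hs => h ⟨s, hs⟩⟩
    · intro h s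
      exact h.2 s s.2
  -- `Φ` is onto by the dimension count
  have hsurjΦ : Function.Surjective Φ := by
    rw [← LinearMap.range_eq_top]
    apply Submodule.eq_top_of_finrank_eq
    have h1 := LinearMap.finrank_range_add_finrank_ker Φ
    have h2 : LinearMap.ker Φ
        = (W ⊓ ⨅ s ∈ S, A s : Submodule k V).submoduleOf (W ⊓ ⨅ s ∈ S, C s) := by
      ext x
      rw [LinearMap.mem_ker, hkerΦ, mem_submoduleOf_iff]
    rw [h2, (Submodule.submoduleOfEquivOfLe hAC).finrank_eq] at h1
    rw [Module.finrank_pi_fintype]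
    have h3 : ∑ s : S, Module.finrank k (C s ⧸ (A s).submoduleOf (C s))
        = ∑ s ∈ S, relDim (A s) (C s) := by
      rw [← Finset.sum_coe_sort S (fun s => relDim (A s) (C s))]
      rfl
    omega
  have hsurjΨ : Function.Surjective Ψ := by
    intro y
    choose l hl using fun s => Submodule.mkQ_surjective _ (y s)
    obtain ⟨x, hx⟩ := hsurjΦ (fun s => Submodule.Quotient.mk ⟨(l s : V), hC s s.2 (l s).2⟩)
    have hxl : ∀ s : S, (x : V) - (l s : V) ∈ A s := by
      intro s
      have h1 := congrFun hx s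
      rw [hΦ, prodMap_apply, Submodule.Quotient.eq, mem_submoduleOf_iff] at h1
      exact h1
    have hxΛ : (x : V) ∈ (W ⊓ ⨅ s ∈ S, Λ s : Submodule k V) := by
      rw [hmem]
      refine ⟨((hmem C x).1 x.2).1, fun s hs => ?_⟩
      have h1 : (x : V) = ((x : V) - (l ⟨s, hs⟩ : V)) + (l ⟨s, hs⟩ : V) := by abel
      rw [h1]
      exact (Λ s).add_mem (hA s hs (hxl ⟨s, hs⟩)) (l ⟨s, hs⟩).2
    refine ⟨⟨x, hxΛ⟩, ?_⟩
    funext s
    rw [hΨ, prodMap_apply, ← hl s, Submodule.mkQ_apply, Submodule.Quotient.eq, mem_submoduleOf_iff]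
    exact hxl s
  rw [finrank_eq_add_relDim hAΛ, relDim_eq_finrank_of_surjective Ψ hsurjΨ hkerΨ,
    Module.finrank_pi_fintype, ← Finset.sum_coe_sort S (fun s => relDim (A s) (Λ s))]
  rfl

end Claimed.Agent.R280
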