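import Claimed.Agent.R280.FF.IntBasis

/-!
# Row 280, package FF, leaf FF6a (TraceRes): the trace of an integral element modulo `P` (PROVED)
(replaces Stichtenoth's use of the Galois closure in 3.5.1)

`Tr = Algebra.trace M M'`.  For `z ∈ O'_P` and an integral basis `e`, the matrix `A = Algebra.leftMulMatrix e z` has entries
`e.repr (z * e j) i ∈ O_P`, and `Tr z = ∑ A i i` (`Algebra.trace_eq_matrix_trace`).  No separability is needed.

* `Place.v_trace_le_one` (T0): immediate.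
* `Place.v_trace_sub_lt_one` (T*): `Tr z ≡ e(Q|P) tr(m)` modulo `P` if `z` is in the maximal ideal of all `Q' ≠ Q` above `P` and `m` is
  a matrix over `O_P` describing the multiplication by the residue of `z` on `Q.Res` in the residue basis `u`.
  Proof: `exists_adapted_basis` with the given `u` at `Q` (any data from `exists_local_data` at the other places).  Diagonal entries:
  for `a = (Q, i₀, j₀)`: `y = z E_a` has `Q.v y ≤ exp (-i₀)`; by `IsAdapted.expansion` its layer `i₀` satisfies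
  `Q.v (y - t ^ i₀ ∑ c_j u_j) < exp (-i₀)`; also `Q.v (y - t ^ i₀ z u_{j₀}) ≤ exp (-e) < exp (-i₀)` and
  `Q.v (z u_{j₀} - ∑ m_{j j₀} u_j) < 1`; so `Q.v (∑ (c_j - m_{j j₀}) u_j) < 1`, hence all `c_j - m_{j j₀}` are nonunits (clause 2 of
  `IsResBasis`, scaled).  For `a = (Q', i₀, j₀)`, `Q' ≠ Q`: `Q'.v (z E_a) ≤ exp (-(i₀+1))`, so by the first part of `expansion` the
  coefficient at `a` is a nonunit.  Sum over the diagonal.
* T1 (`v_trace_lt_one`): same argument as for `Q' ≠ Q` at all places (or: `A ^ N ∈ π Mat(O_P)`, nilpotent matrices over the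
  residue field have trace zero).
* T2 (`v_trace_lt_one_of_dvd`): existence of `m` by clause 3 of `IsResBasis`; `(e : M) = 0` as `p ∣ e`.
* T3 (`v_trace_eq_one_of_charZero`): `m = 1`; `Tr z ≡ e f`, a nonzero constant.
-/

set_option autoImplicit false

namespace Claimed.Agent.R280

open WithZero

variable {k M M' : Type*} [Field k] [Field M] [Field M'] [Algebra k M] [Algebra k M'] [Algebra M M']
  [IsScalarTower k M M'] [IsFF k M] [Module.Finite M M']

omit [Algebra k M] [Algebra k M'] [IsScalarTower k M M'] [IsFF k M] [Module.Finite M M'] [Field k] in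
theorem trace_eq_sum_repr {ι : Type*} [Fintype ι] (e : Module.Basis ι M M') (y : M') :
    Algebra.trace M M' y = ∑ i, e.repr (y * e i) i := by
  classical
  rw [Algebra.trace_eq_matrix_trace e, Matrix.trace]
  exact Finset.sum_congr rfl fun i _ => by
    rw [Matrix.diag_apply, Algebra.leftMulMatrix_eq_repr_mul]

/-- T0: the trace of an integral element is integral -/
theorem Place.v_trace_le_one (P : Place k M) {y : M'}
    (hy : ∀ Q : Place k M', Q.Over P → Q.v y ≤ 1) : P.v (Algebra.trace M M' y) ≤ 1 := by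
  obtain ⟨e, he⟩ := exists_isIntBasis (M' := M') P
  rw [trace_eq_sum_repr e]
  apply P.v.map_sum_le
  intro i _
  refine (he _).1 (fun Q hQ => ?_) i
  rw [map_mul]
  exact mul_le_one' (hy Q hQ) (he.v_le_one i Q hQ)

section Diag

variable {P : Place k M} {t : Place k M' → M'} {f : Place k M' → ℕ}
  {u : ∀ Q : Place k M', Fin (f Q) → M'} {e : Module.Basis (AdIdx P f) M M'}

omit [IsScalarTower k M M'] [IsFF k M] [Module.Finite M M'] in
private theorem v_adapted_le (hE : IsAdapted P t f u e)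
    (ht : ∀ Q : Place k M', Q.Over P → Q.v (t Q) = exp (-1))
    (hu : ∀ Q : Place k M', Q.Over P → Q.IsResBasis P (u Q)) (Q : Place k M') (hQ : Q.Over P)
    (i : Fin (Q.ramIdx P)) (j : Fin (f Q)) :
    Q.v (e ⟨⟨Q, hQ⟩, i, j⟩ - t Q ^ (i : ℕ) * u Q j) ≤ exp (-(Q.ramIdx P : ℤ)) ∧
      Q.v (e ⟨⟨Q, hQ⟩, i, j⟩) ≤ exp (-((i : ℕ) : ℤ)) := by
  classical
  have h1 : Q.v (e ⟨⟨Q, hQ⟩, i, j⟩ - t Q ^ (i : ℕ) * u Q j) ≤ exp (-(Q.ramIdx P : ℤ)) := by
    have h := hE ⟨⟨Q, hQ⟩, i, j⟩ Q hQ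
    rwa [if_pos rfl] at h
  refine ⟨h1, ?_⟩
  have h2 : e ⟨⟨Q, hQ⟩, i, j⟩
      = (e ⟨⟨Q, hQ⟩, i, j⟩ - t Q ^ (i : ℕ) * u Q j) + t Q ^ (i : ℕ) * u Q j := by ring
  rw [h2]
  refine (Q.v.map_add _ _).trans (max_le (h1.trans (exp_le_exp.2 ?_)) ?_)
  · have := i.2; omega
  · rw [map_mul, map_pow, ht Q hQ, ← exp_nsmul]
    refine mul_le_of_le_of_le_one (le_of_eq ?_) ((hu Q hQ).2.1 j)
    simp

/-- diagonal entries at a place where `z` is in the maximal ideal -/
private theorem diag_lt_one (hE : IsAdapted P t f u e) (he : IsIntBasis P e)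
    (ht : ∀ Q : Place k M', Q.Over P → Q.v (t Q) = exp (-1))
    (hu : ∀ Q : Place k M', Q.Over P → Q.IsResBasis P (u Q)) {z : M'}
    (hz : ∀ Q : Place k M', Q.Over P → Q.v z ≤ 1) (Q : Place k M') (hQ : Q.Over P)
    (hzQ : Q.v z < 1) (i : Fin (Q.ramIdx P)) (j : Fin (f Q)) :
    P.v (e.repr (z * e ⟨⟨Q, hQ⟩, i, j⟩) ⟨⟨Q, hQ⟩, i, j⟩) < 1 := by
  set y := z * e ⟨⟨Q, hQ⟩, i, j⟩ with hy
  have hyint : ∀ Q' : Place k M', Q'.Over P → Q'.v y ≤ 1 := fun Q' hQ' => by
    rw [hy, map_mul]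
    exact mul_le_one' (hz Q' hQ') (he.v_le_one _ Q' hQ')
  have hc := (he y).1 hyint
  have hsum : ∑ a, algebraMap M M' (e.repr y a) * e a = y := by
    conv_rhs => rw [← e.sum_repr y]
    exact Finset.sum_congr rfl fun a _ => (Algebra.smul_def _ _).symm
  have hvy : Q.v y ≤ exp (-(((i : ℕ) + 1 : ℕ) : ℤ)) := by
    rw [hy, map_mul]
    have h1 := (Q.v_lt_one_iff_le z).1 hzQ
    refine (mul_le_mul' h1 (v_adapted_le hE ht hu Q hQ i j).2).trans_eq ?_
    rw [← exp_add]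
    congr 1
    push_cast; ring
  exact (hE.expansion ht hu (fun a => e.repr y a) hc Q hQ ((i : ℕ) + 1) i.2
    (by rw [hsum]; exact hvy)).1 i j (Nat.lt_succ_self _)

/-- diagonal entries at the place `Q` -/
private theorem diag_sub_lt_one (hE : IsAdapted P t f u e) (he : IsIntBasis P e)
    (ht : ∀ Q : Place k M', Q.Over P → Q.v (t Q) = exp (-1))
    (hu : ∀ Q : Place k M', Q.Over P → Q.IsResBasis P (u Q)) {z : M'}
    (hz : ∀ Q : Place k M', Q.Over P → Q.v z ≤ 1) (Q : Place k M') (hQ : Q.Over P)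
    (m : Matrix (Fin (f Q)) (Fin (f Q)) M) (hm : ∀ i j, P.v (m i j) ≤ 1)
    (hzm : ∀ j₀, Q.v (z * u Q j₀ - ∑ j, algebraMap M M' (m j j₀) * u Q j) < 1)
    (i : Fin (Q.ramIdx P)) (j₀ : Fin (f Q)) :
    P.v (e.repr (z * e ⟨⟨Q, hQ⟩, i, j₀⟩) ⟨⟨Q, hQ⟩, i, j₀⟩ - m j₀ j₀) < 1 := by
  set y := z * e ⟨⟨Q, hQ⟩, i, j₀⟩ with hy
  have hyint : ∀ Q' : Place k M', Q'.Over P → Q'.v y ≤ 1 := fun Q' hQ' => by
    rw [hy, map_mul]
    exact mul_le_one' (hz Q' hQ') (he.v_le_one _ Q' hQ')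
  have hc := (he y).1 hyint
  have hsum : ∑ a, algebraMap M M' (e.repr y a) * e a = y := by
    conv_rhs => rw [← e.sum_repr y]
    exact Finset.sum_congr rfl fun a _ => (Algebra.smul_def _ _).symm
  obtain ⟨had1, had2⟩ := v_adapted_le hE ht hu Q hQ i j₀
  have hvy : Q.v y ≤ exp (-((i : ℕ) : ℤ)) := by
    rw [hy, map_mul]
    exact mul_le_of_le_one_of_le (hz Q hQ) had2
  have hexp := (hE.expansion ht hu (fun a => e.repr y a) hc Q hQ (i : ℕ) i.2.le
    (by rw [hsum]; exact hvy)).2 i.2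
  rw [hsum] at hexp
  have hie : -(Q.ramIdx P : ℤ) < -((i : ℕ) : ℤ) := by have := i.2; omega
  have htpow : Q.v (t Q ^ (i : ℕ)) = exp (-((i : ℕ) : ℤ)) := by
    rw [map_pow, ht Q hQ, ← exp_nsmul]
    simp
  set D := ∑ j, algebraMap M M' (e.repr y ⟨⟨Q, hQ⟩, i, j⟩ - m j j₀) * u Q j with hD
  have hDeq : t Q ^ (i : ℕ) * D
      = -(y - t Q ^ (i : ℕ) * ∑ j, algebraMap M M' (e.repr y ⟨⟨Q, hQ⟩, i, j⟩) * u Q j)
        + (z * (e ⟨⟨Q, hQ⟩, i, j₀⟩ - t Q ^ (i : ℕ) * u Q j₀)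
          + t Q ^ (i : ℕ) * (z * u Q j₀ - ∑ j, algebraMap M M' (m j j₀) * u Q j)) := by
    have h1 : D = ∑ j, algebraMap M M' (e.repr y ⟨⟨Q, hQ⟩, i, j⟩) * u Q j
        - ∑ j, algebraMap M M' (m j j₀) * u Q j := by
      rw [hD, ← Finset.sum_sub_distrib]
      exact Finset.sum_congr rfl fun j _ => by rw [map_sub, sub_mul]
    rw [h1, hy]
    ring
  have hDlt : Q.v (t Q ^ (i : ℕ) * D) < exp (-((i : ℕ) : ℤ)) := by
    rw [hDeq]
    refine lt_of_le_of_lt (Q.v.map_add _ _) (max_lt ?_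
      (lt_of_le_of_lt (Q.v.map_add _ _) (max_lt ?_ ?_)))
    · rw [Valuation.map_neg]
      exact hexp
    · rw [map_mul]
      exact lt_of_le_of_lt (mul_le_of_le_one_of_le (hz Q hQ) had1) (exp_lt_exp.2 hie)
    · rw [map_mul, htpow]
      exact mul_lt_of_lt_one_right (zero_lt_iff.2 exp_ne_zero) (hzm j₀)
  rw [map_mul, htpow] at hDlt
  have hD1 : Q.v D < 1 := by
    by_contra h
    exact absurd hDlt (not_lt.2 (le_mul_of_one_le_right' (not_lt.1 h)))
  have hd : ∀ j, P.v (e.repr y ⟨⟨Q, hQ⟩, i, j⟩ - m j j₀) ≤ 1 := fun j =>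
    (P.v.map_sub _ _).trans (max_le (hc _) (hm j j₀))
  by_contra hcon
  have h1 : P.v (e.repr y ⟨⟨Q, hQ⟩, i, j₀⟩ - m j₀ j₀) = 1 := le_antisymm (hd j₀) (not_lt.1 hcon)
  have h2 := (hu Q hQ).2.2.1 (fun j => e.repr y ⟨⟨Q, hQ⟩, i, j⟩ - m j j₀) hd ⟨j₀, h1⟩
  rw [← hD] at h2
  rw [h2] at hD1
  exact lt_irrefl _ hD1

end Diag

/-- a residue basis is not empty and consists of units -/
private theorem IsResBasis.aux {Q : Place k M'} {P : Place k M} {f : ℕ}
    {u : Fin f → M'} (hu : Q.IsResBasis P u) : 0 < f ∧ ∀ j, Q.v (u j) = 1 := by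
  classical
  have : IsFF k M' := isFF_of_finite k M M'
  constructor
  · rcases Nat.eq_zero_or_pos f with h | h
    · have h1 := hu.1
      rw [h, zero_mul] at h1
      exact absurd h1.symm Q.deg_pos.ne'
    · exact h
  · intro j
    have h1 := hu.2.2.1 (Pi.single j 1) (fun j' => by
      rw [Pi.single_apply]; split_ifs <;> simp) ⟨j, by simp⟩
    rwa [Finset.sum_eq_single j (fun j' _ hj' => by simp [hj'])
      (fun h => absurd (Finset.mem_univ _) h), Pi.single_eq_same, map_one, one_mul] at h1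

/-- T* for a family of local data -/
private theorem v_trace_sub_lt_one_family (P : Place k M) (t : Place k M' → M')
    (f : Place k M' → ℕ) (u : ∀ Q : Place k M', Fin (f Q) → M')
    (ht : ∀ Q : Place k M', Q.Over P → Q.v (t Q) = exp (-1))
    (hu : ∀ Q : Place k M', Q.Over P → Q.IsResBasis P (u Q)) {Q : Place k M'} (hQ : Q.Over P)
    {z : M'} (hz' : ∀ Q' : Place k M', Q'.Over P → Q' ≠ Q → Q'.v z < 1)
    (m : Matrix (Fin (f Q)) (Fin (f Q)) M) (hm : ∀ i j, P.v (m i j) ≤ 1)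
    (hzm : ∀ j₀, Q.v (z * u Q j₀ - ∑ j, algebraMap M M' (m j j₀) * u Q j) < 1) :
    P.v (Algebra.trace M M' z - (Q.ramIdx P : M) * m.trace) < 1 := by
  classical
  let _ : Fintype {Q : Place k M' // Q.Over P} := (Place.finite_over P).fintype
  obtain ⟨e, hE, he⟩ := exists_adapted_basis P t f u ht hu
  obtain ⟨hf0, hu1⟩ := IsResBasis.aux (hu Q hQ)
  have hzQ : Q.v z ≤ 1 := by
    have h1 : Q.v (∑ j, algebraMap M M' (m j ⟨0, hf0⟩) * u Q j) ≤ 1 := by
      apply Q.v.map_sum_le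
      intro j _
      rw [map_mul]
      exact mul_le_one' ((hQ.v_le_one_iff _).2 (hm _ _)) (hu1 j).le
    have h2 : z * u Q ⟨0, hf0⟩ = (z * u Q ⟨0, hf0⟩
        - ∑ j, algebraMap M M' (m j ⟨0, hf0⟩) * u Q j)
          + ∑ j, algebraMap M M' (m j ⟨0, hf0⟩) * u Q j := by ring
    have h3 : Q.v (z * u Q ⟨0, hf0⟩) ≤ 1 := by
      rw [h2]
      exact (Q.v.map_add _ _).trans (max_le (hzm _).le h1)
    rwa [map_mul, hu1, mul_one] at h3
  have hz : ∀ Q' : Place k M', Q'.Over P → Q'.v z ≤ 1 := by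
    intro Q' hQ'
    by_cases h : Q' = Q
    · rw [h]; exact hzQ
    · exact (hz' Q' hQ' h).le
  have htr : (Q.ramIdx P : M) * m.trace
      = ∑ _i : Fin (Q.ramIdx P), ∑ j : Fin (f Q), m j j := by
    rw [Finset.sum_const, Finset.card_univ, Fintype.card_fin, nsmul_eq_mul]
    rfl
  rw [trace_eq_sum_repr e, AdIdx.sum_eq,
    ← Finset.add_sum_erase Finset.univ _ (Finset.mem_univ (⟨Q, hQ⟩ : {Q : Place k M' // Q.Over P})),
    htr, add_sub_right_comm, ← Finset.sum_sub_distrib]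
  refine lt_of_le_of_lt (P.v.map_add _ _) (max_lt ?_ ?_)
  · apply P.v.map_sum_lt one_ne_zero
    intro i _
    rw [← Finset.sum_sub_distrib]
    apply P.v.map_sum_lt one_ne_zero
    intro j _
    exact diag_sub_lt_one hE he ht hu hz Q hQ m hm hzm i j
  · apply P.v.map_sum_lt one_ne_zero
    intro Q' hQ'
    have hne : Q'.1 ≠ Q := fun h => (Finset.mem_erase.1 hQ').1 (Subtype.ext h)
    apply P.v.map_sum_lt one_ne_zero
    intro i _
    apply P.v.map_sum_lt one_ne_zero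
    intro j _
    exact diag_lt_one hE he ht hu hz Q'.1 Q'.2 (hz' Q'.1 Q'.2 hne) i j

/-- T*: the trace modulo `P` -/
theorem Place.v_trace_sub_lt_one {Q : Place k M'} {P : Place k M} (h : Q.Over P) {f : ℕ}
    {u : Fin f → M'} (hu : Q.IsResBasis P u) {z : M'}
    (hz' : ∀ Q' : Place k M', Q'.Over P → Q' ≠ Q → Q'.v z < 1)
    (m : Matrix (Fin f) (Fin f) M) (hm : ∀ i j, P.v (m i j) ≤ 1)
    (hzm : ∀ j₀, Q.v (z * u j₀ - ∑ j, algebraMap M M' (m j j₀) * u j) < 1) :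
    P.v (Algebra.trace M M' z - (Q.ramIdx P : M) * m.trace) < 1 := by
  classical
  obtain ⟨t, f₀, u₀, ht, hu₀⟩ := exists_local_data (M' := M') P
  let F : Place k M' → Σ n : ℕ, (Fin n → M') :=
    fun Q' => if Q' = Q then ⟨f, u⟩ else ⟨f₀ Q', u₀ Q'⟩
  have hFQ : F Q = ⟨f, u⟩ := if_pos rfl
  have hF : ∀ Q' : Place k M', Q'.Over P → Q'.IsResBasis P (F Q').2 := by
    intro Q' hQ'
    by_cases hh : Q' = Q
    · subst hh
      rw [hFQ]
      exact hu
    · have : F Q' = ⟨f₀ Q', u₀ Q'⟩ := if_neg hh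
      rw [this]
      exact hu₀ Q' hQ'
  have main : ∀ (X : Σ n : ℕ, (Fin n → M')), F Q = X → ∀ (m : Matrix (Fin X.1) (Fin X.1) M),
      (∀ i j, P.v (m i j) ≤ 1) →
      (∀ j₀, Q.v (z * X.2 j₀ - ∑ j, algebraMap M M' (m j j₀) * X.2 j) < 1) →
      P.v (Algebra.trace M M' z - (Q.ramIdx P : M) * m.trace) < 1 := by
    intro X hX
    subst hX
    intro m hm hzm
    exact v_trace_sub_lt_one_family P t (fun Q' => (F Q').1) (fun Q' => (F Q').2)
      (fun Q' _ => ht Q') hF h hz' m hm hzm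
  exact main ⟨f, u⟩ hFQ m hm hzm

/-- T1 -/
theorem Place.v_trace_lt_one (P : Place k M) {y : M'}
    (hy : ∀ Q : Place k M', Q.Over P → Q.v y < 1) : P.v (Algebra.trace M M' y) < 1 := by
  obtain ⟨t, f, u, ht, hu⟩ := exists_local_data (M' := M') P
  obtain ⟨e, hE, he⟩ := exists_adapted_basis P t f u (fun Q _ => ht Q) hu
  rw [trace_eq_sum_repr e]
  apply P.v.map_sum_lt one_ne_zero
  rintro ⟨⟨Q, hQ⟩, i, j⟩ _
  exact diag_lt_one hE he (fun Q _ => ht Q) hu (fun Q hQ => (hy Q hQ).le) Q hQ (hy Q hQ) i j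

/-- T2 -/
theorem Place.v_trace_lt_one_of_dvd (p : ℕ) [CharP k p] {Q : Place k M'} {P : Place k M}
    (h : Q.Over P) (hp : p ∣ Q.ramIdx P) {z : M'} (hz : Q.v z ≤ 1)
    (hz' : ∀ Q' : Place k M', Q'.Over P → Q' ≠ Q → Q'.v z < 1) :
    P.v (Algebra.trace M M' z) < 1 := by
  obtain ⟨f, u, hu⟩ := Place.exists_resBasis h
  have hex : ∀ j₀ : Fin f, ∃ c : Fin f → M, (∀ j, P.v (c j) ≤ 1) ∧
      Q.v (z * u j₀ - ∑ j, algebraMap M M' (c j) * u j) < 1 := fun j₀ =>
    hu.2.2.2 (z * u j₀) (by rw [map_mul]; exact mul_le_one' hz (hu.2.1 j₀))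
  choose c hc hc' using hex
  have h1 := Place.v_trace_sub_lt_one h hu hz' (Matrix.of fun j j₀ => c j₀ j)
    (fun i j => hc j i) hc'
  have : CharP M p := charP_of_injective_algebraMap (algebraMap k M).injective p
  rwa [(CharP.cast_eq_zero_iff M p _).2 hp, zero_mul, sub_zero] at h1

/-- T3 -/
theorem Place.v_trace_eq_one_of_charZero [CharZero k] {Q : Place k M'} {P : Place k M}
    (h : Q.Over P) {z : M'} (hz : Q.v (z - 1) < 1)
    (hz' : ∀ Q' : Place k M', Q'.Over P → Q' ≠ Q → Q'.v z < 1) :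
    P.v (Algebra.trace M M' z) = 1 := by
  classical
  obtain ⟨f, u, hu⟩ := Place.exists_resBasis h
  obtain ⟨hf0, hu1⟩ := IsResBasis.aux hu
  have h1 := Place.v_trace_sub_lt_one h hu hz' (1 : Matrix (Fin f) (Fin f) M)
    (fun i j => by rw [Matrix.one_apply]; split_ifs <;> simp)
    (fun j₀ => by
      have h2 : ∑ j, algebraMap M M' ((1 : Matrix (Fin f) (Fin f) M) j j₀) * u j = u j₀ := by
        rw [Finset.sum_eq_single j₀ (fun j _ hj => by simp [hj])
          (fun h => absurd (Finset.mem_univ _) h)]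
        simp
      rw [h2, ← sub_one_mul, map_mul, hu1, mul_one]
      exact hz)
  rw [Matrix.trace_one, Fintype.card_fin] at h1
  have h3 : P.v ((Q.ramIdx P : M) * (f : M)) = 1 := by
    have h4 : ((Q.ramIdx P : M) * (f : M)) = algebraMap k M ((Q.ramIdx P * f : ℕ) : k) := by
      push_cast
      simp
    rw [h4]
    apply P.triv
    exact_mod_cast (Nat.mul_pos h.ramIdx_pos hf0).ne'
  have h5 : Algebra.trace M M' z = (Algebra.trace M M' z - (Q.ramIdx P : M) * (f : M))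
      + (Q.ramIdx P : M) * (f : M) := by ring
  rw [h5, Valuation.map_add_eq_of_lt_right _ (by rw [h3]; exact h1), h3]

end Claimed.Agent.R280
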