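import Claimed.Agent.R280.FF.Ord

/-!
# Row 280, package FF, leaf FF1a (Trans): transcendental elements of a function field

Pure field theory, no places.
* `IsFF.finite_adjoin`: `M` is finite over `k(x)` for EVERY transcendental `x`.  Plan: let `x₀` be the
  element of the definition.  `x` is algebraic over `k(x₀)`; clearing denominators gives
  `F ∈ k[X, Y]`, `F ≠ 0`, `F(x, x₀) = 0`.  Since `x` is transcendental over `k`, `F(x, Y) ≠ 0` in
  `k(x)[Y]`, so `x₀` is algebraic over `k(x)` (in Mathlib: the exchange property of algebraic
  closure, e.g. `IsAlgebraic.adjoin_of_forall_isAlgebraic` / `Algebra.trdeg` tools).  Then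
  `M = k(x₀)(m₁, …, m_r)` is generated over `k(x)` by the finitely many algebraic elements
  `x₀, m₁, …, m_r`, hence finite (`IntermediateField.finiteDimensional_adjoin`).
* `finrank_adjoin_tower`: `k(x) ⊆ M` and `k(x') ⊆ M'`, `x'` the image of `x`, are isomorphic compatibly
  with `M → M'`.
-/

set_option autoImplicit false

namespace Claimed.Agent.R280

variable {k M : Type*} [Field k] [Field M] [Algebra k M]

open scoped IntermediateField.algebraAdjoinAdjoin in
theorem ffT_isAlgebraic_adjoin [IsFF k M] {x : M} (hx : Transcendental k x) :
    Algebra.IsAlgebraic (IntermediateField.adjoin k {x}) M := by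
  obtain ⟨x₀, hx₀, hfin⟩ := IsFF.exists_finite (k := k) (M := M)
  have h1 : Algebra.IsAlgebraic (IntermediateField.adjoin k {x₀}) M := Algebra.IsAlgebraic.of_finite _ _
  have h2 : Algebra.IsAlgebraic (Algebra.adjoin k {x₀}) M :=
    (IsFractionRing.comap_isAlgebraic_iff (K := IntermediateField.adjoin k {x₀})).mpr h1
  have h3 : Algebra.trdeg k M ≤ 1 := by
    have := Algebra.IsAlgebraic.trdeg_le_cardinalMk k ({x₀} : Set M)
    simpa using this
  have hind : AlgebraicIndependent k (fun _ : Unit => x) := algebraicIndependent_unique_type_iff.2 hx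
  have hb : IsTranscendenceBasis k (fun _ : Unit => x) :=
    hind.isTranscendenceBasis_of_lift_trdeg_le_of_finite (by simpa using h3)
  have h4 := hb.isAlgebraic_field
  have h5 : Set.range (fun _ : Unit => x) = {x} := Set.range_const
  rw [h5] at h4
  exact h4

theorem IsFF.finite_adjoin [IsFF k M] {x : M} (hx : Transcendental k x) :
    Module.Finite (IntermediateField.adjoin k {x}) M := by
  classical
  obtain ⟨x₀, hx₀, hfin⟩ := IsFF.exists_finite (k := k) (M := M)
  have halg := ffT_isAlgebraic_adjoin hx
  obtain ⟨s, hs⟩ := hfin.fg_top
  set K := IntermediateField.adjoin k {x} with hK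
  have hfinS : FiniteDimensional K (IntermediateField.adjoin K (insert x₀ (s : Set M))) := by
    have : Finite (insert x₀ (s : Set M) : Set M) := (Set.Finite.insert _ s.finite_toSet).to_subtype
    exact IntermediateField.finiteDimensional_adjoin fun y _ => (halg.isAlgebraic y).isIntegral
  have htop : IntermediateField.adjoin K (insert x₀ (s : Set M)) = ⊤ := by
    rw [eq_top_iff]
    intro m _
    have hle : IntermediateField.adjoin k {x₀} ≤
        (IntermediateField.adjoin K (insert x₀ (s : Set M))).restrictScalars k := by
      rw [IntermediateField.adjoin_simple_le_iff]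
      exact IntermediateField.subset_adjoin K _ (Set.mem_insert _ _)
    have hm : m ∈ Submodule.span (IntermediateField.adjoin k {x₀}) (s : Set M) := by
      rw [hs]; trivial
    induction hm using Submodule.span_induction with
    | mem y hy => exact IntermediateField.subset_adjoin K _ (Set.mem_insert_of_mem _ hy)
    | zero => exact zero_mem _
    | add a b _ _ ha hb => exact add_mem (ha trivial) (hb trivial)
    | smul c y _ hy =>
      rw [Algebra.smul_def]
      exact mul_mem (hle c.2) (hy trivial)
  rw [htop] at hfinS
  exact Module.Finite.equiv (IntermediateField.topEquiv (F := K) (E := M)).toLinearEquiv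

theorem IsFF.exists_transcendental (k M : Type*) [Field k] [Field M] [Algebra k M] [IsFF k M] :
    ∃ x : M, Transcendental k x :=
  let ⟨x, hx, _⟩ := IsFF.exists_finite (k := k) (M := M); ⟨x, hx⟩

theorem finrank_adjoin_pos [IsFF k M] {x : M} (hx : Transcendental k x) :
    0 < Module.finrank (IntermediateField.adjoin k {x}) M :=
  have := IsFF.finite_adjoin hx
  Module.finrank_pos

theorem ffT_adjoin_map {M' : Type*} [Field M'] [Algebra k M'] [Algebra M M'] [IsScalarTower k M M'] (x : M) :
    (IntermediateField.adjoin k {x}).map (IsScalarTower.toAlgHom k M M') =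
      IntermediateField.adjoin k {algebraMap M M' x} := by
  rw [IntermediateField.adjoin_map]
  simp

/-- `k(x) ≃ k(x')` -/
noncomputable def ffTEquiv {M' : Type*} [Field M'] [Algebra k M'] [Algebra M M'] [IsScalarTower k M M'] (x : M) :
    IntermediateField.adjoin k {x} ≃+* IntermediateField.adjoin k {algebraMap M M' x} :=
  ((IntermediateField.equivMap (IntermediateField.adjoin k {x}) (IsScalarTower.toAlgHom k M M')).trans
    (IntermediateField.equivOfEq (ffT_adjoin_map x))).toRingEquiv

theorem ffTEquiv_comm {M' : Type*} [Field M'] [Algebra k M'] [Algebra M M'] [IsScalarTower k M M'] (x : M) :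
    (algebraMap (IntermediateField.adjoin k {algebraMap M M' x}) M').comp (ffTEquiv (M' := M') x).toRingHom =
      (RingEquiv.refl M').toRingHom.comp (algebraMap (IntermediateField.adjoin k {x}) M') := by
  ext a
  rfl

theorem isFF_of_finite (k M M' : Type*) [Field k] [Field M] [Field M'] [Algebra k M] [Algebra k M']
    [Algebra M M'] [IsScalarTower k M M'] [IsFF k M] [Module.Finite M M'] : IsFF k M' := by
  obtain ⟨x, hx, hfin⟩ := IsFF.exists_finite (k := k) (M := M)
  refine ⟨algebraMap M M' x, (_root_.transcendental_algebraMap_iff (algebraMap M M').injective).2 hx, ?_⟩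
  have h1 : Module.Finite (IntermediateField.adjoin k {x}) M' := Module.Finite.trans M M'
  exact Module.Finite.of_equiv_equiv (ffTEquiv (M' := M') x) (RingEquiv.refl M') (ffTEquiv_comm x)

theorem transcendental_algebraMap_iff {M' : Type*} [Field M'] [Algebra k M'] [Algebra M M']
    [IsScalarTower k M M'] {x : M} :
    Transcendental k (algebraMap M M' x) ↔ Transcendental k x :=
  _root_.transcendental_algebraMap_iff (algebraMap M M').injective

/-- `[M' : k(x)] = [M' : M] [M : k(x)]` -/
theorem finrank_adjoin_tower {M' : Type*} [Field M'] [Algebra k M'] [Algebra M M']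
    [IsScalarTower k M M'] (x : M) :
    Module.finrank (IntermediateField.adjoin k {algebraMap M M' x}) M' =
      Module.finrank M M' * Module.finrank (IntermediateField.adjoin k {x}) M := by
  rw [← Algebra.finrank_eq_of_equiv_equiv (ffTEquiv (M' := M') x) (RingEquiv.refl M') (ffTEquiv_comm x),
    mul_comm, Module.finrank_mul_finrank]

/-- `k(x⁻¹) = k(x)` -/
theorem finrank_adjoin_inv (x : M) :
    Module.finrank (IntermediateField.adjoin k {x⁻¹}) M =
      Module.finrank (IntermediateField.adjoin k {x}) M := by
  have h : IntermediateField.adjoin k {x⁻¹} = IntermediateField.adjoin k {x} := by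
    apply le_antisymm
    · rw [IntermediateField.adjoin_simple_le_iff]
      exact inv_mem (IntermediateField.mem_adjoin_simple_self k x)
    · rw [IntermediateField.adjoin_simple_le_iff]
      have := inv_mem (IntermediateField.mem_adjoin_simple_self k x⁻¹)
      rwa [inv_inv] at this
  rw [h]

end Claimed.Agent.R280
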