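import Claimed.Agent.R280.FF.Residue
import Claimed.Agent.R280.FF.Approx

/-!
# Row 280, package FF, leaf FF2b (ZeroBound): `∑ ord_P(x) deg P ≤ [M : k(x)]`, finiteness of zeros and
poles (Stichtenoth 1.3.3, 1.3.4)

Plan for `sum_ord_mul_deg_le`.  For `P ∈ S` put `e_P = P.ord x > 0`, choose a uniformiser `t_P`, lifts
`u_{P,j}` (`j < deg P`) of a `k`-basis of `P.Res`, and by `weak_approx` elements `z_{P,i,j}`
(`i < e_P`) with `P.v (z_{P,i,j} - t_P ^ i u_{P,j}) ≤ P.v x` and `Q.v z_{P,i,j} ≤ Q.v x` for `Q ∈ S`, `Q ≠ P`.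
Apply `card_le_finrank_adjoin_of_valuation` with `γ = 1`: for `c ≠ 0` choose `P` with some `c_{P,i,j} ≠ 0` and
`i` minimal; then `P.v (∑ c z) = exp (-i) > P.v x` (`Place.v_sum_eq_one`).
-/

set_option autoImplicit false

namespace Claimed.Agent.R280

open WithZero

variable {k M : Type*} [Field k] [Field M] [Algebra k M]

theorem Place.zb_v_smul_le (P : Place k M) (c : k) (f : M) : P.v (c • f) ≤ P.v f := by
  rw [Algebra.smul_def, map_mul]
  by_cases h : c = 0
  · simp [h]
  · rw [P.triv c h, one_mul]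

theorem Place.zb_v_term_le_one (P : Place k M) {t : M} (ht : P.v t = exp (-1)) (u : P.O) (i : ℕ) :
    P.v (t ^ i * (u : M)) ≤ 1 := by
  rw [map_mul, map_pow, ht]
  refine mul_le_one' (pow_le_one' ?_ i) u.2
  rw [← exp_zero, exp_le_exp]; norm_num

theorem Place.zb_v_F_le_one (P : Place k M) {t : M} (ht : P.v t = exp (-1)) {d : ℕ} (u : Fin d → P.O)
    (e : ℕ) (c : Fin e → Fin d → k) :
    P.v (∑ i, ∑ j, c i j • (t ^ (i : ℕ) * (u j : M))) ≤ 1 :=
  P.v.map_sum_le fun _ _ => P.v.map_sum_le fun _ _ =>
    (P.zb_v_smul_le _ _).trans (P.zb_v_term_le_one ht _ _)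

theorem zb_F_succ (t : M) {d : ℕ} (u : Fin d → M) (e : ℕ) (c : Fin (e + 1) → Fin d → k) :
    ∑ i, ∑ j, c i j • (t ^ (i : ℕ) * u j)
      = ∑ j, c 0 j • u j + t * ∑ i : Fin e, ∑ j, c i.succ j • (t ^ (i : ℕ) * u j) := by
  rw [Fin.sum_univ_succ]
  congr 1
  · simp
  · rw [Finset.mul_sum]
    refine Finset.sum_congr rfl fun i _ => ?_
    rw [Finset.mul_sum]
    refine Finset.sum_congr rfl fun j _ => ?_
    rw [Fin.val_succ, pow_succ', mul_assoc, mul_smul_comm]

/-- local independence: the elements `t ^ i u_j`, `i < e`, are independent modulo `t ^ e` -/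
theorem Place.zb_local (P : Place k M) {t : M} (ht : P.v t = exp (-1)) {d : ℕ} (u : Fin d → P.O)
    (hu : LinearIndependent k fun j => IsLocalRing.residue P.O (u j)) :
    ∀ (e : ℕ) (c : Fin e → Fin d → k), c ≠ 0 →
      exp (-(e : ℤ)) < P.v (∑ i, ∑ j, c i j • (t ^ (i : ℕ) * (u j : M))) := by
  intro e
  induction e with
  | zero => intro c hc; exact absurd (Subsingleton.elim c 0) hc
  | succ e ih =>
    intro c hc
    rw [zb_F_succ t (fun j => (u j : M)) e c]
    have hle := P.zb_v_F_le_one ht u e fun i => c i.succ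
    by_cases h0 : c 0 = 0
    · have hc' : (fun i : Fin e => c i.succ) ≠ 0 := by
        intro h
        apply hc
        funext i
        refine Fin.cases h0 (fun i => ?_) i
        exact congrFun h i
      have := ih _ hc'
      simp only [h0, Pi.zero_apply, zero_smul, Finset.sum_const_zero, zero_add]
      rw [map_mul, ht]
      have e1 : exp (-((e + 1 : ℕ) : ℤ)) = exp (-1) * exp (-(e : ℤ)) := by
        rw [← exp_add]; congr 1; push_cast; ring
      rw [e1]
      exact mul_lt_mul_of_pos_left this exp_pos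
    · have h1 := P.v_sum_eq_one u hu h0
      have h2 : P.v (t * ∑ i : Fin e, ∑ j, c i.succ j • (t ^ (i : ℕ) * (u j : M))) < 1 := by
        rw [map_mul, ht]
        refine lt_of_le_of_lt (mul_le_mul_right hle _) ?_
        rw [mul_one, ← exp_zero, exp_lt_exp]; norm_num
      rw [Valuation.map_add_eq_of_lt_left _ (by rw [h1]; exact h2), h1, ← exp_zero, exp_lt_exp]
      push_cast
      omega

theorem Place.zb_exists_lifts [IsFF k M] (P : Place k M) :
    ∃ u : Fin P.deg → P.O, LinearIndependent k fun j => IsLocalRing.residue P.O (u j) := by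
  have := P.finite_res
  let b : Module.Basis (Fin P.deg) k P.Res := Module.finBasis k P.Res
  choose u hu using fun j => IsLocalRing.residue_surjective (b j)
  refine ⟨u, ?_⟩
  simp only [hu]
  exact b.linearIndependent

variable [IsFF k M]

theorem sum_ord_mul_deg_le (S : Finset (Place k M)) {x : M} (hx0 : x ≠ 0)
    (hx : ∀ P ∈ S, P.v x < 1) :
    ∑ P ∈ S, P.ord x * (P.deg : ℤ) ≤ Module.finrank (IntermediateField.adjoin k {x}) M := by
  classical
  rcases S.eq_empty_or_nonempty with rfl | ⟨P0, hP0⟩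
  · simp
  have htr : Transcendental k x := P0.transcendental_of_v_ne_one hx0 (hx P0 hP0).ne
  have := IsFF.finite_adjoin htr
  have hpos : ∀ P ∈ S, 0 < P.ord x := fun P hP => (P.v_lt_one_iff hx0).1 (hx P hP)
  let e : Place k M → ℕ := fun P => (P.ord x).toNat
  have he : ∀ P ∈ S, (e P : ℤ) = P.ord x := fun P hP => Int.toNat_of_nonneg (hpos P hP).le
  choose t ht using fun P : Place k M => P.exists_unif
  choose u hu using fun P : Place k M => P.zb_exists_lifts
  let ι := Σ P : S, Fin (e P) × Fin (P : Place k M).deg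
  let a : ι → Place k M → M := fun idx Q =>
    if Q = idx.1 then t idx.1 ^ (idx.2.1 : ℕ) * (u idx.1 idx.2.2 : M) else 0
  let N : ℤ := ∑ Q ∈ S, Q.ord x
  have hN : ∀ P ∈ S, P.ord x ≤ N := fun P hP =>
    Finset.single_le_sum (f := fun Q : Place k M => Q.ord x) (fun Q hQ => (hpos Q hQ).le) hP
  choose z hz using fun idx : ι => weak_approx S (a idx) N
  have ha1 : ∀ (idx : ι) (Q : Place k M), Q.v (a idx Q) ≤ 1 := by
    intro idx Q
    by_cases h : Q = idx.1
    · simp only [a, if_pos h]
      rw [h]
      exact Place.zb_v_term_le_one _ (ht _) _ _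
    · simp only [a, if_neg h, map_zero, zero_le]
  have key := card_le_finrank_adjoin_of_valuation (k := k) (Γ₀ := ℤᵐ⁰) (x := x) z ?_
  · have hcard : (Fintype.card ι : ℤ) = ∑ P ∈ S, P.ord x * (P.deg : ℤ) := by
      rw [Fintype.card_sigma]
      simp only [Fintype.card_prod, Fintype.card_fin]
      rw [Finset.sum_coe_sort S fun P => e P * P.deg]
      push_cast
      exact Finset.sum_congr rfl fun P hP => by rw [he P hP]
    rw [← hcard]
    exact_mod_cast key
  · intro c hc
    obtain ⟨idx0, hidx0⟩ := Function.ne_iff.1 hc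
    set Ps : S := idx0.1 with hPs
    have hP : (Ps : Place k M) ∈ S := Ps.2
    have hN0 : exp (-N) ≤ exp (-((e Ps : ℕ) : ℤ)) := by
      rw [exp_le_exp, he _ hP]
      have := hN _ hP
      omega
    have hN1 : exp (-N) ≤ (1 : ℤᵐ⁰) := by
      rw [← exp_zero, exp_le_exp]
      have := hN _ hP
      have := hpos _ hP
      omega
    refine ⟨(Ps : Place k M).v, 1, (Ps : Place k M).triv, hx _ hP, fun idx => ?_, ?_⟩
    · have : z idx = (z idx - a idx Ps) + a idx Ps := by ring
      rw [this]
      exact Valuation.map_add_le _ ((hz idx _ hP).trans hN1) (ha1 idx _)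
    · have hdec : ∑ idx, c idx • z idx
          = ∑ i, ∑ j, c ⟨Ps, (i, j)⟩ • (t Ps ^ (i : ℕ) * (u Ps j : M))
            + ∑ idx, c idx • (z idx - a idx Ps) := by
        have h1 : ∑ idx, c idx • z idx = ∑ idx, c idx • a idx Ps + ∑ idx, c idx • (z idx - a idx Ps) := by
          rw [← Finset.sum_add_distrib]
          refine Finset.sum_congr rfl fun idx _ => ?_
          rw [← smul_add]
          congr 1
          ring
        rw [h1]
        congr 1
        rw [Fintype.sum_sigma, Finset.sum_eq_single Ps]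
        · rw [Fintype.sum_prod_type]
          refine Finset.sum_congr rfl fun i _ => Finset.sum_congr rfl fun j _ => ?_
          simp only [a, if_true]
        · intro Q _ hQ
          refine Finset.sum_eq_zero fun b _ => ?_
          have : (Ps : Place k M) ≠ Q := fun h => hQ (Subtype.ext h.symm)
          simp only [a, if_neg this, smul_zero]
        · intro h; exact absurd (Finset.mem_univ _) h
      have hc' : (fun (i : Fin (e Ps)) (j : Fin (Ps : Place k M).deg) => c ⟨Ps, (i, j)⟩) ≠ 0 := by
        intro h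
        apply hidx0
        have := congrFun (congrFun h idx0.2.1) idx0.2.2
        exact this
      have hloc := Place.zb_local (Ps : Place k M) (ht Ps) (u Ps) (hu Ps) (e Ps) _ hc'
      have hsec : (Ps : Place k M).v (∑ idx, c idx • (z idx - a idx Ps)) ≤ exp (-((e Ps : ℕ) : ℤ)) :=
        Valuation.map_sum_le _ fun idx _ =>
          ((Place.zb_v_smul_le _ _ _).trans (hz idx _ hP)).trans hN0
      rw [hdec, Valuation.map_add_eq_of_lt_left _ (lt_of_le_of_lt hsec hloc), mul_one,
        Place.v_eq_exp_neg_ord _ hx0, ← he _ hP]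
      exact hloc

theorem finite_setOf_v_lt_one {f : M} (hf : f ≠ 0) : {P : Place k M | P.v f < 1}.Finite := by
  by_contra hinf
  obtain ⟨S, hS, hcard⟩ := Set.Infinite.exists_subset_card_eq hinf
    (Module.finrank (IntermediateField.adjoin k {f}) M + 1)
  have h1 := sum_ord_mul_deg_le S hf fun P hP => hS hP
  have h2 : (S.card : ℤ) ≤ ∑ P ∈ S, P.ord f * (P.deg : ℤ) := by
    rw [Finset.card_eq_sum_ones]
    push_cast
    refine Finset.sum_le_sum fun P hP => ?_
    have a1 : 0 < P.ord f := (P.v_lt_one_iff hf).1 (hS hP)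
    have a2 : (0 : ℤ) < P.deg := by exact_mod_cast P.deg_pos
    nlinarith
  rw [hcard] at h2
  push_cast at h2
  omega

theorem finite_setOf_v_ne_one {f : M} (hf : f ≠ 0) : {P : Place k M | P.v f ≠ 1}.Finite := by
  refine ((finite_setOf_v_lt_one hf).union (finite_setOf_v_lt_one (inv_ne_zero hf))).subset ?_
  intro P hP
  rcases lt_or_gt_of_ne (show P.v f ≠ 1 from hP) with h | h
  · exact Or.inl h
  · refine Or.inr ?_
    show P.v f⁻¹ < 1
    rw [map_inv₀]
    exact inv_lt_one_of_one_lt₀ h

theorem finite_support_ord (f : M) :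
    (Function.support fun P : Place k M => Finsupp.single P (P.ord f)).Finite := by
  by_cases hf : f = 0
  · subst hf
    simp
  · refine (finite_setOf_v_ne_one hf).subset ?_
    intro P hP h1
    apply hP
    show Finsupp.single P (P.ord f) = 0
    rw [Place.ord, h1]
    simp

theorem divf_apply {f : M} (hf : f ≠ 0) (P : Place k M) : divf (k := k) f P = P.ord f := by
  classical
  unfold divf
  have h := AddMonoidHom.map_finsum (Finsupp.applyAddHom P) (finite_support_ord (k := k) f)
  simp only [Finsupp.applyAddHom_apply] at h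
  rw [h, finsum_eq_single _ P]
  · simp
  · intro Q hQ
    simp [hQ]

omit [IsFF k M] in
@[simp] theorem divf_zero : divf (k := k) (0 : M) = 0 := by
  simp [divf]

theorem divf_mul {f g : M} (hf : f ≠ 0) (hg : g ≠ 0) :
    divf (k := k) (f * g) = divf f + divf g := by
  ext P
  rw [Finsupp.add_apply, divf_apply (mul_ne_zero hf hg), divf_apply hf, divf_apply hg,
    P.ord_mul hf hg]

theorem divf_inv (f : M) : divf (k := k) f⁻¹ = -divf f := by
  by_cases hf : f = 0
  · simp [hf]
  · ext P
    rw [Finsupp.neg_apply, divf_apply (inv_ne_zero hf), divf_apply hf, P.ord_inv]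

end Claimed.Agent.R280
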